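import Vale.Agent.P159.H264.OdeGen

/-!
P159 (helper264): final assembly from the relations (V), (P), (S).

Data: `s n ↓ 0` (block stiffness excess `S_{2^n} - 2/π`), activities `y n > 0`, `L n = log C(2^n)`,
and possibly another stiffness excess `q n` in (S) with `∑ |q - s| < ∞`.
`kap = π log 2`, `TT s n = ∑_{i<n} s i`.
-/

open Filter Topology Finset

namespace Vale.Agent.P159.H264

/-- `κ = π log 2` -/
noncomputable def kap : ℝ := Real.pi * Real.log 2

theorem log_two_pos : 0 < Real.log 2 := Real.log_pos (by norm_num)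

theorem kap_pos : 0 < kap := mul_pos Real.pi_pos log_two_pos

section
variable {s q x F y L : ℕ → ℝ}

/-! ### integrated relations -/

theorem integ_congr_up {P : ℕ → ℕ → ℝ}
    (h : ∀ n M : ℕ, n ≤ M → x n - x M ≤ P n M + F n + F M) :
    ∀ n M : ℕ, n ≤ M → s n - s M ≤ P n M + (F n + |x n - s n|) + (F M + |x M - s M|) := by
  intro n M hnM
  have h1 := h n M hnM
  have h2 := neg_abs_le (x n - s n)
  have h3 := le_abs_self (x M - s M)
  linarith

theorem integ_congr_low {P : ℕ → ℕ → ℝ}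
    (h : ∀ n M : ℕ, n ≤ M → P n M - F n - F M ≤ x n - x M) :
    ∀ n M : ℕ, n ≤ M → P n M - (F n + |x n - s n|) - (F M + |x M - s M|) ≤ s n - s M := by
  intro n M hnM
  have h1 := h n M hnM
  have h2 := neg_abs_le (x M - s M)
  have h3 := le_abs_self (x n - s n)
  linarith

theorem integ_of_local_up {p : ℕ → ℝ} (hF : ∀ n, 0 ≤ F n)
    (h : ∀ n, x n - x (n + 1) ≤ p n + (F n - F (n + 1))) :
    ∀ n M : ℕ, n ≤ M → x n - x M ≤ ∑ m ∈ Ico n M, p m + F n + F M := by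
  intro n M hnM
  have h1 : x n - x M ≤ ∑ m ∈ Ico n M, p m + F n - F M := by
    induction M, hnM using Nat.le_induction with
    | base => simp
    | succ M hM ih =>
      rw [sum_Ico_succ_top hM]
      have := h M
      linarith
  linarith [hF M]

theorem integ_of_local_low {p : ℕ → ℝ} (hF : ∀ n, 0 ≤ F n)
    (h : ∀ n, p n - (F n - F (n + 1)) ≤ x n - x (n + 1)) :
    ∀ n M : ℕ, n ≤ M → ∑ m ∈ Ico n M, p m - F n - F M ≤ x n - x M := by
  intro n M hnM
  have h1 : ∑ m ∈ Ico n M, p m - F n + F M ≤ x n - x M := by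
    induction M, hnM using Nat.le_induction with
    | base => simp
    | succ M hM ih =>
      rw [sum_Ico_succ_top hM]
      have := h M
      linarith
  linarith [hF M]

/-! ### T from (V) and (P) -/

theorem log_nn (n : ℕ) : 0 ≤ Real.log ((n : ℝ) + 1) := Real.log_nonneg (by
  have : (0 : ℝ) ≤ n := Nat.cast_nonneg n
  linarith)

theorem one_le_cast (n : ℕ) : (1 : ℝ) ≤ (n : ℝ) + 1 := by
  have : (0 : ℝ) ≤ n := Nat.cast_nonneg n
  linarith

/-- **T1, upper half of the flow**: (V_up) and (P_up) with power losses give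
`κ T_n ≤ (1+ε) log n + K`. -/
theorem T1_up (hs : Antitone s) (hs0 : Tendsto s atTop (𝓝 0)) (hy : ∀ n, 0 < y n)
    (hV : ∀ ε : ℝ, 0 < ε → ∃ K : ℝ, ∀ n : ℕ,
      Real.log (y n) ≤ -(kap * TT s n) + ε * Real.log ((n : ℝ) + 1) + K)
    (hP : ∀ ε : ℝ, 0 < ε → ∃ C : ℝ, 0 < C ∧ ∃ F : ℕ → ℝ, (∀ n, 0 ≤ F n) ∧ Summable F ∧
      ∀ n M : ℕ, n ≤ M → s n - s M ≤
        C * ∑ m ∈ Ico n M, ((m : ℝ) + 1) ^ ε * y m ^ (2 - ε) + F n + F M)
    {ε : ℝ} (hε : 0 < ε) :
    ∃ K : ℝ, ∀ n : ℕ, kap * TT s n ≤ (1 + ε) * Real.log ((n : ℝ) + 1) + K := by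
  set δ : ℝ := min (ε / 4) (1 / 4) with hδ
  have hδ0 : 0 < δ := lt_min (by linarith) (by norm_num)
  have hδ1 : δ ≤ ε / 4 := min_le_left _ _
  have hδ2 : δ ≤ 1 / 4 := min_le_right _ _
  obtain ⟨K, hK⟩ := hV δ hδ0
  obtain ⟨C, hC, F, hF, hFs, hPF⟩ := hP δ hδ0
  have hk := kap_pos
  have h1 : ∀ m : ℕ, ((m : ℝ) + 1) ^ δ * y m ^ (2 - δ) ≤
      Real.exp (K * (2 - δ)) * (((m : ℝ) + 1) ^ (3 * δ) *
        Real.exp (-((2 - δ) * kap * TT s m))) := by
    intro m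
    have hm1 := one_le_cast m
    have hm0 : 0 < (m : ℝ) + 1 := by linarith
    have h2 : y m ≤ Real.exp (-(kap * TT s m) + δ * Real.log ((m : ℝ) + 1) + K) := by
      rw [← Real.exp_log (hy m)]
      exact Real.exp_le_exp.2 (hK m)
    have h3 : y m ^ (2 - δ) ≤ Real.exp (K * (2 - δ)) * (((m : ℝ) + 1) ^ (2 * δ) *
        Real.exp (-((2 - δ) * kap * TT s m))) := by
      calc y m ^ (2 - δ) ≤ Real.exp (-(kap * TT s m) + δ * Real.log ((m : ℝ) + 1) + K) ^
            (2 - δ) := Real.rpow_le_rpow (hy m).le h2 (by linarith)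
        _ = Real.exp (K * (2 - δ)) * (((m : ℝ) + 1) ^ (δ * (2 - δ)) *
            Real.exp (-((2 - δ) * kap * TT s m))) := by
            rw [← Real.exp_mul, Real.rpow_def_of_pos hm0, ← Real.exp_add, ← Real.exp_add]
            congr 1; ring
        _ ≤ _ := by
            refine mul_le_mul_of_nonneg_left (mul_le_mul_of_nonneg_right ?_
              (Real.exp_pos _).le) (Real.exp_pos _).le
            exact Real.rpow_le_rpow_of_exponent_le hm1 (by nlinarith)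
    calc ((m : ℝ) + 1) ^ δ * y m ^ (2 - δ) ≤ ((m : ℝ) + 1) ^ δ *
          (Real.exp (K * (2 - δ)) * (((m : ℝ) + 1) ^ (2 * δ) *
          Real.exp (-((2 - δ) * kap * TT s m)))) :=
          mul_le_mul_of_nonneg_left h3 (by positivity)
      _ = Real.exp (K * (2 - δ)) * ((((m : ℝ) + 1) ^ δ * ((m : ℝ) + 1) ^ (2 * δ)) *
          Real.exp (-((2 - δ) * kap * TT s m))) := by ring
      _ = _ := by
          rw [← Real.rpow_add hm0, show δ + 2 * δ = 3 * δ by ring]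
  have hb : 0 < (2 - δ) * kap := mul_pos (by linarith) hk
  obtain ⟨β, hβ, hβ'⟩ := up_gen (b := (2 - δ) * kap) (C := C * Real.exp (K * (2 - δ)))
    (ε := 3 * δ) hb (by positivity) (by linarith) (by linarith) hs hs0 hF hFs (by
      intro n M hnM
      refine (hPF n M hnM).trans ?_
      have h2 : ∑ m ∈ Ico n M, ((m : ℝ) + 1) ^ δ * y m ^ (2 - δ) ≤
          Real.exp (K * (2 - δ)) * ∑ m ∈ Ico n M, ((m : ℝ) + 1) ^ (3 * δ) *
            Real.exp (-((2 - δ) * kap * TT s m)) := by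
        rw [mul_sum]
        exact sum_le_sum fun m _ => h1 m
      have h3 := mul_le_mul_of_nonneg_left h2 hC.le
      linarith)
  refine ⟨(1 + ε) * |Real.log β|, fun n => ?_⟩
  have hn := log_nn n
  have hn0 : 0 < (n : ℝ) + 1 := by linarith [one_le_cast n]
  have h2 := Real.log_le_log (Real.exp_pos _) (hβ' n)
  rw [Real.log_exp, Real.log_mul hβ.ne' hn0.ne'] at h2
  have h3 : kap * TT s n ≤ (2 + 3 * δ) / (2 - δ) * (Real.log ((n : ℝ) + 1) + |Real.log β|) := by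
    have h4 : (2 - δ) * kap / (2 + 3 * δ) * TT s n = (2 - δ) / (2 + 3 * δ) *
        (kap * TT s n) := by ring
    rw [h4] at h2
    have h5 : (2 - δ) / (2 + 3 * δ) * (kap * TT s n) ≤
        Real.log ((n : ℝ) + 1) + |Real.log β| := by
      have := le_abs_self (Real.log β)
      linarith
    have h6 : 0 < 2 - δ := by linarith
    have h7 : 0 < 2 + 3 * δ := by linarith
    rw [div_mul_eq_mul_div, div_le_iff₀ h7] at h5
    rw [div_mul_eq_mul_div, le_div_iff₀ h6]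
    linarith
  have h4 : (2 + 3 * δ) / (2 - δ) ≤ 1 + ε := by
    rw [div_le_iff₀ (by linarith)]
    nlinarith
  have h5 : 0 ≤ Real.log ((n : ℝ) + 1) + |Real.log β| := add_nonneg hn (abs_nonneg _)
  have h6 := mul_le_mul_of_nonneg_right h4 h5
  linarith

/-- **T1, lower half of the flow** -/
theorem T1_low (hs : Antitone s) (hs0 : Tendsto s atTop (𝓝 0)) (hy : ∀ n, 0 < y n)
    (hV : ∀ ε : ℝ, 0 < ε → ∃ K : ℝ, ∀ n : ℕ,
      -(kap * TT s n) - ε * Real.log ((n : ℝ) + 1) - K ≤ Real.log (y n))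
    (hP : ∀ ε : ℝ, 0 < ε → ∃ c : ℝ, 0 < c ∧ ∃ F : ℕ → ℝ, (∀ n, 0 ≤ F n) ∧ Summable F ∧
      ∀ n M : ℕ, n ≤ M →
        c * ∑ m ∈ Ico n M, ((m : ℝ) + 1) ^ (-ε) * y m ^ (2 + ε) - F n - F M ≤ s n - s M)
    {ε : ℝ} (hε : 0 < ε) :
    ∃ K : ℝ, ∀ n : ℕ, (1 - ε) * Real.log ((n : ℝ) + 1) - K ≤ kap * TT s n := by
  set δ : ℝ := min (ε / 4) (1 / 4) with hδ
  have hδ0 : 0 < δ := lt_min (by linarith) (by norm_num)
  have hδ1 : δ ≤ ε / 4 := min_le_left _ _
  have hδ2 : δ ≤ 1 / 4 := min_le_right _ _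
  obtain ⟨K, hK⟩ := hV δ hδ0
  obtain ⟨c, hc, F, hF, hFs, hPF⟩ := hP δ hδ0
  have hk := kap_pos
  have h1 : ∀ m : ℕ, Real.exp (-(K * (2 + δ))) * (((m : ℝ) + 1) ^ (-(4 * δ)) *
        Real.exp (-((2 + δ) * kap * TT s m))) ≤ ((m : ℝ) + 1) ^ (-δ) * y m ^ (2 + δ) := by
    intro m
    have hm1 := one_le_cast m
    have hm0 : 0 < (m : ℝ) + 1 := by linarith
    have h2 : Real.exp (-(kap * TT s m) - δ * Real.log ((m : ℝ) + 1) - K) ≤ y m := by
      rw [← Real.exp_log (hy m)]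
      exact Real.exp_le_exp.2 (hK m)
    have h3 : Real.exp (-(K * (2 + δ))) * (((m : ℝ) + 1) ^ (-(3 * δ)) *
        Real.exp (-((2 + δ) * kap * TT s m))) ≤ y m ^ (2 + δ) := by
      calc _ ≤ Real.exp (-(K * (2 + δ))) * (((m : ℝ) + 1) ^ (-(δ * (2 + δ))) *
            Real.exp (-((2 + δ) * kap * TT s m))) := by
            refine mul_le_mul_of_nonneg_left (mul_le_mul_of_nonneg_right ?_
              (Real.exp_pos _).le) (Real.exp_pos _).le
            exact Real.rpow_le_rpow_of_exponent_le hm1 (by nlinarith)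
        _ = Real.exp (-(kap * TT s m) - δ * Real.log ((m : ℝ) + 1) - K) ^ (2 + δ) := by
            rw [← Real.exp_mul, Real.rpow_def_of_pos hm0, ← Real.exp_add, ← Real.exp_add]
            congr 1; ring
        _ ≤ _ := Real.rpow_le_rpow (Real.exp_pos _).le h2 (by linarith)
    calc _ = ((m : ℝ) + 1) ^ (-δ) * (Real.exp (-(K * (2 + δ))) * (((m : ℝ) + 1) ^ (-(3 * δ)) *
          Real.exp (-((2 + δ) * kap * TT s m)))) := by
          have h4 : ((m : ℝ) + 1) ^ (-(4 * δ)) =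
              ((m : ℝ) + 1) ^ (-δ) * ((m : ℝ) + 1) ^ (-(3 * δ)) := by
            rw [← Real.rpow_add hm0]; congr 1; ring
          rw [h4]; ring
      _ ≤ _ := mul_le_mul_of_nonneg_left h3 (by positivity)
  have hb : 0 < (2 + δ) * kap := mul_pos (by linarith) hk
  obtain ⟨α, hα, hα'⟩ := low_gen (b := (2 + δ) * kap) (c := c * Real.exp (-(K * (2 + δ))))
    (ε := 4 * δ) hb (by positivity) (by linarith) (by linarith) hs hs0 hF hFs (by
      intro n M hnM
      refine le_trans ?_ (hPF n M hnM)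
      have h2 : Real.exp (-(K * (2 + δ))) * ∑ m ∈ Ico n M, ((m : ℝ) + 1) ^ (-(4 * δ)) *
            Real.exp (-((2 + δ) * kap * TT s m)) ≤
          ∑ m ∈ Ico n M, ((m : ℝ) + 1) ^ (-δ) * y m ^ (2 + δ) := by
        rw [mul_sum]
        exact sum_le_sum fun m _ => h1 m
      have h3 := mul_le_mul_of_nonneg_left h2 hc.le
      linarith)
  refine ⟨|Real.log α|, fun n => ?_⟩
  have hn := log_nn n
  have hn0 : 0 < (n : ℝ) + 1 := by linarith [one_le_cast n]
  have h2 := Real.log_le_log (by positivity) (hα' n)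
  rw [Real.log_exp, Real.log_mul hα.ne' (by positivity), Real.log_rpow hn0] at h2
  have h3 := neg_abs_le (Real.log α)
  have h4 : (1 - 2 * δ) * Real.log ((n : ℝ) + 1) - |Real.log α| ≤
      (1 + δ / 2) * (kap * TT s n) := by
    have h5 : (2 + δ) * kap / 2 * TT s n = (1 + δ / 2) * (kap * TT s n) := by ring
    rw [h5] at h2
    have h6 : (1 - 4 * δ / 2) = 1 - 2 * δ := by ring
    rw [h6] at h2
    linarith
  have h5 : (1 + δ / 2) * ((1 - ε) * Real.log ((n : ℝ) + 1) - |Real.log α|) ≤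
      (1 - 2 * δ) * Real.log ((n : ℝ) + 1) - |Real.log α| := by
    have h6 : (1 + δ / 2) * (1 - ε) ≤ 1 - 2 * δ := by nlinarith
    have h7 := mul_le_mul_of_nonneg_right h6 hn
    have h8 : 0 ≤ δ / 2 * |Real.log α| := by positivity
    nlinarith
  exact le_of_mul_le_mul_left (h5.trans h4) (by linarith)

/-- **T2, upper half of the flow** (general constant `b`: `y_n² ≤ K e^{-b T_n}`) -/
theorem T2_up {b : ℝ} (hb : 0 < b) (hs : Antitone s) (hs0 : Tendsto s atTop (𝓝 0))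
    {K : ℝ} (hK : 0 < K) (hV : ∀ n, y n ≤ K * Real.exp (-(b * TT s n)))
    {C : ℝ} (hC : 0 < C) (hF : ∀ n, 0 ≤ F n) (hFs : Summable F)
    (hP : ∀ n M : ℕ, n ≤ M → s n - s M ≤ C * ∑ m ∈ Ico n M, y m + F n + F M) :
    ∃ K' : ℝ, ∀ n : ℕ, b / 2 * TT s n ≤ Real.log ((n : ℝ) + 1) + K' := by
  obtain ⟨β, hβ, hβ'⟩ := up_gen (b := b) (C := C * K) (ε := 0) hb (by positivity) le_rfl
    (by norm_num) hs hs0 hF hFs (by
      intro n M hnM
      refine (hP n M hnM).trans ?_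
      have h2 : ∑ m ∈ Ico n M, y m ≤
          K * ∑ m ∈ Ico n M, ((m : ℝ) + 1) ^ (0 : ℝ) * Real.exp (-(b * TT s m)) := by
        rw [mul_sum]
        refine sum_le_sum fun m _ => ?_
        rw [Real.rpow_zero, one_mul]
        exact hV m
      have h3 := mul_le_mul_of_nonneg_left h2 hC.le
      linarith)
  refine ⟨Real.log β, fun n => ?_⟩
  have hn0 : 0 < (n : ℝ) + 1 := by linarith [one_le_cast n]
  have h2 := Real.log_le_log (Real.exp_pos _) (hβ' n)
  rw [Real.log_exp, Real.log_mul hβ.ne' hn0.ne', add_zero] at h2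
  linarith

/-- **T2, lower half of the flow** (general constant `b`) -/
theorem T2_low {b : ℝ} (hb : 0 < b) (hs : Antitone s) (hs0 : Tendsto s atTop (𝓝 0))
    {K : ℝ} (hK : 0 < K) (hV : ∀ n, K * Real.exp (-(b * TT s n)) ≤ y n)
    {c : ℝ} (hc : 0 < c) (hF : ∀ n, 0 ≤ F n) (hFs : Summable F)
    (hP : ∀ n M : ℕ, n ≤ M → c * ∑ m ∈ Ico n M, y m - F n - F M ≤ s n - s M) :
    ∃ K' : ℝ, ∀ n : ℕ, Real.log ((n : ℝ) + 1) - K' ≤ b / 2 * TT s n := by
  obtain ⟨α, hα, hα'⟩ := low_gen (b := b) (c := c * K) (ε := 0) hb (by positivity) le_rfl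
    (by norm_num) hs hs0 hF hFs (by
      intro n M hnM
      refine le_trans ?_ (hP n M hnM)
      have h2 : K * ∑ m ∈ Ico n M, ((m : ℝ) + 1) ^ (-0 : ℝ) * Real.exp (-(b * TT s m)) ≤
          ∑ m ∈ Ico n M, y m := by
        rw [mul_sum]
        refine sum_le_sum fun m _ => ?_
        rw [neg_zero, Real.rpow_zero, one_mul]
        exact hV m
      have h3 := mul_le_mul_of_nonneg_left h2 hc.le
      linarith)
  refine ⟨-Real.log α, fun n => ?_⟩
  have hn0 : 0 < (n : ℝ) + 1 := by linarith [one_le_cast n]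
  have h2 := Real.log_le_log (by positivity) (hα' n)
  rw [Real.log_exp, Real.log_mul hα.ne' (by positivity), Real.log_rpow hn0] at h2
  linarith

/-! ### the sum of inverse stiffnesses -/

/-- remainder of `1/(2/π + q) = π/2 - (π²/4) q + r` -/
noncomputable def rem (q : ℝ) : ℝ := 1 / (2 / Real.pi + q) - Real.pi / 2 + Real.pi ^ 2 / 4 * q

theorem rem_eq {q : ℝ} (hq : 0 < 2 / Real.pi + q) :
    rem q = (Real.pi ^ 2 / 4 * q ^ 2) / (2 / Real.pi + q) := by
  have hpi := Real.pi_pos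
  have h1 : 1 / (2 / Real.pi + q) * (2 / Real.pi + q) = 1 := by
    rw [one_div, inv_mul_cancel₀ hq.ne']
  have h2 : Real.pi * (2 / Real.pi) = 2 := by field_simp
  rw [eq_div_iff hq.ne', rem]
  linear_combination h1 + (-(1 / 2) + Real.pi / 4 * q) * h2

theorem rem_nonneg {q : ℝ} (hq : 0 < 2 / Real.pi + q) : 0 ≤ rem q := by
  have hpi := Real.pi_pos
  rw [rem_eq hq]; positivity

theorem rem_le {q : ℝ} (hq : |q| ≤ 1 / Real.pi) : rem q ≤ Real.pi ^ 3 / 4 * q ^ 2 := by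
  have hpi := Real.pi_pos
  have h0 := neg_abs_le q
  have h1 : 1 / Real.pi ≤ 2 / Real.pi + q := by
    have : 2 / Real.pi = 1 / Real.pi + 1 / Real.pi := by ring
    linarith
  have hpos : 0 < 2 / Real.pi + q := lt_of_lt_of_le (by positivity) h1
  rw [rem_eq hpos, div_le_iff₀ hpos]
  have h3 : Real.pi ^ 3 / 4 * q ^ 2 * (1 / Real.pi) ≤ Real.pi ^ 3 / 4 * q ^ 2 *
      (2 / Real.pi + q) := mul_le_mul_of_nonneg_left h1 (by positivity)
  have h4 : Real.pi ^ 3 / 4 * q ^ 2 * (1 / Real.pi) = Real.pi ^ 2 / 4 * q ^ 2 := by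
    field_simp
  linarith

theorem sum_inv_eq (q : ℕ → ℝ) (n : ℕ) : ∑ i ∈ range n, 1 / (2 / Real.pi + q i) =
    n * (Real.pi / 2) - Real.pi ^ 2 / 4 * TT q n + ∑ i ∈ range n, rem (q i) := by
  have : ∀ i ∈ range n, 1 / (2 / Real.pi + q i) =
      Real.pi / 2 - Real.pi ^ 2 / 4 * q i + rem (q i) := by
    intro i _; rw [rem]; ring
  rw [sum_congr rfl this, sum_add_distrib, sum_sub_distrib, sum_const, card_range, nsmul_eq_mul,
    ← mul_sum, TT]

theorem TT_congr (hqs : Summable fun n => |q n - s n|) (n : ℕ) :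
    |TT q n - TT s n| ≤ ∑' i, |q i - s i| := by
  rw [TT, TT, ← sum_sub_distrib]
  refine (abs_sum_le_sum_abs _ _).trans ?_
  exact hqs.sum_le_tsum _ fun k _ => abs_nonneg _

theorem sum_inv_ge_q (hq : ∀ i, 0 < 2 / Real.pi + q i) (hqs : Summable fun n => |q n - s n|) :
    ∃ B : ℝ, ∀ n : ℕ, n * (Real.pi / 2) - Real.pi ^ 2 / 4 * TT s n - B ≤
      ∑ i ∈ range n, 1 / (2 / Real.pi + q i) := by
  refine ⟨Real.pi ^ 2 / 4 * ∑' i, |q i - s i|, fun n => ?_⟩
  rw [sum_inv_eq]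
  have h1 : 0 ≤ ∑ i ∈ range n, rem (q i) := sum_nonneg fun i _ => rem_nonneg (hq i)
  have h2 := le_trans (le_abs_self _) (TT_congr hqs n)
  have h3 : Real.pi ^ 2 / 4 * (TT q n - TT s n) ≤ Real.pi ^ 2 / 4 * ∑' i, |q i - s i| :=
    mul_le_mul_of_nonneg_left h2 (by positivity)
  linarith

/-- `∑ rem (q i) ≤ B + A ∑ s²` -/
theorem sum_rem_le (hs0 : Tendsto s atTop (𝓝 0)) (hqs : Summable fun n => |q n - s n|) :
    ∃ B : ℝ, ∀ n : ℕ, ∑ i ∈ range n, rem (q i) ≤ B + Real.pi ^ 3 / 2 * ∑ i ∈ range n, s i ^ 2 := by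
  have hpi := Real.pi_pos
  have hd : Tendsto (fun n => q n - s n) atTop (𝓝 0) :=
    (tendsto_zero_iff_abs_tendsto_zero _).2 hqs.tendsto_atTop_zero
  have hq0 : Tendsto q atTop (𝓝 0) := by
    have := hd.add hs0
    simpa using this
  have hqa : Tendsto (fun n => |q n|) atTop (𝓝 0) := by simpa using hq0.abs
  have hda : Tendsto (fun n => |q n - s n|) atTop (𝓝 0) := by simpa using hd.abs
  obtain ⟨m, hm⟩ := ((hqa.eventually (gt_mem_nhds (show (0 : ℝ) < 1 / Real.pi by positivity))).and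
    (hda.eventually (gt_mem_nhds (show (0 : ℝ) < 1 by norm_num)))).exists_forall_of_atTop
  set D : ℝ := ∑' i, |q i - s i| with hD
  refine ⟨∑ i ∈ range m, |rem (q i)| + Real.pi ^ 3 / 2 * D, fun n => ?_⟩
  have h1 : ∀ i ∈ range n, rem (q i) ≤ (if i < m then |rem (q i)| else 0) +
      Real.pi ^ 3 / 2 * |q i - s i| + Real.pi ^ 3 / 2 * s i ^ 2 := by
    intro i _
    have h2 : 0 ≤ Real.pi ^ 3 / 2 * |q i - s i| := by positivity
    have h3 : 0 ≤ Real.pi ^ 3 / 2 * s i ^ 2 := by positivity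
    split_ifs with him
    · have := le_abs_self (rem (q i)); linarith
    · have h4 := hm i (not_lt.1 him)
      have h5 := rem_le h4.1.le
      have h6 : q i ^ 2 ≤ 2 * s i ^ 2 + 2 * |q i - s i| := by
        have h7 : (q i - s i) ^ 2 ≤ |q i - s i| := by
          rw [← sq_abs]
          have := abs_nonneg (q i - s i)
          nlinarith [h4.2]
        nlinarith [sq_nonneg (q i - 2 * s i)]
      have h8 : Real.pi ^ 3 / 4 * q i ^ 2 ≤ Real.pi ^ 3 / 4 * (2 * s i ^ 2 + 2 * |q i - s i|) :=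
        mul_le_mul_of_nonneg_left h6 (by positivity)
      linarith
  refine (sum_le_sum h1).trans ?_
  rw [sum_add_distrib, sum_add_distrib, ← mul_sum, ← mul_sum]
  have h2 : ∑ i ∈ range n, (if i < m then |rem (q i)| else 0) ≤ ∑ i ∈ range m, |rem (q i)| := by
    rw [← sum_filter]
    refine sum_le_sum_of_subset_of_nonneg ?_ fun i _ _ => abs_nonneg _
    intro i hi
    simp only [mem_filter, mem_range] at hi ⊢
    exact hi.2
  have h3 : ∑ i ∈ range n, |q i - s i| ≤ D := hqs.sum_le_tsum _ fun k _ => abs_nonneg _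
  have h4 := mul_le_mul_of_nonneg_left h3 (show 0 ≤ Real.pi ^ 3 / 2 by positivity)
  linarith

theorem sum_sq_le (hs : Antitone s) (hs0 : Tendsto s atTop (𝓝 0)) {η : ℝ} (hη : 0 < η) :
    ∃ B : ℝ, ∀ n : ℕ, ∑ i ∈ range n, s i ^ 2 ≤ B + η * TT s n := by
  have hsn := x_nonneg hs hs0
  obtain ⟨m, hm⟩ := (hs0.eventually (gt_mem_nhds hη)).exists_forall_of_atTop
  refine ⟨∑ i ∈ range m, s i ^ 2, fun n => ?_⟩
  have h1 : ∀ i ∈ range n, s i ^ 2 ≤ (if i < m then s i ^ 2 else 0) + η * s i := by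
    intro i _
    have := hsn i
    split_ifs with him
    · have : 0 ≤ η * s i := by positivity
      linarith
    · have h2 := hm i (not_lt.1 him)
      nlinarith
  refine (sum_le_sum h1).trans ?_
  rw [sum_add_distrib, ← mul_sum, TT]
  have h2 : ∑ i ∈ range n, (if i < m then s i ^ 2 else 0) ≤ ∑ i ∈ range m, s i ^ 2 := by
    rw [← sum_filter]
    refine sum_le_sum_of_subset_of_nonneg ?_ fun i _ _ => sq_nonneg _
    intro i hi
    simp only [mem_filter, mem_range] at hi ⊢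
    exact hi.2
  linarith

theorem sum_inv_le_q (hs : Antitone s) (hs0 : Tendsto s atTop (𝓝 0))
    (hqs : Summable fun n => |q n - s n|) {η : ℝ} (hη : 0 < η) :
    ∃ B : ℝ, ∀ n : ℕ, ∑ i ∈ range n, 1 / (2 / Real.pi + q i) ≤
      n * (Real.pi / 2) - Real.pi ^ 2 / 4 * (1 - η) * TT s n + B := by
  have hpi := Real.pi_pos
  obtain ⟨B1, hB1⟩ := sum_rem_le hs0 hqs
  obtain ⟨B2, hB2⟩ := sum_sq_le hs hs0 (η := η / (2 * Real.pi)) (by positivity)
  refine ⟨B1 + Real.pi ^ 3 / 2 * B2 + Real.pi ^ 2 / 4 * ∑' i, |q i - s i|, fun n => ?_⟩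
  rw [sum_inv_eq]
  have h2 := neg_le_of_abs_le (TT_congr hqs n)
  have h3 : Real.pi ^ 2 / 4 * -(TT q n - TT s n) ≤ Real.pi ^ 2 / 4 * ∑' i, |q i - s i| :=
    mul_le_mul_of_nonneg_left (by linarith) (by positivity)
  have h4 := hB1 n
  have h5 := mul_le_mul_of_nonneg_left (hB2 n) (show 0 ≤ Real.pi ^ 3 / 2 by positivity)
  have h6 : Real.pi ^ 3 / 2 * (B2 + η / (2 * Real.pi) * TT s n) =
      Real.pi ^ 3 / 2 * B2 + Real.pi ^ 2 / 4 * η * TT s n := by
    field_simp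
    ring
  rw [h6] at h5
  linarith

theorem sum_inv_le_q' (hs0 : Tendsto s atTop (𝓝 0))
    (hqs : Summable fun n => |q n - s n|) (hs2 : Summable fun n => s n ^ 2) :
    ∃ B : ℝ, ∀ n : ℕ, ∑ i ∈ range n, 1 / (2 / Real.pi + q i) ≤
      n * (Real.pi / 2) - Real.pi ^ 2 / 4 * TT s n + B := by
  have hpi := Real.pi_pos
  obtain ⟨B1, hB1⟩ := sum_rem_le hs0 hqs
  refine ⟨B1 + Real.pi ^ 3 / 2 * ∑' i, s i ^ 2 + Real.pi ^ 2 / 4 * ∑' i, |q i - s i|,
    fun n => ?_⟩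
  rw [sum_inv_eq]
  have h2 := neg_le_of_abs_le (TT_congr hqs n)
  have h3 : Real.pi ^ 2 / 4 * -(TT q n - TT s n) ≤ Real.pi ^ 2 / 4 * ∑' i, |q i - s i| :=
    mul_le_mul_of_nonneg_left (by linarith) (by positivity)
  have h4 := hB1 n
  have h5 : ∑ i ∈ range n, s i ^ 2 ≤ ∑' i, s i ^ 2 := hs2.sum_le_tsum _ fun k _ => sq_nonneg _
  have h6 := mul_le_mul_of_nonneg_left h5 (show 0 ≤ Real.pi ^ 3 / 2 by positivity)
  linarith

/-- `T_n ≤ A log(n+2)` with `s` antitone gives `∑ s² < ∞` -/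
theorem sq_summable_of_T (hs : Antitone s) (hs0 : Tendsto s atTop (𝓝 0)) {A : ℝ}
    (hA : ∀ n : ℕ, TT s n ≤ A * Real.log ((n : ℝ) + 2)) : Summable fun n => s n ^ 2 := by
  have hsn := x_nonneg hs hs0
  have hA0 : 0 ≤ A := by
    have h1 := hA 0
    rw [TT_zero] at h1
    have h2 : 0 < Real.log ((0 : ℕ) + 2 : ℝ) := by
      simpa using log_two_pos
    nlinarith
  -- `(n+1) s_n ≤ T_{n+1} ≤ A log(n+3) ≤ A C (n+3)^{1/4}`
  have h1 : ∀ n : ℕ, ((n : ℝ) + 1) * s n ≤ A * Real.log ((n : ℝ) + 3) := by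
    intro n
    have h2 : ∑ i ∈ range (n + 1), s n ≤ ∑ i ∈ range (n + 1), s i :=
      sum_le_sum fun i hi => hs (Nat.lt_succ_iff.1 (mem_range.1 hi))
    rw [sum_const, card_range, nsmul_eq_mul] at h2
    have h3 := hA (n + 1)
    push_cast at h2 h3
    rw [show (n : ℝ) + 1 + 2 = n + 3 by ring] at h3
    rw [TT] at h3
    linarith
  have h2 : ∀ n : ℕ, s n ^ 2 ≤ (12 * A) ^ 2 * (1 / ((n : ℝ) + 1) ^ (3 / 2 : ℝ)) := by
    intro n
    have hn0 : 0 < (n : ℝ) + 1 := by positivity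
    have h3 : Real.log ((n : ℝ) + 3) ≤ 12 * ((n : ℝ) + 1) ^ (1 / 4 : ℝ) := by
      have h4 : Real.log ((n : ℝ) + 3) ≤ ((n : ℝ) + 3) ^ (1 / 4 : ℝ) / (1 / 4) :=
        Real.log_le_rpow_div (by positivity) (by norm_num)
      have h5 : ((n : ℝ) + 3) ^ (1 / 4 : ℝ) ≤ 3 * ((n : ℝ) + 1) ^ (1 / 4 : ℝ) := by
        calc ((n : ℝ) + 3) ^ (1 / 4 : ℝ) ≤ (3 * ((n : ℝ) + 1)) ^ (1 / 4 : ℝ) :=
              Real.rpow_le_rpow (by positivity) (by
                have : (0 : ℝ) ≤ n := Nat.cast_nonneg n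
                linarith) (by norm_num)
          _ = 3 ^ (1 / 4 : ℝ) * ((n : ℝ) + 1) ^ (1 / 4 : ℝ) :=
              Real.mul_rpow (by norm_num) (by positivity)
          _ ≤ 3 * ((n : ℝ) + 1) ^ (1 / 4 : ℝ) := by
              refine mul_le_mul_of_nonneg_right ?_ (by positivity)
              calc (3 : ℝ) ^ (1 / 4 : ℝ) ≤ 3 ^ (1 : ℝ) :=
                    Real.rpow_le_rpow_of_exponent_le (by norm_num) (by norm_num)
                _ = 3 := Real.rpow_one 3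
      linarith
    have h4 : s n ≤ 12 * A * ((n : ℝ) + 1) ^ (1 / 4 : ℝ) / ((n : ℝ) + 1) := by
      rw [le_div_iff₀ hn0]
      have h5 := mul_le_mul_of_nonneg_left h3 hA0
      have := h1 n
      linarith
    have h5 : s n ^ 2 ≤ (12 * A * ((n : ℝ) + 1) ^ (1 / 4 : ℝ) / ((n : ℝ) + 1)) ^ 2 :=
      pow_le_pow_left₀ (hsn n) h4 2
    refine h5.trans (le_of_eq ?_)
    have h6 : (((n : ℝ) + 1) ^ (1 / 4 : ℝ)) ^ 2 * ((n : ℝ) + 1) ^ (3 / 2 : ℝ) =
        ((n : ℝ) + 1) ^ 2 := by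
      rw [← Real.rpow_natCast (((n : ℝ) + 1) ^ (1 / 4 : ℝ)) 2, ← Real.rpow_mul hn0.le,
        ← Real.rpow_add hn0, ← Real.rpow_natCast _ 2]
      norm_num
    have h7 : ((n : ℝ) + 1) ^ (3 / 2 : ℝ) ≠ 0 := (Real.rpow_pos_of_pos hn0 _).ne'
    have h8 : ((n : ℝ) + 1) ≠ 0 := hn0.ne'
    rw [div_pow, mul_pow, mul_one_div, div_eq_div_iff (pow_ne_zero 2 h8) h7, mul_assoc, h6]
  refine Summable.of_nonneg_of_le (fun n => sq_nonneg _) h2 (Summable.mul_left _ ?_)
  have h3 : Summable fun n : ℕ => 1 / (n : ℝ) ^ (3 / 2 : ℝ) :=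
    Real.summable_one_div_nat_rpow.2 (by norm_num)
  have h4 := (summable_nat_add_iff 1).2 h3
  simpa using h4

end

end Vale.Agent.P159.H264
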