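import Vale.Agent.P159.H264.Cl4
import Vale.Agent.P159.H663.Drl1
import Vale.Agent.P159.H340.Kl1

/-!
P159 / module CLASS (helper264), part 5: the tent average of helper663 is a smoothing kernel.
-/

set_option linter.unusedSectionVars false

namespace Vale.Agent.P159.H264.Gq

open Finset Matrix
open Vale.Agent.P159.TM.Spec (V)
open Vale.Agent.P159.TM.H764 (cN sN dt EE cN_add sN_add cN_sub cN_neg sN_neg cN_sq_add)
open Vale.Agent.P159.H864 (TI sym lapM)
open Vale.Agent.P159.H817 (sz)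
open Vale.Agent.P159.H462 (mu1)
open Vale.Agent.P159.H276 (bxT)
open Vale.Agent.P159.H663.Dr (tT tT_tr tT_dot tT_const)

noncomputable section

variable {N : ℕ} [NeZero N] {q : ℕ}

/-! ### the Dirichlet kernel -/

def Cq (q : ℕ) (a : ZMod N) : ℝ := ∑ i ∈ range q, cN (a * (i : ZMod N))
def Sq (q : ℕ) (a : ZMod N) : ℝ := ∑ i ∈ range q, sN (a * (i : ZMod N))
def Pq (q : ℕ) (a : ZMod N) : ℝ := Cq q a ^ 2 + Sq q a ^ 2

lemma Pq_nonneg (q : ℕ) (a : ZMod N) : 0 ≤ Pq q a := by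
  unfold Pq
  positivity

lemma tel_re (q : ℕ) (a : ZMod N) :
    (1 - cN a) * Cq q a + sN a * Sq q a = 1 - cN (a * (q : ZMod N)) := by
  induction q with
  | zero => simp [Cq, Sq, TM.H764.cN_zero]
  | succ q ih =>
    unfold Cq Sq at *
    rw [Finset.sum_range_succ, Finset.sum_range_succ]
    have e : a * ((q + 1 : ℕ) : ZMod N) = a * (q : ZMod N) + a := by
      push_cast
      ring
    rw [e, cN_add]
    linarith

lemma tel_im (q : ℕ) (a : ZMod N) :
    (1 - cN a) * Sq q a - sN a * Cq q a = -sN (a * (q : ZMod N)) := by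
  induction q with
  | zero => simp [Cq, Sq, TM.H764.sN_zero]
  | succ q ih =>
    unfold Cq Sq at *
    rw [Finset.sum_range_succ, Finset.sum_range_succ]
    have e : a * ((q + 1 : ℕ) : ZMod N) = a * (q : ZMod N) + a := by
      push_cast
      ring
    rw [e, sN_add]
    linarith

lemma mu_Pq (q : ℕ) (a : ZMod N) : mu1 a * Pq q a ≤ 4 := by
  have h1 := tel_re q a
  have h2 := tel_im q a
  have h3 := cN_sq_add a
  have h4 := cN_sq_add (a * (q : ZMod N))
  have h5 : -1 ≤ cN (a * (q : ZMod N)) := Real.neg_one_le_cos _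
  have h6 : mu1 a * Pq q a = ((1 - cN a) * Cq q a + sN a * Sq q a) ^ 2 +
      ((1 - cN a) * Sq q a - sN a * Cq q a) ^ 2 := by
    unfold mu1 Pq
    linear_combination (-(Cq q a ^ 2 + Sq q a ^ 2)) * h3
  rw [h6, h1, h2]
  nlinarith

lemma Pq_le (q : ℕ) (a : ZMod N) : Pq q a ≤ (q : ℝ) ^ 2 := by
  have h1 : Cq q a ^ 2 ≤ (q : ℝ) * ∑ i ∈ range q, cN (a * (i : ZMod N)) ^ 2 := by
    have := sq_sum_le_card_mul_sum_sq (s := range q) (f := fun i => cN (a * (i : ZMod N)))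
    rw [card_range] at this
    exact this
  have h2 : Sq q a ^ 2 ≤ (q : ℝ) * ∑ i ∈ range q, sN (a * (i : ZMod N)) ^ 2 := by
    have := sq_sum_le_card_mul_sum_sq (s := range q) (f := fun i => sN (a * (i : ZMod N)))
    rw [card_range] at this
    exact this
  have h3 : ∑ i ∈ range q, cN (a * (i : ZMod N)) ^ 2 + ∑ i ∈ range q, sN (a * (i : ZMod N)) ^ 2 =
      q := by
    rw [← sum_add_distrib]
    simp only [cN_sq_add]
    simp
  unfold Pq
  calc Cq q a ^ 2 + Sq q a ^ 2 ≤ (q : ℝ) * (∑ i ∈ range q, cN (a * (i : ZMod N)) ^ 2 +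
        ∑ i ∈ range q, sN (a * (i : ZMod N)) ^ 2) := by linarith
    _ = (q : ℝ) ^ 2 := by rw [h3, pow_two]

lemma dbl_c (q : ℕ) (a : ZMod N) :
    ∑ i ∈ range q, ∑ i' ∈ range q, cN (a * (i' : ZMod N) - a * (i : ZMod N)) = Pq q a := by
  simp only [cN_sub]
  unfold Pq Cq Sq
  simp only [sum_add_distrib, pow_two, sum_mul_sum]
  congr 1
  · refine Finset.sum_congr rfl fun i _ => Finset.sum_congr rfl fun j _ => mul_comm _ _
  · refine Finset.sum_congr rfl fun i _ => Finset.sum_congr rfl fun j _ => mul_comm _ _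

lemma dbl_s (q : ℕ) (a : ZMod N) :
    ∑ i ∈ range q, ∑ i' ∈ range q, sN (a * (i' : ZMod N) - a * (i : ZMod N)) = 0 := by
  have h1 : ∑ i ∈ range q, ∑ i' ∈ range q, sN (a * (i' : ZMod N) - a * (i : ZMod N)) =
      -∑ i ∈ range q, ∑ i' ∈ range q, sN (a * (i' : ZMod N) - a * (i : ZMod N)) := by
    conv_lhs => rw [sum_comm]
    rw [← sum_neg_distrib]
    refine Finset.sum_congr rfl fun i _ => ?_
    rw [← sum_neg_distrib]
    refine Finset.sum_congr rfl fun j _ => ?_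
    rw [← sN_neg]
    congr 1
    ring
  linarith

lemma quad_sum (q : ℕ) (f g : ℕ → ℕ → ℝ) :
    ∑ i ∈ range q, ∑ j ∈ range q, ∑ i' ∈ range q, ∑ j' ∈ range q, f i i' * g j j' =
      (∑ i ∈ range q, ∑ i' ∈ range q, f i i') * ∑ j ∈ range q, ∑ j' ∈ range q, g j j' := by
  simp only [← mul_sum, ← sum_mul]

/-- the tent average of a wave -/
lemma tT_wave (q : ℕ) (k : V N) :
    tT N q (fun x => cN (dt k x)) 0 = ((q : ℝ) ^ 2)⁻¹ * (((q : ℝ) ^ 2)⁻¹ * (Pq q k.1 * Pq q k.2)) := by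
  unfold tT bxT
  simp only [← mul_sum]
  congr 2
  have h1 : ∀ i j i' j' : ℕ, cN (dt k ((0 : V N) - ((i : ZMod N), (j : ZMod N)) +
      ((i' : ZMod N), (j' : ZMod N)))) =
      cN (k.1 * (i' : ZMod N) - k.1 * (i : ZMod N)) * cN (k.2 * (j' : ZMod N) - k.2 * (j : ZMod N)) -
      sN (k.1 * (i' : ZMod N) - k.1 * (i : ZMod N)) *
        sN (k.2 * (j' : ZMod N) - k.2 * (j : ZMod N)) := by
    intro i j i' j'
    rw [← cN_add]
    congr 1
    unfold TM.H764.dt
    simp only [Prod.fst_add, Prod.snd_add, Prod.fst_sub, Prod.snd_sub, Prod.fst_zero,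
      Prod.snd_zero]
    ring
  simp only [h1, sum_sub_distrib]
  rw [quad_sum q (fun i i' => cN (k.1 * (i' : ZMod N) - k.1 * (i : ZMod N)))
    (fun j j' => cN (k.2 * (j' : ZMod N) - k.2 * (j : ZMod N))),
    quad_sum q (fun i i' => sN (k.1 * (i' : ZMod N) - k.1 * (i : ZMod N)))
    (fun j j' => sN (k.2 * (j' : ZMod N) - k.2 * (j : ZMod N))), dbl_c, dbl_c, dbl_s, dbl_s]
  ring

/-! ### the matrix -/

/-- the tent average as a matrix -/
def tM (N q : ℕ) [NeZero N] : Matrix (V N) (V N) ℝ :=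
  fun x y => tT N q (fun z => if z = y then 1 else 0) x

lemma tM_sy (x y : V N) : tM N q x y = tM N q y x := by
  have h := tT_dot (q := q) (fun z : V N => if z = x then (1 : ℝ) else 0)
    (fun z => if z = y then 1 else 0)
  simp only [ite_mul, one_mul, zero_mul, mul_ite, mul_one, mul_zero, sum_ite_eq', mem_univ,
    if_true] at h
  exact h

/-- **the matrix acts as the tent average** -/
theorem tM_mulVec (F : V N → ℝ) : tM N q *ᵥ F = tT N q F := by
  funext x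
  have h := tT_dot (q := q) (fun z : V N => if z = x then (1 : ℝ) else 0) F
  simp only [ite_mul, one_mul, zero_mul, sum_ite_eq', mem_univ, if_true] at h
  rw [h]
  show ∑ y, tM N q x y * F y = _
  refine Finset.sum_congr rfl fun y _ => ?_
  rw [tM_sy]
  rfl

lemma ti_tM : TI (tM N q) where
  tr a x y := by
    have h := congrFun (tT_tr (q := q) (fun z : V N => if z = y + a then (1 : ℝ) else 0) a) x
    unfold tM
    rw [← h]
    congr 1
    funext z
    simp only [add_left_inj]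
  sy := tM_sy

lemma tT_nonneg {h : V N → ℝ} (hn : ∀ x, 0 ≤ h x) (x : V N) : 0 ≤ tT N q h x := by
  unfold tT bxT
  refine mul_nonneg (by positivity) (Finset.sum_nonneg fun i _ => Finset.sum_nonneg fun j _ => ?_)
  exact mul_nonneg (by positivity) (Finset.sum_nonneg fun i' _ => Finset.sum_nonneg fun j' _ => hn _)

lemma vma_nat {m : ℤ} {q : ℕ} (h : m.natAbs < q) : ((m : ZMod N).valMinAbs).natAbs < q := by
  have h1 := H340.vma_le (N := N) m
  have h2 : (((m : ZMod N).valMinAbs).natAbs : ℝ) ≤ (m.natAbs : ℝ) := by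
    rw [Nat.cast_natAbs, Nat.cast_natAbs, Int.cast_abs, Int.cast_abs]
    exact h1
  have h3 : ((m : ZMod N).valMinAbs).natAbs ≤ m.natAbs := by exact_mod_cast h2
  omega

lemma tM_rng {x y : V N} (h : tM N q x y ≠ 0) : sz (x - y) < q := by
  by_contra hcon
  refine h ?_
  unfold tM tT bxT
  refine mul_eq_zero_of_right _ (Finset.sum_eq_zero fun i hi => Finset.sum_eq_zero fun j hj => ?_)
  refine mul_eq_zero_of_right _
    (Finset.sum_eq_zero fun i' hi' => Finset.sum_eq_zero fun j' hj' => ?_)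
  rw [mem_range] at hi hj hi' hj'
  refine if_neg fun heq => hcon ?_
  have e1 : x - y = (((((i : ℤ) - i' : ℤ)) : ZMod N), ((((j : ℤ) - j' : ℤ)) : ZMod N)) := by
    rw [← heq]
    push_cast
    ext <;> simp <;> ring
  rw [e1]
  unfold H817.sz
  refine max_lt (vma_nat ?_) (vma_nat ?_)
  · omega
  · omega

/-- **the tent average is a smoothing kernel** -/
theorem smo_tM (hq : 0 < q) : Smo N q (tM N q) := by
  have hq0 : (0 : ℝ) < q := by exact_mod_cast hq
  have hq2 : (0 : ℝ) < (q : ℝ) ^ 2 := by positivity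
  have hsym : ∀ k : V N, sym (tM N q) k =
      ((q : ℝ) ^ 2)⁻¹ * (((q : ℝ) ^ 2)⁻¹ * (Pq q k.1 * Pq q k.2)) := by
    intro k
    rw [H864.sym_eq_mulVec, tM_mulVec]
    exact tT_wave q k
  have hs0 : ∀ k : V N, 0 ≤ sym (tM N q) k := by
    intro k
    rw [hsym]
    exact mul_nonneg (by positivity) (mul_nonneg (by positivity)
      (mul_nonneg (Pq_nonneg _ _) (Pq_nonneg _ _)))
  refine ⟨ti_tM, fun x y => tT_nonneg (fun z => by split_ifs <;> norm_num) x, fun x => ?_,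
    fun x y h => tM_rng h, fun k => ?_, fun k => ?_⟩
  · have h1 := congrFun (tM_mulVec (q := q) fun _ : V N => (1 : ℝ)) x
    rw [tT_const hq] at h1
    have h2 : (tM N q *ᵥ fun _ : V N => (1 : ℝ)) x = ∑ y, tM N q x y * 1 := rfl
    rw [h2] at h1
    simpa using h1
  · refine pow_le_one₀ (hs0 k) ?_
    rw [hsym]
    calc ((q : ℝ) ^ 2)⁻¹ * (((q : ℝ) ^ 2)⁻¹ * (Pq q k.1 * Pq q k.2))
        ≤ ((q : ℝ) ^ 2)⁻¹ * (((q : ℝ) ^ 2)⁻¹ * ((q : ℝ) ^ 2 * (q : ℝ) ^ 2)) := by
          refine mul_le_mul_of_nonneg_left (mul_le_mul_of_nonneg_left ?_ (by positivity))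
            (by positivity)
          exact mul_le_mul (Pq_le q k.1) (Pq_le q k.2) (Pq_nonneg _ _) hq2.le
      _ = 1 := by field_simp
  · rw [← mul_pow]
    have h1 : sym (tM N q) k * ((q : ℝ) ^ 2 * EE k) ≤ 8 := by
      rw [hsym, H462.EE_eq]
      have a1 := mu_Pq q k.1
      have a2 := mu_Pq q k.2
      have b1 := Pq_le q k.1
      have b2 := Pq_le q k.2
      have c1 := Pq_nonneg q k.1
      have c2 := Pq_nonneg q k.2
      have d1 : mu1 k.1 * Pq q k.1 * Pq q k.2 ≤ 4 * (q : ℝ) ^ 2 :=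
        mul_le_mul a1 b2 c2 (by norm_num)
      have d2 : mu1 k.2 * Pq q k.2 * Pq q k.1 ≤ 4 * (q : ℝ) ^ 2 :=
        mul_le_mul a2 b1 c1 (by norm_num)
      calc ((q : ℝ) ^ 2)⁻¹ * (((q : ℝ) ^ 2)⁻¹ * (Pq q k.1 * Pq q k.2)) *
            ((q : ℝ) ^ 2 * (mu1 k.1 + mu1 k.2))
          = ((q : ℝ) ^ 2)⁻¹ * (mu1 k.1 * Pq q k.1 * Pq q k.2 + mu1 k.2 * Pq q k.2 * Pq q k.1) := by
            have h9 : ((q : ℝ) ^ 2)⁻¹ * (q : ℝ) ^ 2 = 1 := inv_mul_cancel₀ hq2.ne'
            linear_combination (((q : ℝ) ^ 2)⁻¹ * (mu1 k.1 * Pq q k.1 * Pq q k.2 +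
              mu1 k.2 * Pq q k.2 * Pq q k.1)) * h9
        _ ≤ ((q : ℝ) ^ 2)⁻¹ * (4 * (q : ℝ) ^ 2 + 4 * (q : ℝ) ^ 2) :=
            mul_le_mul_of_nonneg_left (add_le_add d1 d2) (by positivity)
        _ = 8 := by
            field_simp
            norm_num
    have h2 : 0 ≤ sym (tM N q) k * ((q : ℝ) ^ 2 * EE k) :=
      mul_nonneg (hs0 k) (mul_nonneg hq2.le (H340.EE_nonneg k))
    calc (sym (tM N q) k * ((q : ℝ) ^ 2 * EE k)) ^ 2 ≤ 8 ^ 2 := pow_le_pow_left₀ h2 h1 2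
      _ = 64 := by norm_num

end

end Vale.Agent.P159.H264.Gq
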