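import Mathlib.Analysis.SpecialFunctions.Log.Basic
import Mathlib.Analysis.SpecialFunctions.Pow.Real
import Mathlib.Topology.Algebra.InfiniteSum.Real
import Mathlib.Analysis.SpecialFunctions.Sqrt
import Mathlib.Analysis.SpecificLimits.Basic
import Mathlib.Analysis.PSeries

/-!
P159 (helper264): the discrete flow lemma.

`x n = S_n - 2/π` (stiffness at scale number `n`), `T n = ∑_{i<n} x i`.  The relations
`x n - x (n+1) ≈ exp (-2 κ T n)` and `x n → 0` give `T n = (1/κ) log n + O(1)`.  All relations may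
contain errors `e n` with `∑ n e n < ∞` (in the form `e n ≤ F n - F (n+1)`, `F` summable).
-/

open Filter Topology Finset

namespace Vale.Agent.P159.H264

/-- partial sums -/
noncomputable def TT (x : ℕ → ℝ) (n : ℕ) : ℝ := ∑ i ∈ range n, x i

theorem TT_succ (x : ℕ → ℝ) (n : ℕ) : TT x (n + 1) = TT x n + x n := by
  simp [TT, sum_range_succ]

theorem TT_zero (x : ℕ → ℝ) : TT x 0 = 0 := by simp [TT]

section
variable {x : ℕ → ℝ}

theorem x_nonneg (hx : Antitone x) (hx0 : Tendsto x atTop (𝓝 0)) (n : ℕ) : 0 ≤ x n :=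
  hx.le_of_tendsto hx0 n

theorem TT_mono (hx : ∀ n, 0 ≤ x n) : Monotone (TT x) :=
  monotone_nat_of_le_succ fun n => by rw [TT_succ]; linarith [hx n]

theorem TT_nonneg (hx : ∀ n, 0 ≤ x n) (n : ℕ) : 0 ≤ TT x n := by
  have := TT_mono hx (Nat.zero_le n)
  rwa [TT_zero] at this

/-- **lower flow lemma** -/
theorem ode_low {κ c : ℝ} (hκ : 0 < κ) (hc : 0 < c) {e F : ℕ → ℝ} (hx : Antitone x)
    (hx0 : Tendsto x atTop (𝓝 0)) (hF : ∀ n, 0 ≤ F n) (hFs : Summable F)
    (he0 : ∀ n, 0 ≤ e n) (he : ∀ n, e n ≤ F n - F (n + 1))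
    (hP : ∀ n, c * Real.exp (-(2 * κ * TT x n)) - e n ≤ x n - x (n + 1)) :
    ∃ α : ℝ, 0 < α ∧ ∀ n : ℕ, α * (n + 1) ≤ Real.exp (κ * TT x n) := by
  have hxn := x_nonneg hx hx0
  have hT := TT_mono hxn
  set E : ℕ → ℝ := fun n => Real.exp (-(2 * κ * TT x n)) with hE
  have hE0 : ∀ n, 0 < E n := fun n => Real.exp_pos _
  have hEanti : Antitone E := fun m n h => by
    have := hT h
    simp only [hE]
    apply Real.exp_le_exp.2
    nlinarith
  have hFanti : Antitone F := antitone_nat_of_succ_le fun n => by linarith [he n, he0 n]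
  -- `∑_{k<N} c E k ≤ x 0 + F 0`
  have hsum : ∀ N : ℕ, ∑ k ∈ range N, c * E k ≤ x 0 - x N + (F 0 - F N) := by
    intro N
    induction N with
    | zero => simp
    | succ N ih =>
      rw [sum_range_succ]
      have := hP N
      have := he N
      simp only [hE] at *
      linarith
  have hEN : ∀ N : ℕ, (N : ℝ) * (c * E N) ≤ x 0 + F 0 := by
    intro N
    have h1 : (N : ℝ) * (c * E N) ≤ ∑ k ∈ range N, c * E k := by
      have : ∀ k ∈ range N, c * E N ≤ c * E k := fun k hk =>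
        mul_le_mul_of_nonneg_left (hEanti (mem_range.1 hk).le) hc.le
      have h2 := card_nsmul_le_sum (range N) (fun k => c * E k) (c * E N) this
      simpa [nsmul_eq_mul] using h2
    have := hsum N
    linarith [hxn N, hF N]
  have hElim : Tendsto E atTop (𝓝 0) := by
    have h1 : Tendsto (fun N : ℕ => (x 0 + F 0) / c * (1 / (N : ℝ))) atTop (𝓝 0) := by
      have := tendsto_one_div_atTop_nhds_zero_nat (𝕜 := ℝ)
      simpa using this.const_mul ((x 0 + F 0) / c)
    refine squeeze_zero' (Eventually.of_forall fun n => (hE0 n).le) ?_ h1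
    filter_upwards [eventually_gt_atTop 0] with N hN
    have hN' : (0 : ℝ) < N := by exact_mod_cast hN
    have := hEN N
    rw [div_mul_div_comm, mul_one, le_div_iff₀ (by positivity)]
    nlinarith
  set β : ℝ := Real.sqrt (c / (2 * κ)) with hβ
  have hβ0 : 0 < β := Real.sqrt_pos.2 (by positivity)
  have hβ2 : β ^ 2 = c / (2 * κ) := Real.sq_sqrt (by positivity)
  have hFlim : Tendsto F atTop (𝓝 0) := hFs.tendsto_atTop_zero
  -- the telescoping estimate
  have htel : ∀ n m : ℕ, n ≤ m →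
      β ^ 2 * (E n - E m) - x n * (F n - F m) ≤ x n ^ 2 - x m ^ 2 := by
    intro n m hnm
    induction m, hnm using Nat.le_induction with
    | base => simp
    | succ k hk ih =>
      have h1 : E k - E (k + 1) ≤ E k * (2 * κ * x k) := by
        have : E (k + 1) = E k * Real.exp (-(2 * κ * x k)) := by
          simp only [hE]
          rw [← Real.exp_add, TT_succ]
          ring_nf
        rw [this]
        have h2 := Real.add_one_le_exp (-(2 * κ * x k))
        nlinarith [hE0 k]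
      have h3 : (c * E k - e k) * x k ≤ x k ^ 2 - x (k + 1) ^ 2 := by
        have h4 : x (k + 1) ≤ x k := hx (Nat.le_succ k)
        have h5 := hP k
        have h6 := hxn k
        have h7 := hxn (k + 1)
        simp only [hE] at *
        nlinarith
      have h4 : e k * x k ≤ x n * (F k - F (k + 1)) := by
        have h5 : x k ≤ x n := hx hk
        have := he k
        have := he0 k
        have := hxn k
        nlinarith [mul_le_mul h5 (he k) (he0 k) (hxn n)]
      have h5 : β ^ 2 * (E k - E (k + 1)) ≤ c * E k * x k := by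
        rw [hβ2]
        have : c / (2 * κ) * (E k - E (k + 1)) ≤ c / (2 * κ) * (E k * (2 * κ * x k)) :=
          mul_le_mul_of_nonneg_left h1 (by positivity)
        have h6 : c / (2 * κ) * (E k * (2 * κ * x k)) = c * E k * x k := by
          field_simp
        linarith
      nlinarith
  have hlow : ∀ n, β ^ 2 * E n - x n * F n ≤ x n ^ 2 := by
    intro n
    have h1 : Tendsto (fun m => β ^ 2 * (E n - E m) - x n * (F n - F m)) atTop
        (𝓝 (β ^ 2 * (E n - 0) - x n * (F n - 0))) :=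
      ((tendsto_const_nhds.sub hElim).const_mul _).sub ((tendsto_const_nhds.sub hFlim).const_mul _)
    have h2 : Tendsto (fun m => x n ^ 2 - x m ^ 2) atTop (𝓝 (x n ^ 2 - 0 ^ 2)) :=
      tendsto_const_nhds.sub (hx0.pow 2)
    have h3 := le_of_tendsto_of_tendsto h1 h2
      ((eventually_ge_atTop n).mono fun m hm => htel n m hm)
    simpa using h3
  set G : ℕ → ℝ := fun n => Real.exp (κ * TT x n) with hG
  have hG0 : ∀ n, 0 < G n := fun n => Real.exp_pos _
  have hGE : ∀ n, G n ^ 2 * E n = 1 := by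
    intro n
    simp only [hG, hE]
    rw [← Real.exp_nat_mul, ← Real.exp_add]
    push_cast
    rw [show (2 : ℝ) * (κ * TT x n) + -(2 * κ * TT x n) = 0 by ring, Real.exp_zero]
  have hGx : ∀ n, β ≤ G n * (x n + F n) := by
    intro n
    have h1 : β ^ 2 * E n ≤ (x n + F n) ^ 2 := by
      nlinarith [hlow n, mul_nonneg (hxn n) (hF n), sq_nonneg (F n)]
    have h2 : β ^ 2 ≤ (G n * (x n + F n)) ^ 2 := by
      have := mul_le_mul_of_nonneg_left h1 (sq_nonneg (G n))
      have h3 := hGE n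
      calc β ^ 2 = β ^ 2 * (G n ^ 2 * E n) := by rw [h3, mul_one]
        _ = G n ^ 2 * (β ^ 2 * E n) := by ring
        _ ≤ G n ^ 2 * (x n + F n) ^ 2 := this
        _ = _ := by ring
    have h3 : 0 ≤ G n * (x n + F n) :=
      mul_nonneg (hG0 n).le (add_nonneg (hxn n) (hF n))
    exact (sq_le_sq₀ hβ0.le h3).1 h2
  have hG1 : ∀ n, 1 ≤ G n := fun n =>
    Real.one_le_exp (mul_nonneg hκ.le (TT_nonneg hxn n))
  have hGs : ∀ n, G (n + 1) = G n * Real.exp (κ * x n) := by
    intro n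
    simp only [hG]
    rw [← Real.exp_add, TT_succ]
    ring_nf
  have hstep : ∀ n, G n * (1 - κ * F n) + κ * β ≤ G (n + 1) := by
    intro n
    rw [hGs n]
    have h1 := Real.add_one_le_exp (κ * x n)
    have h2 := mul_le_mul_of_nonneg_left h1 (hG0 n).le
    have h3 := mul_le_mul_of_nonneg_left (hGx n) hκ.le
    nlinarith
  obtain ⟨n0, hn0⟩ : ∃ n0 : ℕ, ∀ n ≥ n0, κ * F n ≤ 1 / 2 := by
    have : Tendsto (fun n => κ * F n) atTop (𝓝 (κ * 0)) := hFlim.const_mul κ
    rw [mul_zero] at this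
    obtain ⟨n0, h⟩ := (this.eventually (gt_mem_nhds (show (0 : ℝ) < 1 / 2 by norm_num))).exists_forall_of_atTop
    exact ⟨n0, fun n hn => (h n hn).le⟩
  set B : ℝ := ∑' n, F n with hB
  have hB0 : ∀ n, ∑ k ∈ range n, F k ≤ B := fun n => hFs.sum_le_tsum _ fun k _ => hF k
  set H : ℕ → ℝ := fun n => G n * Real.exp (2 * κ * ∑ k ∈ range n, F k) with hH
  have hHstep : ∀ n, n0 ≤ n → H n + κ * β ≤ H (n + 1) := by
    intro n hn
    have h1 := hn0 n hn
    have h2 : Real.exp (-(2 * κ * F n)) ≤ 1 - κ * F n := by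
      have h3 : 0 ≤ κ * F n := mul_nonneg hκ.le (hF n)
      -- `exp(-2u) ≤ 1 - u` for `0 ≤ u ≤ 1/2`
      set u := κ * F n with hu
      have h4 : (1 + 2 * u) ≤ Real.exp (2 * u) := by
        have := Real.add_one_le_exp (2 * u); linarith
      have h5 : Real.exp (-(2 * κ * F n)) = 1 / Real.exp (2 * u) := by
        rw [one_div, ← Real.exp_neg]; congr 1; rw [hu]; ring
      rw [h5, div_le_iff₀ (Real.exp_pos _)]
      nlinarith
    have h3 := hstep n
    simp only [hH]
    rw [sum_range_succ, mul_add, Real.exp_add]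
    set P := Real.exp (2 * κ * ∑ k ∈ range n, F k) with hPdef
    have hP1 : 1 ≤ P := Real.one_le_exp
      (mul_nonneg (by positivity) (sum_nonneg fun k _ => hF k))
    have h6 : Real.exp (-(2 * κ * F n)) * Real.exp (2 * κ * F n) = 1 := by
      rw [← Real.exp_add]; simp
    have h7 : (1 : ℝ) ≤ Real.exp (2 * κ * F n) := Real.one_le_exp
      (mul_nonneg (by positivity) (hF n))
    have h8 : G n * P + κ * β ≤ (G n * Real.exp (-(2 * κ * F n)) + κ * β) *
        (P * Real.exp (2 * κ * F n)) := by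
      have h9 : (1 : ℝ) ≤ P * Real.exp (2 * κ * F n) := by nlinarith
      have h10 : 0 < κ * β := by positivity
      calc G n * P + κ * β ≤ G n * P * (Real.exp (-(2 * κ * F n)) * Real.exp (2 * κ * F n)) +
            κ * β * (P * Real.exp (2 * κ * F n)) := by
            rw [h6, mul_one]; nlinarith
        _ = _ := by ring
    refine h8.trans (mul_le_mul_of_nonneg_right ?_ (by positivity))
    have h11 := mul_le_mul_of_nonneg_left h2 (hG0 n).le
    linarith
  have hHn : ∀ n, n0 ≤ n → κ * β * ((n : ℝ) - n0) ≤ H n := by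
    intro n hn
    induction n, hn using Nat.le_induction with
    | base =>
      have : 0 < H n0 := by simp only [hH]; positivity
      simpa using this.le
    | succ k hk ih =>
      have := hHstep k hk
      push_cast
      nlinarith
  set Q := Real.exp (2 * κ * B) with hQ
  have hQ0 : 0 < Q := Real.exp_pos _
  have hGH : ∀ n, H n ≤ G n * Q := by
    intro n
    simp only [hH, hQ]
    exact mul_le_mul_of_nonneg_left (Real.exp_le_exp.2
      (mul_le_mul_of_nonneg_left (hB0 n) (by positivity))) (hG0 n).le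
  refine ⟨1 / (Q / (κ * β) + (n0 + 1)), by positivity, fun n => ?_⟩
  rw [one_div, inv_mul_le_iff₀ (by positivity)]
  change (n : ℝ) + 1 ≤ _ * G n
  rcases le_or_gt n0 n with hn | hn
  · have h1 := hHn n hn
    have h2 := hGH n
    have h3 : ((n : ℝ) - n0) ≤ Q / (κ * β) * G n := by
      rw [div_mul_eq_mul_div, le_div_iff₀ (by positivity)]
      nlinarith
    have h4 : ((n0 : ℝ) + 1) ≤ ((n0 : ℝ) + 1) * G n := by nlinarith [hG1 n]
    nlinarith
  · have h1 : (n : ℝ) + 1 ≤ (n0 : ℝ) + 1 := by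
      have : (n : ℝ) < n0 := by exact_mod_cast hn
      linarith
    have h4 : ((n0 : ℝ) + 1) ≤ ((n0 : ℝ) + 1) * G n := by nlinarith [hG1 n]
    have h5 : 0 ≤ Q / (κ * β) * G n := by positivity
    nlinarith

/-- **upper flow lemma**: `x n ≤ γ exp(-κ T n) + 2 F n` and `exp(κ T n) ≤ β (n+1)` -/
theorem ode_up {κ C : ℝ} (hκ : 0 < κ) (hC : 0 < C) {e F : ℕ → ℝ} (hx : Antitone x)
    (hx0 : Tendsto x atTop (𝓝 0)) (hF : ∀ n, 0 ≤ F n) (hFs : Summable F)
    (he0 : ∀ n, 0 ≤ e n) (he : ∀ n, e n ≤ F n - F (n + 1))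
    (hP : ∀ n, x n - x (n + 1) ≤ C * Real.exp (-(2 * κ * TT x n)) + e n) :
    ∃ γ β : ℝ, 0 < γ ∧ 0 < β ∧ (∀ n, x n ≤ γ * Real.exp (-(κ * TT x n)) + 2 * F n) ∧
      ∀ n : ℕ, Real.exp (κ * TT x n) ≤ β * (n + 1) := by
  have hxn := x_nonneg hx hx0
  have hT := TT_mono hxn
  set E : ℕ → ℝ := fun n => Real.exp (-(2 * κ * TT x n)) with hE
  have hE0 : ∀ n, 0 < E n := fun n => Real.exp_pos _
  have hFlim : Tendsto F atTop (𝓝 0) := hFs.tendsto_atTop_zero
  have hFanti : Antitone F := antitone_nat_of_succ_le fun n => by linarith [he n, he0 n]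
  set D : ℝ := C * (1 + 2 * κ * x 0) / κ with hD
  have hx00 := hxn 0
  have hD0 : 0 < D := by positivity
  have htel : ∀ n m : ℕ, n ≤ m →
      x n ^ 2 - x m ^ 2 ≤ D * (E n - E m) + 2 * x n * (F n - F m) := by
    intro n m hnm
    induction m, hnm using Nat.le_induction with
    | base => simp
    | succ k hk ih =>
      have h1 : E k * x k ≤ (1 + 2 * κ * x 0) / (2 * κ) * (E k - E (k + 1)) := by
        have h0 : E (k + 1) = E k * Real.exp (-(2 * κ * x k)) := by
          simp only [hE]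
          rw [← Real.exp_add, TT_succ]
          ring_nf
        have hxk : x k ≤ x 0 := hx (Nat.zero_le k)
        have hxk0 := hxn k
        -- `1 - exp(-u) ≥ u/(1+u)`
        have h2 : Real.exp (-(2 * κ * x k)) ≤ 1 / (1 + 2 * κ * x k) := by
          rw [Real.exp_neg, ← one_div]
          apply one_div_le_one_div_of_le (by positivity)
          have := Real.add_one_le_exp (2 * κ * x k)
          linarith
        have h3 : 2 * κ * x k / (1 + 2 * κ * x 0) ≤ 1 - Real.exp (-(2 * κ * x k)) := by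
          have h4 : 1 - 1 / (1 + 2 * κ * x k) = 2 * κ * x k / (1 + 2 * κ * x k) := by
            field_simp
            ring
          have h5 : 2 * κ * x k / (1 + 2 * κ * x 0) ≤ 2 * κ * x k / (1 + 2 * κ * x k) := by
            apply div_le_div_of_nonneg_left (by positivity) (by positivity)
            nlinarith
          linarith
        have h6 := mul_le_mul_of_nonneg_left h3 (hE0 k).le
        rw [h0]
        have h7 : E k * x k = (1 + 2 * κ * x 0) / (2 * κ) *
            (E k * (2 * κ * x k / (1 + 2 * κ * x 0))) := by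
          field_simp
        rw [h7]
        apply mul_le_mul_of_nonneg_left _ (by positivity)
        linarith
      have h3 : x k ^ 2 - x (k + 1) ^ 2 ≤ 2 * x k * (C * E k + e k) := by
        have h4 : x (k + 1) ≤ x k := hx (Nat.le_succ k)
        have h5 := hP k
        have h6 := hxn k
        have h7 := hxn (k + 1)
        have h8 : 0 ≤ C * E k + e k := add_nonneg (mul_nonneg hC.le (hE0 k).le) (he0 k)
        simp only [hE] at *
        nlinarith
      have h4 : e k * x k ≤ x n * (F k - F (k + 1)) := by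
        have h5 : x k ≤ x n := hx hk
        nlinarith [mul_le_mul h5 (he k) (he0 k) (hxn n)]
      have h5 : 2 * x k * (C * E k) ≤ D * (E k - E (k + 1)) := by
        have h6 := mul_le_mul_of_nonneg_left h1 (show (0 : ℝ) ≤ 2 * C by positivity)
        have h7 : 2 * C * ((1 + 2 * κ * x 0) / (2 * κ) * (E k - E (k + 1))) =
            D * (E k - E (k + 1)) := by
          rw [hD]; field_simp
        nlinarith
      nlinarith
  have hup : ∀ n, x n ^ 2 ≤ D * E n + 2 * x n * F n := by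
    intro n
    have hE00 : ∀ m, x n ^ 2 - x m ^ 2 ≤ D * E n + 2 * x n * (F n - F m) ∨ m < n := by
      intro m
      rcases le_or_gt n m with h | h
      · left
        have := htel n m h
        nlinarith [hE0 m]
      · exact Or.inr h
    have h1 : Tendsto (fun m => D * E n + 2 * x n * (F n - F m)) atTop
        (𝓝 (D * E n + 2 * x n * (F n - 0))) :=
      tendsto_const_nhds.add ((tendsto_const_nhds.sub hFlim).const_mul _)
    have h2 : Tendsto (fun m => x n ^ 2 - x m ^ 2) atTop (𝓝 (x n ^ 2 - 0 ^ 2)) :=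
      tendsto_const_nhds.sub (hx0.pow 2)
    have h3 := le_of_tendsto_of_tendsto h2 h1
      ((eventually_ge_atTop n).mono fun m hm => (hE00 m).resolve_right (not_lt.2 hm))
    simpa using h3
  set γ : ℝ := Real.sqrt D with hγ
  have hγ0 : 0 < γ := Real.sqrt_pos.2 hD0
  have hγ2 : γ ^ 2 = D := Real.sq_sqrt hD0.le
  have hEs : ∀ n, Real.exp (-(κ * TT x n)) ^ 2 = E n := by
    intro n
    simp only [hE]
    rw [← Real.exp_nat_mul]
    congr 1
    push_cast
    ring
  have hxup : ∀ n, x n ≤ γ * Real.exp (-(κ * TT x n)) + 2 * F n := by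
    intro n
    set g := Real.exp (-(κ * TT x n)) with hg
    have hg0 : 0 < g := Real.exp_pos _
    have h1 : (x n - F n) ^ 2 ≤ (γ * g + F n) ^ 2 := by
      have h2 := hup n
      have h3 : D * E n = (γ * g) ^ 2 := by rw [mul_pow, hγ2, hg, hEs n]
      nlinarith [mul_nonneg (mul_nonneg hγ0.le hg0.le) (hF n)]
    have h2 : x n - F n ≤ γ * g + F n :=
      abs_le_of_sq_le_sq' h1 (add_nonneg (mul_nonneg hγ0.le hg0.le) (hF n)) |>.2
    linarith
  set G : ℕ → ℝ := fun n => Real.exp (κ * TT x n) with hG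
  have hG0 : ∀ n, 0 < G n := fun n => Real.exp_pos _
  have hGs : ∀ n, G (n + 1) = G n * Real.exp (κ * x n) := by
    intro n
    simp only [hG]
    rw [← Real.exp_add, TT_succ]
    ring_nf
  set κ1 : ℝ := κ * Real.exp (κ * x 0) with hκ1
  have hκ10 : 0 < κ1 := by positivity
  have hexp : ∀ n, Real.exp (κ * x n) ≤ 1 + κ1 * x n := by
    intro n
    have h0 := hxn n
    -- `e^u ≤ 1 + u e^u`
    have h1 : Real.exp (κ * x n) ≤ 1 + κ * x n * Real.exp (κ * x n) := by
      have h2 := Real.add_one_le_exp (-(κ * x n))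
      have h3 : Real.exp (κ * x n) * Real.exp (-(κ * x n)) = 1 := by
        rw [← Real.exp_add]; simp
      nlinarith [Real.exp_pos (κ * x n)]
    have h2 : Real.exp (κ * x n) ≤ Real.exp (κ * x 0) :=
      Real.exp_le_exp.2 (mul_le_mul_of_nonneg_left (hx (Nat.zero_le n)) hκ.le)
    have h3 := mul_le_mul_of_nonneg_left h2 (mul_nonneg hκ.le h0)
    rw [hκ1]
    nlinarith
  have hGg : ∀ n, G n * Real.exp (-(κ * TT x n)) = 1 := by
    intro n
    simp only [hG]
    rw [← Real.exp_add]; simp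
  have hstep : ∀ n, G (n + 1) ≤ G n * (1 + 2 * κ1 * F n) + κ1 * γ := by
    intro n
    rw [hGs n]
    have h1 := mul_le_mul_of_nonneg_left (hexp n) (hG0 n).le
    have h2 := mul_le_mul_of_nonneg_left (hxup n) (mul_nonneg (hG0 n).le hκ10.le)
    have h3 : G n * κ1 * (γ * Real.exp (-(κ * TT x n)) + 2 * F n) =
        κ1 * γ * (G n * Real.exp (-(κ * TT x n))) + G n * (2 * κ1 * F n) := by ring
    rw [hGg n, mul_one] at h3
    nlinarith
  set B : ℝ := ∑' n, F n with hB
  have hB0 : ∀ n, ∑ k ∈ range n, F k ≤ B := fun n => hFs.sum_le_tsum _ fun k _ => hF k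
  have hHn : ∀ n : ℕ, G n ≤ Real.exp (2 * κ1 * ∑ k ∈ range n, F k) * (1 + κ1 * γ * n) := by
    intro n
    induction n with
    | zero => simp [hG, TT_zero]
    | succ n ih =>
      have h1 := hstep n
      have h2 : 1 + 2 * κ1 * F n ≤ Real.exp (2 * κ1 * F n) := by
        have := Real.add_one_le_exp (2 * κ1 * F n); linarith
      rw [sum_range_succ, mul_add (2 * κ1), Real.exp_add]
      set P := Real.exp (2 * κ1 * ∑ k ∈ range n, F k) with hPdef
      have hP1 : 1 ≤ P := Real.one_le_exp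
        (mul_nonneg (by positivity) (sum_nonneg fun k _ => hF k))
      have h7 : (1 : ℝ) ≤ Real.exp (2 * κ1 * F n) := Real.one_le_exp
        (mul_nonneg (by positivity) (hF n))
      have h3 : G n * (1 + 2 * κ1 * F n) ≤ P * (1 + κ1 * γ * n) * Real.exp (2 * κ1 * F n) :=
        mul_le_mul ih h2 (add_nonneg zero_le_one (mul_nonneg (by positivity) (hF n)))
          (by positivity)
      have h4 : κ1 * γ ≤ P * Real.exp (2 * κ1 * F n) * (κ1 * γ) := by
        have h5 : (1 : ℝ) ≤ P * Real.exp (2 * κ1 * F n) := by nlinarith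
        have h6 : 0 < κ1 * γ := by positivity
        nlinarith
      push_cast
      nlinarith
  refine ⟨γ, Real.exp (2 * κ1 * B) * (1 + κ1 * γ), hγ0, by positivity, hxup, fun n => ?_⟩
  have h1 := hHn n
  have h2 : Real.exp (2 * κ1 * ∑ k ∈ range n, F k) ≤ Real.exp (2 * κ1 * B) :=
    Real.exp_le_exp.2 (mul_le_mul_of_nonneg_left (hB0 n) (by positivity))
  have h3 : (1 + κ1 * γ * n) ≤ (1 + κ1 * γ) * ((n : ℝ) + 1) := by
    have : (0 : ℝ) ≤ n := Nat.cast_nonneg n
    have : 0 < κ1 * γ := by positivity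
    nlinarith
  calc G n ≤ _ := h1
    _ ≤ Real.exp (2 * κ1 * B) * ((1 + κ1 * γ) * ((n : ℝ) + 1)) :=
      mul_le_mul h2 h3 (by positivity) (by positivity)
    _ = _ := by ring

/-- **two-sided flow lemma**: `T n = (1/κ) log n + O(1)` and `∑ x n ^ 2 < ∞` -/
theorem ode_two {κ c C : ℝ} (hκ : 0 < κ) (hc : 0 < c) (hC : 0 < C) {e F : ℕ → ℝ} (hx : Antitone x)
    (hx0 : Tendsto x atTop (𝓝 0)) (hF : ∀ n, 0 ≤ F n) (hFs : Summable F)
    (he0 : ∀ n, 0 ≤ e n) (he : ∀ n, e n ≤ F n - F (n + 1))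
    (hP1 : ∀ n, c * Real.exp (-(2 * κ * TT x n)) - e n ≤ x n - x (n + 1))
    (hP2 : ∀ n, x n - x (n + 1) ≤ C * Real.exp (-(2 * κ * TT x n)) + e n) :
    (∃ K : ℝ, ∀ n : ℕ, |TT x n - 1 / κ * Real.log (n + 1)| ≤ K) ∧ Summable fun n => x n ^ 2 := by
  obtain ⟨α, hα, h1⟩ := ode_low hκ hc hx hx0 hF hFs he0 he hP1
  obtain ⟨γ, β, hγ, hβ, h2, h3⟩ := ode_up hκ hC hx hx0 hF hFs he0 he hP2
  have hxn := x_nonneg hx hx0
  constructor
  · refine ⟨(|Real.log α| + |Real.log β|) / κ, fun n => ?_⟩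
    have hn : (0 : ℝ) < (n : ℝ) + 1 := by positivity
    have h4 : Real.log α + Real.log (n + 1) ≤ κ * TT x n := by
      rw [← Real.log_mul hα.ne' hn.ne']
      have := Real.log_le_log (by positivity) (h1 n)
      rwa [Real.log_exp] at this
    have h5 : κ * TT x n ≤ Real.log β + Real.log (n + 1) := by
      rw [← Real.log_mul hβ.ne' hn.ne']
      have := Real.log_le_log (Real.exp_pos _) (h3 n)
      rwa [Real.log_exp] at this
    have h6 : TT x n - 1 / κ * Real.log (n + 1) = (κ * TT x n - Real.log (n + 1)) / κ := by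
      field_simp
    rw [h6, abs_div, abs_of_pos hκ]
    apply div_le_div_of_nonneg_right _ hκ.le
    rw [abs_le]
    constructor
    · linarith [neg_abs_le (Real.log α), abs_nonneg (Real.log β)]
    · linarith [le_abs_self (Real.log β), abs_nonneg (Real.log α)]
  · have hFanti : Antitone F := antitone_nat_of_succ_le fun n => by linarith [he n, he0 n]
    have hE : ∀ n : ℕ, Real.exp (-(κ * TT x n)) ≤ 1 / α * (1 / ((n : ℝ) + 1)) := by
      intro n
      rw [Real.exp_neg, ← one_div, one_div_mul_one_div]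
      exact one_div_le_one_div_of_le (by positivity) (h1 n)
    have hb : ∀ n : ℕ, x n ^ 2 ≤ 2 * (γ / α) ^ 2 * (1 / ((n : ℝ) + 1) ^ 2) + 8 * F 0 * F n := by
      intro n
      have h4 : x n ≤ γ / α * (1 / ((n : ℝ) + 1)) + 2 * F n := by
        have h5 := mul_le_mul_of_nonneg_left (hE n) hγ.le
        have h6 : γ * (1 / α * (1 / ((n : ℝ) + 1))) = γ / α * (1 / ((n : ℝ) + 1)) := by ring
        linarith [h2 n]
      have h5 : x n ^ 2 ≤ (γ / α * (1 / ((n : ℝ) + 1)) + 2 * F n) ^ 2 :=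
        pow_le_pow_left₀ (hxn n) h4 2
      have h6 : F n * F n ≤ F 0 * F n :=
        mul_le_mul_of_nonneg_right (hFanti (Nat.zero_le n)) (hF n)
      have h7 : (γ / α * (1 / ((n : ℝ) + 1)) + 2 * F n) ^ 2 ≤
          2 * (γ / α * (1 / ((n : ℝ) + 1))) ^ 2 + 2 * (2 * F n) ^ 2 := by
        nlinarith [sq_nonneg (γ / α * (1 / ((n : ℝ) + 1)) - 2 * F n)]
      have h8 : (γ / α * (1 / ((n : ℝ) + 1))) ^ 2 = (γ / α) ^ 2 * (1 / ((n : ℝ) + 1) ^ 2) := by
        rw [mul_pow, div_pow 1, one_pow]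
      nlinarith
    refine Summable.of_nonneg_of_le (fun n => sq_nonneg _) hb ?_
    refine Summable.add (Summable.mul_left _ ?_) (hFs.mul_left _)
    have := (summable_nat_add_iff 1).2 (Real.summable_one_div_nat_pow.2 (by norm_num : 1 < 2))
    refine this.congr fun n => ?_
    push_cast
    rfl

/-! ### the correlation along dyadic scales -/

/-- `1/S ≥ π/2 - (π²/4) x` for `S = 2/π + x` -/
theorem inv_ge {t : ℝ} (ht : 0 ≤ t) :
    Real.pi / 2 - Real.pi ^ 2 / 4 * t ≤ 1 / (2 / Real.pi + t) := by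
  have hpi := Real.pi_pos
  rw [le_div_iff₀ (by positivity)]
  have : (Real.pi / 2 - Real.pi ^ 2 / 4 * t) * (2 / Real.pi + t) =
      1 - Real.pi ^ 2 / 4 * t ^ 2 := by
    field_simp
    ring
  rw [this]
  nlinarith [sq_nonneg t, sq_nonneg Real.pi, mul_nonneg (sq_nonneg Real.pi) (sq_nonneg t)]

/-- `1/S ≤ π/2 - (π²/4) x + (π³/8) x²` -/
theorem inv_le {t : ℝ} (ht : 0 ≤ t) :
    1 / (2 / Real.pi + t) ≤ Real.pi / 2 - Real.pi ^ 2 / 4 * t + Real.pi ^ 3 / 8 * t ^ 2 := by
  have hpi := Real.pi_pos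
  rw [div_le_iff₀ (by positivity)]
  have : (Real.pi / 2 - Real.pi ^ 2 / 4 * t + Real.pi ^ 3 / 8 * t ^ 2) * (2 / Real.pi + t) =
      1 + Real.pi ^ 3 / 8 * t ^ 3 := by
    field_simp
    ring
  rw [this]
  have : 0 ≤ Real.pi ^ 3 / 8 * t ^ 3 := by positivity
  linarith

/-- upper half: (V_up)+(P_up)+(S_up) give the upper bound with the exact power `1/8` -/
theorem corr_up {C : ℝ} (hC : 0 < C) {e F : ℕ → ℝ} (hx : Antitone x)
    (hx0 : Tendsto x atTop (𝓝 0)) (hF : ∀ n, 0 ≤ F n) (hFs : Summable F)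
    (he0 : ∀ n, 0 ≤ e n) (he : ∀ n, e n ≤ F n - F (n + 1))
    (hP2 : ∀ n, x n - x (n + 1) ≤
      C * Real.exp (-(2 * (Real.pi * Real.log 2) * TT x n)) + e n)
    {L : ℕ → ℝ} {K : ℝ} (hS : ∀ n : ℕ,
      L n ≤ -(Real.log 2 / (2 * Real.pi)) * ∑ i ∈ range n, 1 / (2 / Real.pi + x i) + K) :
    ∃ K' : ℝ, ∀ n : ℕ, L n ≤ -(Real.log 2 / 4) * n + 1 / 8 * Real.log (n + 1) + K' := by
  have hlog2 : 0 < Real.log 2 := Real.log_pos (by norm_num)
  have hpi := Real.pi_pos
  obtain ⟨γ, β, hγ, hβ, -, h3⟩ := ode_up (mul_pos hpi hlog2) hC hx hx0 hF hFs he0 he hP2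
  have hxn := x_nonneg hx hx0
  refine ⟨1 / 8 * Real.log β + K, fun n => ?_⟩
  have hn : (0 : ℝ) < (n : ℝ) + 1 := by positivity
  have h5 : Real.pi * Real.log 2 * TT x n ≤ Real.log β + Real.log (n + 1) := by
    rw [← Real.log_mul hβ.ne' hn.ne']
    have := Real.log_le_log (Real.exp_pos _) (h3 n)
    rwa [Real.log_exp] at this
  have h6 : ∑ i ∈ range n, (Real.pi / 2 - Real.pi ^ 2 / 4 * x i) ≤
      ∑ i ∈ range n, 1 / (2 / Real.pi + x i) := sum_le_sum fun i _ => inv_ge (hxn i)
  have h7 : ∑ i ∈ range n, (Real.pi / 2 - Real.pi ^ 2 / 4 * x i) =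
      n * (Real.pi / 2) - Real.pi ^ 2 / 4 * TT x n := by
    rw [sum_sub_distrib, sum_const, card_range, nsmul_eq_mul, ← mul_sum]
    rfl
  have h8 := mul_le_mul_of_nonneg_left h6 (show 0 ≤ Real.log 2 / (2 * Real.pi) by positivity)
  rw [h7] at h8
  have h9 : Real.log 2 / (2 * Real.pi) * (n * (Real.pi / 2) - Real.pi ^ 2 / 4 * TT x n) =
      Real.log 2 / 4 * n - 1 / 8 * (Real.pi * Real.log 2 * TT x n) := by
    field_simp
    ring
  have := hS n
  linarith

/-- lower half with an arbitrarily small loss in the power of the logarithm: only the lower chain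
(V_low)+(P_low)+(S_low) -/
theorem corr_low_eps {c : ℝ} (hc : 0 < c) {e F : ℕ → ℝ} (hx : Antitone x)
    (hx0 : Tendsto x atTop (𝓝 0)) (hF : ∀ n, 0 ≤ F n) (hFs : Summable F)
    (he0 : ∀ n, 0 ≤ e n) (he : ∀ n, e n ≤ F n - F (n + 1))
    (hP1 : ∀ n, c * Real.exp (-(2 * (Real.pi * Real.log 2) * TT x n)) - e n ≤ x n - x (n + 1))
    {L : ℕ → ℝ} {K : ℝ} (hS : ∀ n : ℕ,
      -(Real.log 2 / (2 * Real.pi)) * ∑ i ∈ range n, 1 / (2 / Real.pi + x i) - K ≤ L n)
    {ε : ℝ} (hε : 0 < ε) :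
    ∃ K' : ℝ, ∀ n : ℕ, -(Real.log 2 / 4) * n + (1 / 8 - ε) * Real.log (n + 1) - K' ≤ L n := by
  have hlog2 : 0 < Real.log 2 := Real.log_pos (by norm_num)
  have hpi := Real.pi_pos
  obtain ⟨α, hα, h1⟩ := ode_low (mul_pos hpi hlog2) hc hx hx0 hF hFs he0 he hP1
  have hxn := x_nonneg hx hx0
  -- `x i ≤ δ` eventually, `(π³/8) x² ≤ (π²/4) (8 ε') x`
  set η : ℝ := min (8 * ε) 1 with hη
  have hη0 : 0 < η := lt_min (by positivity) one_pos
  have hη1 : η ≤ 1 := min_le_right _ _
  have hηε : η ≤ 8 * ε := min_le_left _ _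
  obtain ⟨m, hm⟩ : ∃ m : ℕ, ∀ i ≥ m, x i ≤ 2 * η / Real.pi := by
    obtain ⟨m, h⟩ := (hx0.eventually
      (gt_mem_nhds (show (0 : ℝ) < 2 * η / Real.pi by positivity))).exists_forall_of_atTop
    exact ⟨m, fun n hn => (h n hn).le⟩
  have hterm : ∀ i, 1 / (2 / Real.pi + x i) ≤
      Real.pi / 2 - Real.pi ^ 2 / 4 * (1 - η) * x i + if i < m then Real.pi ^ 3 / 8 * x i ^ 2 else 0 := by
    intro i
    have h := inv_le (hxn i)
    split_ifs with hi
    · have : 0 ≤ Real.pi ^ 2 / 4 * η * x i := by have := hxn i; positivity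
      nlinarith
    · have h2 := hm i (not_lt.1 hi)
      have h3 : Real.pi ^ 3 / 8 * x i ^ 2 ≤ Real.pi ^ 2 / 4 * η * x i := by
        have h4 : Real.pi * x i ≤ 2 * η := by
          rw [le_div_iff₀ hpi] at h2; linarith
        have h5 := mul_le_mul_of_nonneg_left h4
          (show 0 ≤ Real.pi ^ 2 / 8 * x i by have := hxn i; positivity)
        nlinarith
      nlinarith
  set B : ℝ := ∑ i ∈ range m, Real.pi ^ 3 / 8 * x i ^ 2 with hB
  have hsum : ∀ n : ℕ, ∑ i ∈ range n, 1 / (2 / Real.pi + x i) ≤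
      n * (Real.pi / 2) - Real.pi ^ 2 / 4 * (1 - η) * TT x n + B := by
    intro n
    have h2 : ∑ i ∈ range n, 1 / (2 / Real.pi + x i) ≤ _ := sum_le_sum fun i _ => hterm i
    refine h2.trans ?_
    rw [sum_add_distrib, sum_sub_distrib, sum_const, card_range, nsmul_eq_mul, ← mul_sum]
    have h3 : ∑ i ∈ range n, (if i < m then Real.pi ^ 3 / 8 * x i ^ 2 else 0) ≤ B := by
      rw [← sum_filter, hB]
      apply sum_le_sum_of_subset_of_nonneg
      · intro i hi
        simp only [mem_filter, mem_range] at hi ⊢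
        exact hi.2
      · intro i _ _
        have := hxn i
        positivity
    have h4 : ∑ i ∈ range n, x i = TT x n := rfl
    rw [h4]
    linarith
  refine ⟨(1 / 8) * |Real.log α| + Real.log 2 / (2 * Real.pi) * B + K, fun n => ?_⟩
  have hn : (0 : ℝ) < (n : ℝ) + 1 := by positivity
  have h4 : Real.log α + Real.log (n + 1) ≤ Real.pi * Real.log 2 * TT x n := by
    rw [← Real.log_mul hα.ne' hn.ne']
    have := Real.log_le_log (by positivity) (h1 n)
    rwa [Real.log_exp] at this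
  have h8 := mul_le_mul_of_nonneg_left (hsum n) (show 0 ≤ Real.log 2 / (2 * Real.pi) by positivity)
  have h9 : Real.log 2 / (2 * Real.pi) *
      (n * (Real.pi / 2) - Real.pi ^ 2 / 4 * (1 - η) * TT x n + B) =
      Real.log 2 / 4 * n - 1 / 8 * (1 - η) * (Real.pi * Real.log 2 * TT x n) +
        Real.log 2 / (2 * Real.pi) * B := by
    field_simp
    ring
  rw [h9] at h8
  have h10 := mul_le_mul_of_nonneg_left h4 (show (0 : ℝ) ≤ 1 / 8 * (1 - η) by
    apply mul_nonneg (by norm_num); linarith)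
  have h11 : (1 / 8 - ε) * Real.log (n + 1) ≤ 1 / 8 * (1 - η) * Real.log (n + 1) := by
    apply mul_le_mul_of_nonneg_right _ (Real.log_nonneg (by
      have : (0 : ℝ) ≤ n := Nat.cast_nonneg n
      linarith))
    linarith
  have h12 : -(1 / 8 * |Real.log α|) ≤ 1 / 8 * (1 - η) * Real.log α := by
    have h13 : (1 - η) * |Real.log α| ≤ |Real.log α| := by
      have := abs_nonneg (Real.log α)
      nlinarith
    have h14 : (1 - η) * (-|Real.log α|) ≤ (1 - η) * Real.log α :=
      mul_le_mul_of_nonneg_left (neg_abs_le _) (by linarith)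
    linarith
  have := hS n
  linarith

/-- lower half with the exact power `1/8` (needs both chains) -/
theorem corr_low {c C : ℝ} (hc : 0 < c) (hC : 0 < C) {e F : ℕ → ℝ} (hx : Antitone x)
    (hx0 : Tendsto x atTop (𝓝 0)) (hF : ∀ n, 0 ≤ F n) (hFs : Summable F)
    (he0 : ∀ n, 0 ≤ e n) (he : ∀ n, e n ≤ F n - F (n + 1))
    (hP1 : ∀ n, c * Real.exp (-(2 * (Real.pi * Real.log 2) * TT x n)) - e n ≤ x n - x (n + 1))
    (hP2 : ∀ n, x n - x (n + 1) ≤
      C * Real.exp (-(2 * (Real.pi * Real.log 2) * TT x n)) + e n)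
    {L : ℕ → ℝ} {K : ℝ} (hS : ∀ n : ℕ,
      -(Real.log 2 / (2 * Real.pi)) * ∑ i ∈ range n, 1 / (2 / Real.pi + x i) - K ≤ L n) :
    ∃ K' : ℝ, ∀ n : ℕ, -(Real.log 2 / 4) * n + 1 / 8 * Real.log (n + 1) - K' ≤ L n := by
  have hlog2 : 0 < Real.log 2 := Real.log_pos (by norm_num)
  have hpi := Real.pi_pos
  obtain ⟨⟨K1, h1⟩, hsq⟩ := ode_two (mul_pos hpi hlog2) hc hC hx hx0 hF hFs he0 he hP1 hP2
  have hxn := x_nonneg hx hx0
  set B : ℝ := ∑' i, x i ^ 2 with hB
  have hsum : ∀ n : ℕ, ∑ i ∈ range n, 1 / (2 / Real.pi + x i) ≤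
      n * (Real.pi / 2) - Real.pi ^ 2 / 4 * TT x n + Real.pi ^ 3 / 8 * B := by
    intro n
    have h2 : ∑ i ∈ range n, 1 / (2 / Real.pi + x i) ≤ _ :=
      sum_le_sum fun i _ => inv_le (hxn i)
    refine h2.trans ?_
    rw [sum_add_distrib, sum_sub_distrib, sum_const, card_range, nsmul_eq_mul, ← mul_sum,
      ← mul_sum]
    have h3 : ∑ i ∈ range n, x i ^ 2 ≤ B := hsq.sum_le_tsum _ fun k _ => sq_nonneg _
    have h4 : ∑ i ∈ range n, x i = TT x n := rfl
    rw [h4]
    have := mul_le_mul_of_nonneg_left h3 (show 0 ≤ Real.pi ^ 3 / 8 by positivity)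
    linarith
  refine ⟨(1 / 8) * (Real.pi * Real.log 2 * K1) +
    Real.log 2 / (2 * Real.pi) * (Real.pi ^ 3 / 8 * B) + K, fun n => ?_⟩
  have h8 := mul_le_mul_of_nonneg_left (hsum n) (show 0 ≤ Real.log 2 / (2 * Real.pi) by positivity)
  have h9 : Real.log 2 / (2 * Real.pi) *
      (n * (Real.pi / 2) - Real.pi ^ 2 / 4 * TT x n + Real.pi ^ 3 / 8 * B) =
      Real.log 2 / 4 * n - 1 / 8 * (Real.pi * Real.log 2 * TT x n) +
        Real.log 2 / (2 * Real.pi) * (Real.pi ^ 3 / 8 * B) := by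
    field_simp
    ring
  rw [h9] at h8
  have h10 := (abs_le.1 (h1 n)).1
  have h11 : Real.log (n + 1) - Real.pi * Real.log 2 * K1 ≤ Real.pi * Real.log 2 * TT x n := by
    have h12 := mul_le_mul_of_nonneg_left h10 (mul_pos hpi hlog2).le
    have h13 : Real.pi * Real.log 2 * (TT x n - 1 / (Real.pi * Real.log 2) * Real.log (n + 1)) =
        Real.pi * Real.log 2 * TT x n - Real.log (n + 1) := by
      field_simp
    rw [h13] at h12
    linarith
  have := hS n
  linarith

end

end Vale.Agent.P159.H264
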