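import Vale.Agent.P159.H264.Ode
import Mathlib.Analysis.SpecialFunctions.Log.Base
import Mathlib.Analysis.Complex.ExponentialBounds

/-!
P159 (helper264): flow lemma with arbitrarily small losses in the exponents, and the passage from
dyadic scales to all distances.
-/

open Filter Topology Finset

namespace Vale.Agent.P159.H264

variable {x : ℕ → ℝ}

/-- the error sequences used in the flow lemmas -/
structure Err (e F : ℕ → ℝ) : Prop where
  F0 : ∀ n, 0 ≤ F n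
  Fs : Summable F
  e0 : ∀ n, 0 ≤ e n
  le : ∀ n, e n ≤ F n - F (n + 1)

/-- geometric errors are admissible -/
theorem Err.geom {A q : ℝ} (hA : 0 ≤ A) (hq : 0 ≤ q) (hq1 : q < 1) :
    Err (fun n => A * q ^ n) (fun n => A / (1 - q) * q ^ n) where
  F0 n := by have : 0 < 1 - q := by linarith
             positivity
  Fs := (summable_geometric_of_lt_one hq hq1).mul_left _
  e0 n := by positivity
  le n := by
    have : 0 < 1 - q := by linarith
    rw [pow_succ]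
    have h : A / (1 - q) * q ^ n - A / (1 - q) * (q ^ n * q) = A * q ^ n := by
      field_simp
    rw [h]

/-- `T` is at most `(1/κ + ε) log n` -/
theorem T_up_eps {κ : ℝ} (hκ : 0 < κ) (hx : Antitone x) (hx0 : Tendsto x atTop (𝓝 0))
    {e F : ℕ → ℝ} (hE : Err e F)
    (hP : ∀ ε : ℝ, 0 < ε → ∃ C : ℝ, 0 < C ∧ ∀ n,
      x n - x (n + 1) ≤ C * Real.exp (-((2 - ε) * κ * TT x n)) + e n) {ε : ℝ} (hε : 0 < ε) :
    ∃ K : ℝ, ∀ n : ℕ, κ * TT x n ≤ (1 + ε) * Real.log (n + 1) + K := by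
  -- `κ' = κ (1 - δ/2)`, `1/(1-δ/2) ≤ 1 + ε`
  set δ : ℝ := min ε 1 with hδ
  have hδ0 : 0 < δ := lt_min hε one_pos
  have hδ1 : δ ≤ 1 := min_le_right _ _
  have hδε : δ ≤ ε := min_le_left _ _
  obtain ⟨C, hC, h1⟩ := hP δ hδ0
  have hκ' : 0 < κ * (1 - δ / 2) := mul_pos hκ (by linarith)
  obtain ⟨γ, β, hγ, hβ, -, h3⟩ := ode_up (x := x) hκ' hC hx hx0 hE.F0 hE.Fs hE.e0 hE.le
    (fun n => by
      have h2 := h1 n
      have h4 : (2 - δ) * κ * TT x n = 2 * (κ * (1 - δ / 2)) * TT x n := by ring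
      rwa [h4] at h2)
  refine ⟨2 * |Real.log β|, fun n => ?_⟩
  have hn : (0 : ℝ) < (n : ℝ) + 1 := by positivity
  have hlog : 0 ≤ Real.log ((n : ℝ) + 1) := Real.log_nonneg (by
    have : (0 : ℝ) ≤ n := Nat.cast_nonneg n
    linarith)
  have h5 : κ * (1 - δ / 2) * TT x n ≤ Real.log β + Real.log (n + 1) := by
    rw [← Real.log_mul hβ.ne' hn.ne']
    have := Real.log_le_log (Real.exp_pos _) (h3 n)
    rwa [Real.log_exp] at this
  have hT : 0 ≤ κ * TT x n := mul_nonneg hκ.le (TT_nonneg (x_nonneg hx hx0) n)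
  -- multiply by `1 + δ`: `(1+δ)(1-δ/2) ≥ 1`
  have h6 : (1 : ℝ) ≤ (1 + δ) * (1 - δ / 2) := by nlinarith
  have h7 : κ * TT x n ≤ (1 + δ) * (κ * (1 - δ / 2) * TT x n) := by
    calc κ * TT x n = 1 * (κ * TT x n) := by ring
      _ ≤ ((1 + δ) * (1 - δ / 2)) * (κ * TT x n) := mul_le_mul_of_nonneg_right h6 hT
      _ = _ := by ring
  have h8 : (1 + δ) * (κ * (1 - δ / 2) * TT x n) ≤ (1 + δ) * (Real.log β + Real.log (n + 1)) :=
    mul_le_mul_of_nonneg_left h5 (by linarith)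
  have h9 : (1 + δ) * Real.log (n + 1) ≤ (1 + ε) * Real.log (n + 1) :=
    mul_le_mul_of_nonneg_right (by linarith) hlog
  have h10 : (1 + δ) * Real.log β ≤ 2 * |Real.log β| := by
    have := le_abs_self (Real.log β)
    have := abs_nonneg (Real.log β)
    nlinarith
  linarith

/-- `T` is at least `(1/κ - ε) log n` -/
theorem T_low_eps {κ : ℝ} (hκ : 0 < κ) (hx : Antitone x) (hx0 : Tendsto x atTop (𝓝 0))
    {e F : ℕ → ℝ} (hE : Err e F)
    (hP : ∀ ε : ℝ, 0 < ε → ∃ c : ℝ, 0 < c ∧ ∀ n,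
      c * Real.exp (-((2 + ε) * κ * TT x n)) - e n ≤ x n - x (n + 1)) {ε : ℝ} (hε : 0 < ε) :
    ∃ K : ℝ, ∀ n : ℕ, (1 - ε) * Real.log (n + 1) - K ≤ κ * TT x n := by
  obtain ⟨c, hc, h1⟩ := hP ε hε
  have hκ' : 0 < κ * (1 + ε / 2) := mul_pos hκ (by linarith)
  obtain ⟨α, hα, h3⟩ := ode_low (x := x) hκ' hc hx hx0 hE.F0 hE.Fs hE.e0 hE.le
    (fun n => by
      have h2 := h1 n
      have h4 : (2 + ε) * κ * TT x n = 2 * (κ * (1 + ε / 2)) * TT x n := by ring
      rwa [h4] at h2)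
  refine ⟨|Real.log α|, fun n => ?_⟩
  have hn : (0 : ℝ) < (n : ℝ) + 1 := by positivity
  have hlog : 0 ≤ Real.log ((n : ℝ) + 1) := Real.log_nonneg (by
    have : (0 : ℝ) ≤ n := Nat.cast_nonneg n
    linarith)
  have h5 : Real.log α + Real.log (n + 1) ≤ κ * (1 + ε / 2) * TT x n := by
    rw [← Real.log_mul hα.ne' hn.ne']
    have := Real.log_le_log (by positivity) (h3 n)
    rwa [Real.log_exp] at this
  have hT : 0 ≤ κ * TT x n := mul_nonneg hκ.le (TT_nonneg (x_nonneg hx hx0) n)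
  -- divide by `1 + ε/2`
  have h6 : (Real.log α + Real.log (n + 1)) / (1 + ε / 2) ≤ κ * TT x n := by
    rw [div_le_iff₀ (by linarith)]
    linarith
  have h7 : (1 - ε) * Real.log (n + 1) ≤ Real.log (n + 1) / (1 + ε / 2) := by
    rw [le_div_iff₀ (by linarith)]
    nlinarith [mul_nonneg hε.le hlog, mul_nonneg (mul_nonneg hε.le hε.le) hlog]
  have h8 : -|Real.log α| ≤ Real.log α / (1 + ε / 2) := by
    rw [le_div_iff₀ (by linarith)]
    nlinarith [neg_abs_le (Real.log α), abs_nonneg (Real.log α)]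
  rw [add_div] at h6
  linarith

/-- `∑ 1/S_i` in terms of `T` -/
theorem sum_inv_ge (hxn : ∀ n, 0 ≤ x n) (n : ℕ) :
    n * (Real.pi / 2) - Real.pi ^ 2 / 4 * TT x n ≤ ∑ i ∈ range n, 1 / (2 / Real.pi + x i) := by
  have h6 : ∑ i ∈ range n, (Real.pi / 2 - Real.pi ^ 2 / 4 * x i) ≤
      ∑ i ∈ range n, 1 / (2 / Real.pi + x i) := sum_le_sum fun i _ => inv_ge (hxn i)
  have h7 : ∑ i ∈ range n, (Real.pi / 2 - Real.pi ^ 2 / 4 * x i) =
      n * (Real.pi / 2) - Real.pi ^ 2 / 4 * TT x n := by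
    rw [sum_sub_distrib, sum_const, card_range, nsmul_eq_mul, ← mul_sum]
    rfl
  linarith

theorem sum_inv_le_eps (hx : Antitone x) (hx0 : Tendsto x atTop (𝓝 0)) {η : ℝ} (hη0 : 0 < η) :
    ∃ B : ℝ, ∀ n : ℕ, ∑ i ∈ range n, 1 / (2 / Real.pi + x i) ≤
      n * (Real.pi / 2) - Real.pi ^ 2 / 4 * (1 - η) * TT x n + B := by
  have hpi := Real.pi_pos
  have hxn := x_nonneg hx hx0
  obtain ⟨m, hm⟩ : ∃ m : ℕ, ∀ i ≥ m, x i ≤ 2 * η / Real.pi := by
    obtain ⟨m, h⟩ := (hx0.eventually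
      (gt_mem_nhds (show (0 : ℝ) < 2 * η / Real.pi by positivity))).exists_forall_of_atTop
    exact ⟨m, fun n hn => (h n hn).le⟩
  have hterm : ∀ i, 1 / (2 / Real.pi + x i) ≤
      Real.pi / 2 - Real.pi ^ 2 / 4 * (1 - η) * x i +
        if i < m then Real.pi ^ 3 / 8 * x i ^ 2 else 0 := by
    intro i
    have h := inv_le (hxn i)
    split_ifs with hi
    · have : 0 ≤ Real.pi ^ 2 / 4 * η * x i := by have := hxn i; positivity
      nlinarith
    · have h2 := hm i (not_lt.1 hi)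
      have h3 : Real.pi ^ 3 / 8 * x i ^ 2 ≤ Real.pi ^ 2 / 4 * η * x i := by
        have h4 : Real.pi * x i ≤ 2 * η := by
          rw [le_div_iff₀ hpi] at h2; linarith
        have h5 := mul_le_mul_of_nonneg_left h4
          (show 0 ≤ Real.pi ^ 2 / 8 * x i by have := hxn i; positivity)
        nlinarith
      nlinarith
  refine ⟨∑ i ∈ range m, Real.pi ^ 3 / 8 * x i ^ 2, fun n => ?_⟩
  have h2 : ∑ i ∈ range n, 1 / (2 / Real.pi + x i) ≤ _ := sum_le_sum fun i _ => hterm i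
  refine h2.trans ?_
  rw [sum_add_distrib, sum_sub_distrib, sum_const, card_range, nsmul_eq_mul, ← mul_sum]
  have h3 : ∑ i ∈ range n, (if i < m then Real.pi ^ 3 / 8 * x i ^ 2 else 0) ≤
      ∑ i ∈ range m, Real.pi ^ 3 / 8 * x i ^ 2 := by
    rw [← sum_filter]
    apply sum_le_sum_of_subset_of_nonneg
    · intro i hi
      simp only [mem_filter, mem_range] at hi ⊢
      exact hi.2
    · intro i _ _
      have := hxn i
      positivity
  have h4 : ∑ i ∈ range n, x i = TT x n := rfl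
  rw [h4]
  linarith

/-- upper bound of the correlation, with small losses -/
theorem corr_up_eps' (hx : Antitone x) (hx0 : Tendsto x atTop (𝓝 0))
    {e F : ℕ → ℝ} (hE : Err e F)
    (hP : ∀ ε : ℝ, 0 < ε → ∃ C : ℝ, 0 < C ∧ ∀ n, x n - x (n + 1) ≤
      C * Real.exp (-((2 - ε) * (Real.pi * Real.log 2) * TT x n)) + e n)
    {L : ℕ → ℝ} (hS : ∀ ε : ℝ, 0 < ε → ∃ K : ℝ, ∀ n : ℕ, L n ≤
      -(Real.log 2 / (2 * Real.pi)) * ∑ i ∈ range n, 1 / (2 / Real.pi + x i) +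
        ε * Real.log (n + 1) + K) {ε : ℝ} (hε : 0 < ε) :
    ∃ K' : ℝ, ∀ n : ℕ, L n ≤ -(Real.log 2 / 4) * n + (1 / 8 + ε) * Real.log (n + 1) + K' := by
  have hlog2 : 0 < Real.log 2 := Real.log_pos (by norm_num)
  have hpi := Real.pi_pos
  obtain ⟨K1, h1⟩ := T_up_eps (mul_pos hpi hlog2) hx hx0 hE hP (show 0 < 4 * ε by positivity)
  obtain ⟨K2, h2⟩ := hS (ε / 2) (by positivity)
  have hxn := x_nonneg hx hx0
  refine ⟨1 / 8 * K1 + K2, fun n => ?_⟩
  have h8 := mul_le_mul_of_nonneg_left (sum_inv_ge hxn n)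
    (show 0 ≤ Real.log 2 / (2 * Real.pi) by positivity)
  have h9 : Real.log 2 / (2 * Real.pi) * (n * (Real.pi / 2) - Real.pi ^ 2 / 4 * TT x n) =
      Real.log 2 / 4 * n - 1 / 8 * (Real.pi * Real.log 2 * TT x n) := by
    field_simp
    ring
  have := h1 n
  have := h2 n
  linarith

/-- lower bound of the correlation, with small losses -/
theorem corr_low_eps' (hx : Antitone x) (hx0 : Tendsto x atTop (𝓝 0))
    {e F : ℕ → ℝ} (hE : Err e F)
    (hP : ∀ ε : ℝ, 0 < ε → ∃ c : ℝ, 0 < c ∧ ∀ n,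
      c * Real.exp (-((2 + ε) * (Real.pi * Real.log 2) * TT x n)) - e n ≤ x n - x (n + 1))
    {L : ℕ → ℝ} (hS : ∀ ε : ℝ, 0 < ε → ∃ K : ℝ, ∀ n : ℕ,
      -(Real.log 2 / (2 * Real.pi)) * ∑ i ∈ range n, 1 / (2 / Real.pi + x i) -
        ε * Real.log (n + 1) - K ≤ L n) {ε : ℝ} (hε : 0 < ε) :
    ∃ K' : ℝ, ∀ n : ℕ, -(Real.log 2 / 4) * n + (1 / 8 - ε) * Real.log (n + 1) - K' ≤ L n := by
  have hlog2 : 0 < Real.log 2 := Real.log_pos (by norm_num)
  have hpi := Real.pi_pos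
  set η : ℝ := min ε 1 with hη
  have hη0 : 0 < η := lt_min hε one_pos
  have hη1 : η ≤ 1 := min_le_right _ _
  have hηε : η ≤ ε := min_le_left _ _
  obtain ⟨K1, h1⟩ := T_low_eps (mul_pos hpi hlog2) hx hx0 hE hP hη0
  obtain ⟨K2, h2⟩ := hS (ε / 2) (by positivity)
  obtain ⟨B, h3⟩ := sum_inv_le_eps hx hx0 hη0
  have hxn := x_nonneg hx hx0
  refine ⟨1 / 8 * |K1| + Real.log 2 / (2 * Real.pi) * B + K2, fun n => ?_⟩
  have hlog : 0 ≤ Real.log ((n : ℝ) + 1) := Real.log_nonneg (by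
    have : (0 : ℝ) ≤ n := Nat.cast_nonneg n
    linarith)
  have h8 := mul_le_mul_of_nonneg_left (h3 n)
    (show 0 ≤ Real.log 2 / (2 * Real.pi) by positivity)
  have h9 : Real.log 2 / (2 * Real.pi) *
      (n * (Real.pi / 2) - Real.pi ^ 2 / 4 * (1 - η) * TT x n + B) =
      Real.log 2 / 4 * n - 1 / 8 * (1 - η) * (Real.pi * Real.log 2 * TT x n) +
        Real.log 2 / (2 * Real.pi) * B := by
    field_simp
    ring
  rw [h9] at h8
  have h10 := mul_le_mul_of_nonneg_left (h1 n) (show (0 : ℝ) ≤ 1 / 8 * (1 - η) by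
    apply mul_nonneg (by norm_num); linarith)
  have h11 : (1 / 8 - ε / 2) * Real.log (n + 1) ≤
      1 / 8 * (1 - η) * ((1 - η) * Real.log (n + 1)) := by
    have h13 : (1 : ℝ) / 8 - ε / 2 ≤ 1 / 8 * (1 - η) * (1 - η) := by nlinarith
    calc _ ≤ 1 / 8 * (1 - η) * (1 - η) * Real.log (n + 1) :=
          mul_le_mul_of_nonneg_right h13 hlog
      _ = _ := by ring
  have h12 : 1 / 8 * (1 - η) * K1 ≤ 1 / 8 * |K1| := by
    have h13 := le_abs_self K1
    have h14 := abs_nonneg K1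
    nlinarith
  have := h2 n
  nlinarith

/-! ### from dyadic scales to all distances -/

/-- exact power: from dyadic distances to all distances -/
theorem all_of_dyadic_up {f : ℕ → ℝ} (hf : ∀ n, 1 ≤ n → 0 < f n)
    (hanti : ∀ m n, 1 ≤ m → m ≤ n → f n ≤ f m) {p K : ℝ}
    (h : ∀ n : ℕ, Real.log (f (2 ^ n)) ≤ -(Real.log 2 / 4) * n + p * Real.log (n + 1) + K)
    (hp : 0 ≤ p) :
    ∃ C : ℝ, 0 < C ∧ ∀ r : ℕ, 1 ≤ r →
      f r ≤ C * (r : ℝ) ^ (-(1 / 4) : ℝ) * (1 + Real.log r) ^ p := by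
  have hlog2 : 0 < Real.log 2 := Real.log_pos (by norm_num)
  refine ⟨Real.exp (Real.log 2 / 4 + K + p * Real.log 2), Real.exp_pos _, fun r hr => ?_⟩
  set n := Nat.log 2 r with hn
  have hr0 : (0 : ℝ) < r := by exact_mod_cast hr
  have h1 : 2 ^ n ≤ r := Nat.pow_log_le_self 2 (by omega)
  have h2 : r < 2 ^ (n + 1) := Nat.lt_pow_succ_log_self (by norm_num) r
  have h3 : f r ≤ f (2 ^ n) := hanti _ _ Nat.one_le_two_pow h1
  have h4 := h n
  have hlr1 : (n : ℝ) * Real.log 2 ≤ Real.log r := by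
    rw [← Real.log_pow]
    exact Real.log_le_log (by positivity) (by exact_mod_cast h1)
  have hlr2 : Real.log r ≤ ((n : ℝ) + 1) * Real.log 2 := by
    have : Real.log r ≤ Real.log ((2 : ℝ) ^ (n + 1)) :=
      Real.log_le_log hr0 (by exact_mod_cast h2.le)
    rwa [Real.log_pow, Nat.cast_add, Nat.cast_one] at this
  have hlrn : 0 ≤ Real.log r := Real.log_nonneg (by exact_mod_cast hr)
  -- `n + 1 ≤ 2 (1 + log r)`
  have h5 : (n : ℝ) + 1 ≤ 2 * (1 + Real.log r) := by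
    have : (1 : ℝ) / 2 ≤ Real.log 2 := by
      have := Real.log_two_gt_d9; linarith
    have hn0 : (0 : ℝ) ≤ n := Nat.cast_nonneg n
    nlinarith
  have h6 : Real.log ((n : ℝ) + 1) ≤ Real.log 2 + Real.log (1 + Real.log r) := by
    rw [← Real.log_mul (by norm_num) (by positivity)]
    exact Real.log_le_log (by positivity) h5
  have h7 : Real.log (f r) ≤ Real.log 2 / 4 + K + p * Real.log 2 +
      (-(1 / 4) * Real.log r + p * Real.log (1 + Real.log r)) := by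
    have h8 : Real.log (f r) ≤ Real.log (f (2 ^ n)) := Real.log_le_log (hf r hr) h3
    have h9 := mul_le_mul_of_nonneg_left h6 hp
    nlinarith
  calc f r = Real.exp (Real.log (f r)) := (Real.exp_log (hf r hr)).symm
    _ ≤ Real.exp (Real.log 2 / 4 + K + p * Real.log 2 +
      (-(1 / 4) * Real.log r + p * Real.log (1 + Real.log r))) := Real.exp_le_exp.2 h7
    _ = _ := by
      rw [Real.exp_add, Real.exp_add (-(1 / 4) * Real.log r), Real.rpow_def_of_pos hr0,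
        Real.rpow_def_of_pos (by positivity), mul_assoc]
      ring_nf

theorem all_of_dyadic_low {f : ℕ → ℝ} (hf : ∀ n, 1 ≤ n → 0 < f n)
    (hanti : ∀ m n, 1 ≤ m → m ≤ n → f n ≤ f m) {p K : ℝ}
    (h : ∀ n : ℕ, -(Real.log 2 / 4) * n + p * Real.log (n + 1) - K ≤ Real.log (f (2 ^ n)))
    (hp : 0 ≤ p) :
    ∃ c : ℝ, 0 < c ∧ ∀ r : ℕ, 1 ≤ r →
      c * (r : ℝ) ^ (-(1 / 4) : ℝ) * (1 + Real.log r) ^ p ≤ f r := by
  have hlog2 : 0 < Real.log 2 := Real.log_pos (by norm_num)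
  refine ⟨Real.exp (-(Real.log 2 / 4) - K), Real.exp_pos _, fun r hr => ?_⟩
  set n := Nat.log 2 r with hn
  have hr0 : (0 : ℝ) < r := by exact_mod_cast hr
  have h1 : 2 ^ n ≤ r := Nat.pow_log_le_self 2 (by omega)
  have h2 : r < 2 ^ (n + 1) := Nat.lt_pow_succ_log_self (by norm_num) r
  have h3 : f (2 ^ (n + 1)) ≤ f r := hanti _ _ hr h2.le
  have h4 := h (n + 1)
  have hlr1 : (n : ℝ) * Real.log 2 ≤ Real.log r := by
    rw [← Real.log_pow]
    exact Real.log_le_log (by positivity) (by exact_mod_cast h1)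
  have hlr2 : Real.log r ≤ ((n : ℝ) + 1) * Real.log 2 := by
    have : Real.log r ≤ Real.log ((2 : ℝ) ^ (n + 1)) :=
      Real.log_le_log hr0 (by exact_mod_cast h2.le)
    rwa [Real.log_pow, Nat.cast_add, Nat.cast_one] at this
  have hlrn : 0 ≤ Real.log r := Real.log_nonneg (by exact_mod_cast hr)
  -- `1 + log r ≤ n + 2`
  have h5 : 1 + Real.log r ≤ ((n + 1 : ℕ) : ℝ) + 1 := by
    have : Real.log 2 ≤ 1 := by
      have := Real.log_two_lt_d9; linarith
    have hn0 : (0 : ℝ) ≤ n := Nat.cast_nonneg n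
    push_cast
    nlinarith
  have h6 : Real.log (1 + Real.log r) ≤ Real.log (((n + 1 : ℕ) : ℝ) + 1) :=
    Real.log_le_log (by positivity) h5
  have h7 : -(Real.log 2 / 4) - K +
      (-(1 / 4) * Real.log r + p * Real.log (1 + Real.log r)) ≤ Real.log (f r) := by
    have h8 : Real.log (f (2 ^ (n + 1))) ≤ Real.log (f r) :=
      Real.log_le_log (hf _ Nat.one_le_two_pow) h3
    have h9 := mul_le_mul_of_nonneg_left h6 hp
    push_cast at h4 h9
    nlinarith
  calc _ = Real.exp (-(Real.log 2 / 4) - K +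
      (-(1 / 4) * Real.log r + p * Real.log (1 + Real.log r))) := by
        rw [Real.exp_add, Real.exp_add (-(1 / 4) * Real.log r), Real.rpow_def_of_pos hr0,
          Real.rpow_def_of_pos (by positivity), mul_assoc]
        ring_nf
    _ ≤ Real.exp (Real.log (f r)) := Real.exp_le_exp.2 h7
    _ = f r := Real.exp_log (hf r hr)

end Vale.Agent.P159.H264
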