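import Vale.Agent.P159.H264.Asm
import Vale.Agent.P159.H264.OdeEps

/-!
P159 (helper264): from (V), (P), (S) to `L n = log C(2^n) = -(log 2/4) n + (1/8 ± ..) log n + ..`.

`q n` = stiffness excess used in (S), `s n` = stiffness excess used in (V), (P); `∑ |q - s| < ∞`.
-/

open Filter Topology Finset

namespace Vale.Agent.P159.H264

section
variable {s q y L : ℕ → ℝ}

/-- `-(log 2/2π)(n π/2 - π²/4 a) = -(log 2/4) n + κ/8 a` -/
theorem coef_id (n a : ℝ) : -(Real.log 2 / (2 * Real.pi)) * (n * (Real.pi / 2) -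
    Real.pi ^ 2 / 4 * a) = -(Real.log 2 / 4) * n + kap / 8 * a := by
  have hpi := Real.pi_pos
  rw [kap]
  field_simp
  ring

/-- (S_up) and an upper bound of `T` give the upper bound of `L` -/
theorem L_up (hq : ∀ i, 0 < 2 / Real.pi + q i) (hqs : Summable fun n => |q n - s n|)
    {g : ℕ → ℝ}
    (hS : ∀ n : ℕ, L n ≤ -(Real.log 2 / (2 * Real.pi)) * ∑ i ∈ range n, 1 / (2 / Real.pi + q i) +
      g n) :
    ∃ K : ℝ, ∀ n : ℕ, L n ≤ -(Real.log 2 / 4) * n + kap / 8 * TT s n + g n + K := by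
  obtain ⟨B, hB⟩ := sum_inv_ge_q hq hqs
  have hpi := Real.pi_pos
  have hl := log_two_pos
  refine ⟨Real.log 2 / (2 * Real.pi) * B, fun n => (hS n).trans ?_⟩
  have h1 := mul_le_mul_of_nonneg_left (hB n) (show 0 ≤ Real.log 2 / (2 * Real.pi) by positivity)
  have h2 := coef_id n (TT s n)
  linarith

/-- (S_low) gives the lower bound of `L` up to the factor `1 - η` in front of `T` -/
theorem L_low (hs : Antitone s) (hs0 : Tendsto s atTop (𝓝 0))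
    (hqs : Summable fun n => |q n - s n|) {g : ℕ → ℝ}
    (hS : ∀ n : ℕ, -(Real.log 2 / (2 * Real.pi)) * ∑ i ∈ range n, 1 / (2 / Real.pi + q i) -
      g n ≤ L n) {η : ℝ} (hη : 0 < η) :
    ∃ K : ℝ, ∀ n : ℕ, -(Real.log 2 / 4) * n + kap / 8 * ((1 - η) * TT s n) - g n - K ≤ L n := by
  obtain ⟨B, hB⟩ := sum_inv_le_q hs hs0 hqs hη
  have hpi := Real.pi_pos
  have hl := log_two_pos
  refine ⟨Real.log 2 / (2 * Real.pi) * B, fun n => le_trans ?_ (hS n)⟩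
  have h1 := mul_le_mul_of_nonneg_left (hB n) (show 0 ≤ Real.log 2 / (2 * Real.pi) by positivity)
  have h2 := coef_id n ((1 - η) * TT s n)
  linarith

/-- (S_low) with `∑ s² < ∞` gives the exact lower bound of `L` -/
theorem L_low' (hs0 : Tendsto s atTop (𝓝 0))
    (hqs : Summable fun n => |q n - s n|) (hs2 : Summable fun n => s n ^ 2) {g : ℕ → ℝ}
    (hS : ∀ n : ℕ, -(Real.log 2 / (2 * Real.pi)) * ∑ i ∈ range n, 1 / (2 / Real.pi + q i) -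
      g n ≤ L n) :
    ∃ K : ℝ, ∀ n : ℕ, -(Real.log 2 / 4) * n + kap / 8 * TT s n - g n - K ≤ L n := by
  obtain ⟨B, hB⟩ := sum_inv_le_q' hs0 hqs hs2
  have hpi := Real.pi_pos
  have hl := log_two_pos
  refine ⟨Real.log 2 / (2 * Real.pi) * B, fun n => le_trans ?_ (hS n)⟩
  have h1 := mul_le_mul_of_nonneg_left (hB n) (show 0 ≤ Real.log 2 / (2 * Real.pi) by positivity)
  have h2 := coef_id n (TT s n)
  linarith

/-! ### T1 -/

/-- **T1, upper half**: `log C(2^n) ≤ -(log 2/4) n + (1/8 + ε) log n + K` -/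
theorem asm_up_T1 (hs : Antitone s) (hs0 : Tendsto s atTop (𝓝 0)) (hy : ∀ n, 0 < y n)
    (hq : ∀ i, 0 < 2 / Real.pi + q i) (hqs : Summable fun n => |q n - s n|)
    (hV : ∀ ε : ℝ, 0 < ε → ∃ K : ℝ, ∀ n : ℕ,
      Real.log (y n) ≤ -(kap * TT s n) + ε * Real.log ((n : ℝ) + 1) + K)
    (hP : ∀ ε : ℝ, 0 < ε → ∃ C : ℝ, 0 < C ∧ ∃ F : ℕ → ℝ, (∀ n, 0 ≤ F n) ∧ Summable F ∧
      ∀ n M : ℕ, n ≤ M → s n - s M ≤
        C * ∑ m ∈ Ico n M, ((m : ℝ) + 1) ^ ε * y m ^ (2 - ε) + F n + F M)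
    (hS : ∀ ε : ℝ, 0 < ε → ∃ K : ℝ, ∀ n : ℕ, L n ≤
      -(Real.log 2 / (2 * Real.pi)) * ∑ i ∈ range n, 1 / (2 / Real.pi + q i) +
        ε * Real.log ((n : ℝ) + 1) + K) {ε : ℝ} (hε : 0 < ε) :
    ∃ K : ℝ, ∀ n : ℕ, L n ≤ -(Real.log 2 / 4) * n + (1 / 8 + ε) * Real.log ((n : ℝ) + 1) + K := by
  obtain ⟨K1, h1⟩ := T1_up hs hs0 hy hV hP hε
  obtain ⟨K2, h2⟩ := hS (ε / 2) (by positivity)
  obtain ⟨K3, h3⟩ := L_up (L := L) (g := fun n => ε / 2 * Real.log ((n : ℝ) + 1) + K2) hq hqs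
    (fun n => by linarith [h2 n])
  refine ⟨K1 / 8 + K2 + K3, fun n => ?_⟩
  have h4 := h1 n
  have h5 := h3 n
  have h6 := log_nn n
  have h7 : 0 ≤ ε * Real.log ((n : ℝ) + 1) := by positivity
  linarith

/-- **T1, lower half**: `log C(2^n) ≥ -(log 2/4) n + (1/8 - ε) log n - K` -/
theorem asm_low_T1 (hs : Antitone s) (hs0 : Tendsto s atTop (𝓝 0)) (hy : ∀ n, 0 < y n)
    (hqs : Summable fun n => |q n - s n|)
    (hV : ∀ ε : ℝ, 0 < ε → ∃ K : ℝ, ∀ n : ℕ,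
      -(kap * TT s n) - ε * Real.log ((n : ℝ) + 1) - K ≤ Real.log (y n))
    (hP : ∀ ε : ℝ, 0 < ε → ∃ c : ℝ, 0 < c ∧ ∃ F : ℕ → ℝ, (∀ n, 0 ≤ F n) ∧ Summable F ∧
      ∀ n M : ℕ, n ≤ M →
        c * ∑ m ∈ Ico n M, ((m : ℝ) + 1) ^ (-ε) * y m ^ (2 + ε) - F n - F M ≤ s n - s M)
    (hS : ∀ ε : ℝ, 0 < ε → ∃ K : ℝ, ∀ n : ℕ,
      -(Real.log 2 / (2 * Real.pi)) * ∑ i ∈ range n, 1 / (2 / Real.pi + q i) -
        ε * Real.log ((n : ℝ) + 1) - K ≤ L n) {ε : ℝ} (hε : 0 < ε) :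
    ∃ K : ℝ, ∀ n : ℕ, -(Real.log 2 / 4) * n + (1 / 8 - ε) * Real.log ((n : ℝ) + 1) - K ≤ L n := by
  set δ : ℝ := min ε 1 with hδ
  have hδ0 : 0 < δ := lt_min hε one_pos
  have hδε : δ ≤ ε := min_le_left _ _
  have hδ1 : δ ≤ 1 := min_le_right _ _
  obtain ⟨K1, h1⟩ := T1_low hs hs0 hy hV hP hδ0
  obtain ⟨K2, h2⟩ := hS (ε / 2) (by positivity)
  obtain ⟨K3, h3⟩ := L_low (L := L) (g := fun n => ε / 2 * Real.log ((n : ℝ) + 1) + K2) hs hs0 hqs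
    (fun n => by linarith [h2 n]) hδ0
  refine ⟨|K1| / 8 + K2 + K3, fun n => ?_⟩
  have h4 := h1 n
  have h5 := h3 n
  have h6 := log_nn n
  have h7 : (1 - δ) * ((1 - δ) * Real.log ((n : ℝ) + 1) - K1) ≤ (1 - δ) * (kap * TT s n) :=
    mul_le_mul_of_nonneg_left h4 (by linarith)
  have h8 : (1 - δ) * K1 ≤ |K1| := by
    have := le_abs_self K1
    have := abs_nonneg K1
    nlinarith
  have h9 : (1 - 4 * ε) * Real.log ((n : ℝ) + 1) ≤
      (1 - δ) * ((1 - δ) * Real.log ((n : ℝ) + 1)) := by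
    have h10 : 1 - 4 * ε ≤ (1 - δ) * (1 - δ) := by nlinarith
    have := mul_le_mul_of_nonneg_right h10 h6
    linarith
  have h10 : kap / 8 * ((1 - δ) * TT s n) = 1 / 8 * ((1 - δ) * (kap * TT s n)) := by ring
  rw [h10] at h5
  linarith

/-! ### T2 -/

/-- **T2, upper half**: `log C(2^n) ≤ -(log 2/4) n + (1/8) log n + K` -/
theorem asm_up_T2 (hs : Antitone s) (hs0 : Tendsto s atTop (𝓝 0)) (hy : ∀ n, 0 ≤ y n)
    (hq : ∀ i, 0 < 2 / Real.pi + q i) (hqs : Summable fun n => |q n - s n|)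
    {K : ℝ} (hK : 0 < K) (hV : ∀ n, y n ≤ K * Real.exp (-(kap * TT s n)))
    {C : ℝ} (hC : 0 < C) {F : ℕ → ℝ} (hF : ∀ n, 0 ≤ F n) (hFs : Summable F)
    (hP : ∀ n M : ℕ, n ≤ M → s n - s M ≤ C * ∑ m ∈ Ico n M, y m ^ 2 + F n + F M)
    {K₀ : ℝ} (hS : ∀ n : ℕ, L n ≤
      -(Real.log 2 / (2 * Real.pi)) * ∑ i ∈ range n, 1 / (2 / Real.pi + q i) + K₀) :
    ∃ K : ℝ, ∀ n : ℕ, L n ≤ -(Real.log 2 / 4) * n + 1 / 8 * Real.log ((n : ℝ) + 1) + K := by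
  have hk := kap_pos
  obtain ⟨K1, h1⟩ := T2_up (b := 2 * kap) (y := fun n => y n ^ 2) (by positivity) hs hs0
    (K := K ^ 2) (by positivity) (fun n => by
      have h2 := pow_le_pow_left₀ (hy n) (hV n) 2
      rw [mul_pow, ← Real.exp_nat_mul] at h2
      refine h2.trans (le_of_eq ?_)
      congr 2
      push_cast
      ring) hC hF hFs hP
  obtain ⟨K3, h3⟩ := L_up (L := L) (g := fun n => K₀) hq hqs hS
  refine ⟨K1 / 8 + K₀ + K3, fun n => ?_⟩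
  have h4 := h1 n
  have h5 := h3 n
  linarith

/-- **T2, lower half**: needs `∑ s² < ∞` (`sq_summable_of_T`: enough `T_n ≤ A log (n+2)`) -/
theorem asm_low_T2 (hs : Antitone s) (hs0 : Tendsto s atTop (𝓝 0))
    (hqs : Summable fun n => |q n - s n|) (hs2 : Summable fun n => s n ^ 2)
    {K : ℝ} (hK : 0 < K) (hV : ∀ n, K * Real.exp (-(kap * TT s n)) ≤ y n)
    {c : ℝ} (hc : 0 < c) {F : ℕ → ℝ} (hF : ∀ n, 0 ≤ F n) (hFs : Summable F)
    (hP : ∀ n M : ℕ, n ≤ M → c * ∑ m ∈ Ico n M, y m ^ 2 - F n - F M ≤ s n - s M)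
    {K₀ : ℝ} (hS : ∀ n : ℕ,
      -(Real.log 2 / (2 * Real.pi)) * ∑ i ∈ range n, 1 / (2 / Real.pi + q i) - K₀ ≤ L n) :
    ∃ K : ℝ, ∀ n : ℕ, -(Real.log 2 / 4) * n + 1 / 8 * Real.log ((n : ℝ) + 1) - K ≤ L n := by
  have hk := kap_pos
  obtain ⟨K1, h1⟩ := T2_low (b := 2 * kap) (y := fun n => y n ^ 2) (by positivity) hs hs0
    (K := K ^ 2) (by positivity) (fun n => by
      have h2 := pow_le_pow_left₀ (by positivity) (hV n) 2
      rw [mul_pow, ← Real.exp_nat_mul] at h2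
      refine le_trans (le_of_eq ?_) h2
      congr 2
      push_cast
      ring) hc hF hFs hP
  obtain ⟨K3, h3⟩ := L_low' (L := L) (g := fun n => K₀) hs0 hqs hs2 hS
  refine ⟨K1 / 8 + K₀ + K3, fun n => ?_⟩
  have h4 := h1 n
  have h5 := h3 n
  linarith

/-! ### weak forms -/

/-- **weak lower half** (general constant `b` in (V_low)): `y_n² ≥ K e^{-b T_n}` and
`drop ≥ c (n+1)^{-ε} y²` give `L ≥ -(log 2/4) n + (κ/(4 b) - ε') log n - K`. With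
`y ≥ c e^{-C₃ T}` one has `b = 2 C₃` and the exponent is `κ/(8 C₃) - ε'`. -/
theorem asm_low_weak {b : ℝ} (hb : 0 < b) (hs : Antitone s) (hs0 : Tendsto s atTop (𝓝 0))
    (hqs : Summable fun n => |q n - s n|)
    (hP : ∀ ε : ℝ, 0 < ε → ∃ c : ℝ, 0 < c ∧ ∃ F : ℕ → ℝ, (∀ n, 0 ≤ F n) ∧ Summable F ∧
      ∀ n M : ℕ, n ≤ M →
        c * ∑ m ∈ Ico n M, ((m : ℝ) + 1) ^ (-ε) * Real.exp (-(b * TT s m)) - F n - F M ≤
          s n - s M)
    (hS : ∀ ε : ℝ, 0 < ε → ∃ K : ℝ, ∀ n : ℕ,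
      -(Real.log 2 / (2 * Real.pi)) * ∑ i ∈ range n, 1 / (2 / Real.pi + q i) -
        ε * Real.log ((n : ℝ) + 1) - K ≤ L n) {ε : ℝ} (hε : 0 < ε) :
    ∃ K : ℝ, ∀ n : ℕ,
      -(Real.log 2 / 4) * n + (kap / (4 * b) - ε) * Real.log ((n : ℝ) + 1) - K ≤ L n := by
  have hk := kap_pos
  set a : ℝ := kap / (4 * b) with ha
  have ha0 : 0 < a := by positivity
  set δ : ℝ := min 1 (ε / (4 * a)) with hδ
  have hδ0 : 0 < δ := lt_min one_pos (by positivity)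
  have hδ1 : δ ≤ 1 := min_le_left _ _
  have hδa : δ * (4 * a) ≤ ε := by
    have h1 : δ ≤ ε / (4 * a) := min_le_right _ _
    rwa [le_div_iff₀ (by positivity)] at h1
  obtain ⟨c, hc, F, hF, hFs, hPF⟩ := hP δ hδ0
  obtain ⟨α, hα, hα'⟩ := low_gen (b := b) (c := c) (ε := δ) hb hc hδ0.le (by linarith) hs hs0
    hF hFs hPF
  obtain ⟨K2, h2⟩ := hS (ε / 4) (by positivity)
  obtain ⟨K3, h3⟩ := L_low (L := L) (g := fun n => ε / 4 * Real.log ((n : ℝ) + 1) + K2) hs hs0 hqs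
    (fun n => by linarith [h2 n]) hδ0
  refine ⟨a * |Real.log α| + K2 + K3, fun n => ?_⟩
  have hn0 : 0 < (n : ℝ) + 1 := by linarith [one_le_cast n]
  have h4 := Real.log_le_log (by positivity) (hα' n)
  rw [Real.log_exp, Real.log_mul hα.ne' (by positivity), Real.log_rpow hn0] at h4
  have h5 := h3 n
  have h6 := log_nn n
  have h7 : kap / 8 * ((1 - δ) * TT s n) = a * ((1 - δ) * (b / 2 * TT s n)) := by
    rw [ha]; field_simp; ring
  rw [h7] at h5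
  have h8 : (1 - δ) * (Real.log α + (1 - δ / 2) * Real.log ((n : ℝ) + 1)) ≤
      (1 - δ) * (b / 2 * TT s n) := mul_le_mul_of_nonneg_left h4 (by linarith)
  have h9 : (1 - 3 * δ) * Real.log ((n : ℝ) + 1) - |Real.log α| ≤
      (1 - δ) * (Real.log α + (1 - δ / 2) * Real.log ((n : ℝ) + 1)) := by
    have h10 : (1 - 3 * δ) * Real.log ((n : ℝ) + 1) ≤
        (1 - δ) * (1 - δ / 2) * Real.log ((n : ℝ) + 1) :=
      mul_le_mul_of_nonneg_right (by nlinarith) h6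
    have h11 : -|Real.log α| ≤ (1 - δ) * Real.log α := by
      have h12 := neg_abs_le (Real.log α)
      have h13 := abs_nonneg (Real.log α)
      nlinarith
    linarith
  have h10 := mul_le_mul_of_nonneg_left (h9.trans h8) ha0.le
  have h11 : δ * (4 * a) * Real.log ((n : ℝ) + 1) ≤ ε * Real.log ((n : ℝ) + 1) :=
    mul_le_mul_of_nonneg_right hδa h6
  linarith

/-- **weak upper half** (general constants): `drop ≤ C (n+1)^ε e^{-b T_n}` (e.g. `drop ≤ C y^p`,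
`y ≤ C e^{-b' T}`, `b = p b'`) gives `L ≤ -(log 2/4) n + (κ/(4 b) + ε') log n + K`. -/
theorem asm_up_weak {b : ℝ} (hb : 0 < b) (hs : Antitone s) (hs0 : Tendsto s atTop (𝓝 0))
    (hq : ∀ i, 0 < 2 / Real.pi + q i) (hqs : Summable fun n => |q n - s n|)
    (hP : ∀ ε : ℝ, 0 < ε → ∃ C : ℝ, 0 < C ∧ ∃ F : ℕ → ℝ, (∀ n, 0 ≤ F n) ∧ Summable F ∧
      ∀ n M : ℕ, n ≤ M → s n - s M ≤
        C * ∑ m ∈ Ico n M, ((m : ℝ) + 1) ^ ε * Real.exp (-(b * TT s m)) + F n + F M)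
    (hS : ∀ ε : ℝ, 0 < ε → ∃ K : ℝ, ∀ n : ℕ, L n ≤
      -(Real.log 2 / (2 * Real.pi)) * ∑ i ∈ range n, 1 / (2 / Real.pi + q i) +
        ε * Real.log ((n : ℝ) + 1) + K) {ε : ℝ} (hε : 0 < ε) :
    ∃ K : ℝ, ∀ n : ℕ,
      L n ≤ -(Real.log 2 / 4) * n + (kap / (4 * b) + ε) * Real.log ((n : ℝ) + 1) + K := by
  have hk := kap_pos
  set a : ℝ := kap / (4 * b) with ha
  have ha0 : 0 < a := by positivity
  set δ : ℝ := min 1 (ε / (2 * a)) with hδ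
  have hδ0 : 0 < δ := lt_min one_pos (by positivity)
  have hδ1 : δ ≤ 1 := min_le_left _ _
  have hδa : δ * (2 * a) ≤ ε := by
    have h1 : δ ≤ ε / (2 * a) := min_le_right _ _
    rwa [le_div_iff₀ (by positivity)] at h1
  obtain ⟨C, hC, F, hF, hFs, hPF⟩ := hP δ hδ0
  obtain ⟨β, hβ, hβ'⟩ := up_gen (b := b) (C := C) (ε := δ) hb hC hδ0.le hδ1 hs hs0
    hF hFs hPF
  obtain ⟨K2, h2⟩ := hS (ε / 4) (by positivity)
  obtain ⟨K3, h3⟩ := L_up (L := L) (g := fun n => ε / 4 * Real.log ((n : ℝ) + 1) + K2) hq hqs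
    (fun n => by linarith [h2 n])
  refine ⟨2 * a * |Real.log β| + K2 + K3, fun n => ?_⟩
  have hn0 : 0 < (n : ℝ) + 1 := by linarith [one_le_cast n]
  have h4 := Real.log_le_log (Real.exp_pos _) (hβ' n)
  rw [Real.log_exp, Real.log_mul hβ.ne' hn0.ne'] at h4
  have h5 := h3 n
  have h6 := log_nn n
  have h7 : kap / 8 * TT s n = a * ((1 + δ / 2) * (b / (2 + δ) * TT s n)) := by
    rw [ha]
    have : 2 + δ ≠ 0 := by linarith
    field_simp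
    ring
  rw [h7] at h5
  have h8 : (1 + δ / 2) * (b / (2 + δ) * TT s n) ≤
      (1 + δ / 2) * (Real.log β + Real.log ((n : ℝ) + 1)) :=
    mul_le_mul_of_nonneg_left h4 (by linarith)
  have h9 : (1 + δ / 2) * (Real.log β + Real.log ((n : ℝ) + 1)) ≤
      2 * |Real.log β| + (1 + δ / 2) * Real.log ((n : ℝ) + 1) := by
    have h12 := le_abs_self (Real.log β)
    have h13 := abs_nonneg (Real.log β)
    nlinarith
  have h10 := mul_le_mul_of_nonneg_left (h8.trans h9) ha0.le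
  have h11 : δ * (2 * a) * Real.log ((n : ℝ) + 1) ≤ ε * Real.log ((n : ℝ) + 1) :=
    mul_le_mul_of_nonneg_right hδa h6
  have h12 : 0 ≤ ε * Real.log ((n : ℝ) + 1) := by positivity
  linarith

end

end Vale.Agent.P159.H264
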