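import Vale.Agent.P159.H264.Asm

/-!
P159 (helper264): T3. Exact asymptotics of the flow `x_n - x_{n+1} ~ A e^{-2κT_n}`, and the
assembly for the amplitude.
-/

open Filter Topology Finset

namespace Vale.Agent.P159.H264

/-! ### Stolz–Cesàro `0/0` -/

theorem ev_nonneg {f : ℕ → ℝ} (h : ∀ᶠ n in atTop, f (n + 1) ≤ f n)
    (h0 : Tendsto f atTop (𝓝 0)) : ∀ᶠ n in atTop, 0 ≤ f n := by
  obtain ⟨N, hN⟩ := h.exists_forall_of_atTop
  have hanti : Antitone fun k => f (N + k) :=
    antitone_nat_of_succ_le fun k => hN (N + k) (by omega)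
  have ht : Tendsto (fun k => f (N + k)) atTop (𝓝 0) := by
    have := (tendsto_add_atTop_iff_nat N).2 h0
    simpa [add_comm] using this
  filter_upwards [eventually_ge_atTop N] with n hn
  have := hanti.le_of_tendsto ht (n - N)
  simpa [Nat.add_sub_cancel' hn] using this

theorem ev_pos {f : ℕ → ℝ} (h : ∀ᶠ n in atTop, f (n + 1) < f n)
    (h0 : Tendsto f atTop (𝓝 0)) : ∀ᶠ n in atTop, 0 < f n := by
  have h1 := ev_nonneg (h.mono fun n hn => hn.le) h0
  have h2 : ∀ᶠ n in atTop, 0 ≤ f (n + 1) := (tendsto_add_atTop_nat 1).eventually h1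
  filter_upwards [h, h2] with n h3 h4
  linarith

theorem stolz_zero {a b : ℕ → ℝ} {ℓ : ℝ} (ha : Tendsto a atTop (𝓝 0))
    (hb : Tendsto b atTop (𝓝 0)) (hb' : ∀ᶠ n in atTop, b (n + 1) < b n)
    (h : Tendsto (fun n => (a n - a (n + 1)) / (b n - b (n + 1))) atTop (𝓝 ℓ)) :
    Tendsto (fun n => a n / b n) atTop (𝓝 ℓ) := by
  have hbp := ev_pos hb' hb
  rw [Metric.tendsto_atTop]
  intro ε hε
  have h1 : ∀ᶠ n in atTop, |(a n - a (n + 1)) / (b n - b (n + 1)) - ℓ| < ε / 2 := by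
    have := (Metric.tendsto_nhds.1 h) (ε / 2) (by positivity)
    simpa [Real.dist_eq] using this
  have h2 : ∀ᶠ n in atTop, 0 ≤ (ℓ + ε / 2) * b n - a n := by
    refine ev_nonneg (f := fun n => (ℓ + ε / 2) * b n - a n) ?_ ?_
    · filter_upwards [h1, hb'] with n h3 h4
      have h5 : 0 < b n - b (n + 1) := by linarith
      have h6 := (abs_lt.1 h3).2
      have h7 : (a n - a (n + 1)) / (b n - b (n + 1)) ≤ ℓ + ε / 2 := by linarith
      rw [div_le_iff₀ h5] at h7
      linarith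
    · have := (hb.const_mul (ℓ + ε / 2)).sub ha
      simpa using this
  have h2' : ∀ᶠ n in atTop, 0 ≤ a n - (ℓ - ε / 2) * b n := by
    refine ev_nonneg (f := fun n => a n - (ℓ - ε / 2) * b n) ?_ ?_
    · filter_upwards [h1, hb'] with n h3 h4
      have h5 : 0 < b n - b (n + 1) := by linarith
      have h6 := (abs_lt.1 h3).1
      have h7 : ℓ - ε / 2 ≤ (a n - a (n + 1)) / (b n - b (n + 1)) := by linarith
      rw [le_div_iff₀ h5] at h7
      linarith
    · have := ha.sub (hb.const_mul (ℓ - ε / 2))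
      simpa using this
  obtain ⟨N, hN⟩ := (h2.and (h2'.and hbp)).exists_forall_of_atTop
  refine ⟨N, fun n hn => ?_⟩
  obtain ⟨h3, h4, h5⟩ := hN n hn
  rw [Real.dist_eq, abs_lt]
  constructor
  · have : ℓ - ε / 2 ≤ a n / b n := by rw [le_div_iff₀ h5]; linarith
    linarith
  · have : a n / b n ≤ ℓ + ε / 2 := by rw [div_le_iff₀ h5]; linarith
    linarith

/-- `(e^u - 1)/u → 1` along a null sequence -/
theorem exp_slope {u : ℕ → ℝ} (hu : Tendsto u atTop (𝓝 0)) (hu0 : ∀ᶠ n in atTop, u n ≠ 0) :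
    Tendsto (fun n => (Real.exp (u n) - 1) / u n) atTop (𝓝 1) := by
  have h1 : Tendsto (fun n => |u n|) atTop (𝓝 0) := by simpa using hu.abs
  have h2 : ∀ᶠ n in atTop, |u n| ≤ 1 :=
    (h1.eventually (gt_mem_nhds (show (0 : ℝ) < 1 by norm_num))).mono fun n h => le_of_lt h
  rw [tendsto_iff_norm_sub_tendsto_zero]
  refine squeeze_zero' (Eventually.of_forall fun n => norm_nonneg _) ?_ h1
  filter_upwards [h2, hu0] with n h3 h4
  have h5 := Real.abs_exp_sub_one_sub_id_le h3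
  have h6 : (Real.exp (u n) - 1) / u n - 1 = (Real.exp (u n) - 1 - u n) / u n := by
    field_simp
  rw [Real.norm_eq_abs, h6, abs_div, div_le_iff₀ (abs_pos.2 h4)]
  calc |Real.exp (u n) - 1 - u n| ≤ u n ^ 2 := h5
    _ = |u n| * |u n| := by rw [← sq_abs, sq]

section
variable {x : ℕ → ℝ} {κ A : ℝ}

/-- the hypothesis of the exact flow -/
structure Flow (κ A : ℝ) (x : ℕ → ℝ) : Prop where
  hκ : 0 < κ
  hA : 0 < A
  x0 : Tendsto x atTop (𝓝 0)
  lim : Tendsto (fun n => (x n - x (n + 1)) * Real.exp (2 * κ * TT x n)) atTop (𝓝 A)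

theorem Flow.ev_anti (h : Flow κ A x) : ∀ᶠ n in atTop, x (n + 1) < x n := by
  filter_upwards [h.lim.eventually (lt_mem_nhds h.hA)] with n hn
  have h2 := Real.exp_pos (2 * κ * TT x n)
  by_contra h3
  push Not at h3
  have : (x n - x (n + 1)) * Real.exp (2 * κ * TT x n) ≤ 0 :=
    mul_nonpos_of_nonpos_of_nonneg (by linarith) h2.le
  linarith

theorem Flow.ev_pos (h : Flow κ A x) : ∀ᶠ n in atTop, 0 < x n := H264.ev_pos h.ev_anti h.x0

theorem Flow.T_top (h : Flow κ A x) : Tendsto (fun n => TT x n) atTop atTop := by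
  obtain ⟨N, hN⟩ := h.ev_pos.exists_forall_of_atTop
  have hmono : Monotone fun k => TT x (k + N) := monotone_nat_of_le_succ fun k => by
    have : TT x (k + 1 + N) = TT x (k + N) + x (k + N) := by
      rw [show k + 1 + N = (k + N) + 1 by ring, TT, sum_range_succ, ← TT]
    rw [this]
    linarith [hN (k + N) (by omega)]
  rcases tendsto_atTop_of_monotone hmono with h1 | ⟨l, h1⟩
  · exact (tendsto_add_atTop_iff_nat N).1 h1
  · exfalso
    have h2 : Tendsto (fun n => TT x n) atTop (𝓝 l) := (tendsto_add_atTop_iff_nat N).1 h1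
    have h3 : Tendsto (fun n => x n - x (n + 1)) atTop (𝓝 0) := by
      have := h.x0.sub ((tendsto_add_atTop_iff_nat 1).2 h.x0)
      simpa using this
    have h4 : Tendsto (fun n => Real.exp (2 * κ * TT x n)) atTop (𝓝 (Real.exp (2 * κ * l))) :=
      (Real.continuous_exp.tendsto _).comp (h2.const_mul (2 * κ))
    have h5 := h3.mul h4
    rw [zero_mul] at h5
    have h6 := tendsto_nhds_unique h5 h.lim
    linarith [h.hA]

theorem TT_succ' (x : ℕ → ℝ) (n : ℕ) : TT x (n + 1) = TT x n + x n := by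
  rw [TT, sum_range_succ, ← TT]

/-- `E n = e^{-2κT_n}` -/
noncomputable def EE (κ : ℝ) (x : ℕ → ℝ) (n : ℕ) : ℝ := Real.exp (-(2 * κ * TT x n))

theorem EE_pos (κ : ℝ) (x : ℕ → ℝ) (n : ℕ) : 0 < EE κ x n := Real.exp_pos _

theorem EE_succ (κ : ℝ) (x : ℕ → ℝ) (n : ℕ) :
    EE κ x (n + 1) = EE κ x n * Real.exp (-(2 * κ * x n)) := by
  rw [EE, EE, ← Real.exp_add, TT_succ']
  congr 1
  ring

theorem Flow.EE_zero (h : Flow κ A x) : Tendsto (EE κ x) atTop (𝓝 0) := by
  have h1 : Tendsto (fun n => 2 * κ * TT x n) atTop atTop :=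
    h.T_top.const_mul_atTop (by have := h.hκ; positivity)
  exact Real.tendsto_exp_neg_atTop_nhds_zero.comp h1

theorem Flow.EE_anti (h : Flow κ A x) : ∀ᶠ n in atTop, EE κ x (n + 1) < EE κ x n := by
  filter_upwards [h.ev_pos] with n hn
  rw [EE_succ]
  have h1 := EE_pos κ x n
  have h2 : Real.exp (-(2 * κ * x n)) < 1 := by
    rw [Real.exp_lt_one_iff]
    have := mul_pos h.hκ hn
    linarith
  nlinarith

theorem Flow.drop_eq (x : ℕ → ℝ) (κ : ℝ) (n : ℕ) :
    x n - x (n + 1) = ((x n - x (n + 1)) * Real.exp (2 * κ * TT x n)) * EE κ x n := by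
  rw [EE, mul_assoc, ← Real.exp_add]
  simp

/-- `(1 - e^{-2κx})/x → 2κ` -/
theorem Flow.slope (h : Flow κ A x) :
    Tendsto (fun n => (1 - Real.exp (-(2 * κ * x n))) / x n) atTop (𝓝 (2 * κ)) := by
  have hu : Tendsto (fun n => -(2 * κ * x n)) atTop (𝓝 0) := by
    have := (h.x0.const_mul (2 * κ)).neg
    simpa using this
  have hk := h.hκ
  have hu0 : ∀ᶠ n in atTop, -(2 * κ * x n) ≠ 0 := by
    filter_upwards [h.ev_pos] with n hn
    have := mul_pos hk hn
    linarith
  have h1 := (exp_slope hu hu0).const_mul (2 * κ)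
  rw [mul_one] at h1
  refine h1.congr' ?_
  filter_upwards [h.ev_pos] with n hn
  field_simp
  ring

theorem Flow.EE_div_x (h : Flow κ A x) : Tendsto (fun n => EE κ x n / x n) atTop (𝓝 0) := by
  refine stolz_zero h.EE_zero h.x0 h.ev_anti ?_
  have h1 : Tendsto (fun n => (1 - Real.exp (-(2 * κ * x n))) /
      ((x n - x (n + 1)) * Real.exp (2 * κ * TT x n))) atTop (𝓝 (0 / A)) := by
    refine Tendsto.div ?_ h.lim h.hA.ne'
    have hu : Tendsto (fun n => -(2 * κ * x n)) atTop (𝓝 0) := by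
      have := (h.x0.const_mul (2 * κ)).neg
      simpa using this
    have h2 := (Real.continuous_exp.tendsto 0).comp hu
    have h3 := (tendsto_const_nhds (x := (1 : ℝ))).sub h2
    simpa using h3
  rw [zero_div] at h1
  refine h1.congr fun n => ?_
  rw [EE_succ]
  have h2 := EE_pos κ x n
  have h3 : EE κ x n - EE κ x n * Real.exp (-(2 * κ * x n)) =
      (1 - Real.exp (-(2 * κ * x n))) * EE κ x n := by ring
  rw [h3]
  conv_rhs => rw [Flow.drop_eq x κ n]
  rw [mul_div_mul_right _ _ h2.ne']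

/-- **`x_n² / e^{-2κT_n} → A/κ`** -/
theorem Flow.energy (h : Flow κ A x) :
    Tendsto (fun n => x n ^ 2 / EE κ x n) atTop (𝓝 (A / κ)) := by
  have hk := h.hκ
  have hx2 : Tendsto (fun n => x n ^ 2) atTop (𝓝 0) := by
    have := h.x0.pow 2
    simpa using this
  refine stolz_zero hx2 h.EE_zero h.EE_anti ?_
  have h1 : Tendsto (fun n => 2 - ((x n - x (n + 1)) * Real.exp (2 * κ * TT x n)) *
      (EE κ x n / x n)) atTop (𝓝 2) := by
    have := (tendsto_const_nhds (x := (2 : ℝ))).sub (h.lim.mul h.EE_div_x)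
    simpa using this
  have h2 := (h.lim.mul h1).div h.slope (by positivity)
  have h3 : A * 2 / (2 * κ) = A / κ := by field_simp
  rw [h3] at h2
  refine h2.congr' ?_
  filter_upwards [h.ev_pos] with n hn
  have hE := EE_pos κ x n
  have h4 : 0 < 1 - Real.exp (-(2 * κ * x n)) := by
    rw [sub_pos, Real.exp_lt_one_iff]
    have := mul_pos hk hn
    linarith
  have h5 : EE κ x n - EE κ x (n + 1) = (1 - Real.exp (-(2 * κ * x n))) * EE κ x n := by
    rw [EE_succ]; ring
  have h6 : x n ^ 2 - x (n + 1) ^ 2 =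
      ((x n - x (n + 1)) * Real.exp (2 * κ * TT x n)) * (x n + x (n + 1)) * EE κ x n := by
    conv_lhs => rw [show x n ^ 2 - x (n + 1) ^ 2 = (x n - x (n + 1)) * (x n + x (n + 1)) by ring,
      Flow.drop_eq x κ n]
    ring
  have h7 : 2 - ((x n - x (n + 1)) * Real.exp (2 * κ * TT x n)) * (EE κ x n / x n) =
      (x n + x (n + 1)) / x n := by
    have h8 := Flow.drop_eq x κ n
    rw [eq_div_iff hn.ne', sub_mul, mul_assoc, div_mul_cancel₀ _ hn.ne']
    linarith
  rw [h5, h6, mul_div_mul_right _ _ hE.ne', Pi.div_apply]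
  rw [h7, ← mul_div_assoc, div_div_div_cancel_right₀ hn.ne']

/-- `x_n e^{κT_n} → √(A/κ)` -/
theorem Flow.xw (h : Flow κ A x) :
    Tendsto (fun n => x n * Real.exp (κ * TT x n)) atTop (𝓝 (Real.sqrt (A / κ))) := by
  have h1 := (Real.continuous_sqrt.tendsto _).comp h.energy
  refine h1.congr' ?_
  filter_upwards [h.ev_pos] with n hn
  have h2 : x n ^ 2 / EE κ x n = (x n * Real.exp (κ * TT x n)) ^ 2 := by
    rw [EE, Real.exp_neg, div_inv_eq_mul, mul_pow, ← Real.exp_nat_mul]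
    congr 2
    push_cast
    ring
  rw [Function.comp, h2, Real.sqrt_sq (by positivity)]

/-- `(e^{κT_n})/n → √(κA)` -/
theorem Flow.w_div (h : Flow κ A x) :
    Tendsto (fun n : ℕ => Real.exp (κ * TT x n) / n) atTop (𝓝 (κ * Real.sqrt (A / κ))) := by
  have hk := h.hκ
  have hu : Tendsto (fun n => κ * x n) atTop (𝓝 0) := by
    have := h.x0.const_mul κ
    simpa using this
  have hu0 : ∀ᶠ n in atTop, κ * x n ≠ 0 := by
    filter_upwards [h.ev_pos] with n hn
    exact (mul_pos hk hn).ne'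
  have h1 := (h.xw.const_mul κ).mul (exp_slope hu hu0)
  rw [mul_one] at h1
  have h2 : Tendsto (fun n => Real.exp (κ * TT x (n + 1)) - Real.exp (κ * TT x n)) atTop
      (𝓝 (κ * Real.sqrt (A / κ))) := by
    refine h1.congr' ?_
    filter_upwards [h.ev_pos] with n hn
    rw [TT_succ', mul_add, Real.exp_add]
    field_simp
  have h3 := h2.cesaro
  have h4 : Tendsto (fun n : ℕ => (n : ℝ)⁻¹ * Real.exp (κ * TT x 0)) atTop (𝓝 0) := by
    have := (tendsto_inv_atTop_nhds_zero_nat (𝕜 := ℝ)).mul_const (Real.exp (κ * TT x 0))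
    simpa using this
  have h5 := h3.add h4
  rw [add_zero] at h5
  refine h5.congr fun n => ?_
  rw [sum_range_sub (fun n => Real.exp (κ * TT x n))]
  rw [div_eq_inv_mul]
  ring

/-- **exact asymptotics of the flow**: `κT_n - log n → ½ log(κA)` -/
theorem Flow.T_lim (h : Flow κ A x) :
    Tendsto (fun n : ℕ => κ * TT x n - Real.log n) atTop (𝓝 (Real.log (κ * A) / 2)) := by
  have hk := h.hκ
  have hA := h.hA
  have h0 : 0 < κ * Real.sqrt (A / κ) := by positivity
  have h1 := (Real.continuousAt_log h0.ne').tendsto.comp h.w_div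
  have h2 : Real.log (κ * Real.sqrt (A / κ)) = Real.log (κ * A) / 2 := by
    rw [← Real.log_sqrt (by positivity)]
    congr 1
    have h3 : κ = Real.sqrt (κ ^ 2) := (Real.sqrt_sq hk.le).symm
    conv_lhs => lhs; rw [h3]
    rw [← Real.sqrt_mul (by positivity)]
    congr 1
    field_simp
  rw [h2] at h1
  refine h1.congr' ?_
  filter_upwards [eventually_gt_atTop 0] with n hn
  have hn0 : (n : ℝ) ≠ 0 := by positivity
  rw [Function.comp, Real.log_div (Real.exp_pos _).ne' hn0, Real.log_exp]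

/-- `n x_n → 1/κ` -/
theorem Flow.nx (h : Flow κ A x) : Tendsto (fun n : ℕ => n * x n) atTop (𝓝 (1 / κ)) := by
  have hk := h.hκ
  have hA := h.hA
  have h0 : 0 < κ * Real.sqrt (A / κ) := by positivity
  have h1 := h.xw.div h.w_div h0.ne'
  have h2 : Real.sqrt (A / κ) / (κ * Real.sqrt (A / κ)) = 1 / κ := by
    have : 0 < Real.sqrt (A / κ) := by positivity
    field_simp
  rw [h2] at h1
  refine h1.congr' ?_
  filter_upwards [eventually_gt_atTop 0] with n hn
  have hn0 : (n : ℝ) ≠ 0 := by positivity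
  have h3 := Real.exp_pos (κ * TT x n)
  rw [Pi.div_apply]
  field_simp

/-- `∑ x² < ∞` -/
theorem Flow.sq_summable (h : Flow κ A x) : Summable fun n => x n ^ 2 := by
  have h1 : Tendsto (fun n : ℕ => ((n : ℝ) * x n) ^ 2) atTop (𝓝 ((1 / κ) ^ 2)) := h.nx.pow 2
  have h2 : ∀ᶠ n : ℕ in atTop, ((n : ℝ) * x n) ^ 2 ≤ (1 / κ) ^ 2 + 1 :=
    (h1.eventually (gt_mem_nhds (show (1 / κ) ^ 2 < (1 / κ) ^ 2 + 1 by linarith))).mono
      fun n hn => le_of_lt hn
  have h3 : Summable fun n : ℕ => ((1 / κ) ^ 2 + 1) * (1 / (n : ℝ) ^ 2) :=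
    (Real.summable_one_div_nat_pow.2 (by norm_num)).mul_left _
  refine Summable.of_norm_bounded_eventually_nat h3 ?_
  filter_upwards [h2, eventually_gt_atTop 0] with n h4 hn
  have hn0 : 0 < (n : ℝ) := by exact_mod_cast hn
  rw [Real.norm_eq_abs, abs_of_nonneg (sq_nonneg _), mul_one_div, le_div_iff₀ (by positivity)]
  calc x n ^ 2 * (n : ℝ) ^ 2 = ((n : ℝ) * x n) ^ 2 := by ring
    _ ≤ _ := h4

end

end Vale.Agent.P159.H264
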