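import Vale.Agent.P159.H264.Asm3

/-!
P159 (helper264): assembly for T3 (amplitude), dyadic and all `r`.
-/

open Filter Topology Finset

namespace Vale.Agent.P159.H264

section
variable {x v q y L C : ℕ → ℝ}

theorem TT_diff_lim {a b : ℕ → ℝ} (h : Summable fun n => |a n - b n|) :
    Tendsto (fun n => TT a n - TT b n) atTop (𝓝 (∑' i, (a i - b i))) := by
  have h1 : Summable fun n => a n - b n := h.of_abs
  have h2 := h1.hasSum.tendsto_sum_nat
  refine h2.congr fun n => ?_
  rw [sum_sub_distrib, TT, TT]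

/-- the flow hypothesis from (V) and (P) -/
theorem flow_of_VP {c A : ℝ} (hA : 0 < A) (hx0 : Tendsto x atTop (𝓝 0)) (hy : ∀ n, 0 < y n)
    (hxv : Summable fun n => |x n - v n|)
    (hV : Tendsto (fun n => Real.log (y n) + kap * TT v n) atTop (𝓝 c))
    (hP : Tendsto (fun n => (x n - x (n + 1)) / y n ^ 2) atTop (𝓝 A)) :
    ∃ A' : ℝ, Flow kap A' x := by
  have h1 := (TT_diff_lim hxv).const_mul kap
  have h2 := hV.add h1
  set d : ℝ := c + kap * ∑' i, (x i - v i) with hd
  have h3 : Tendsto (fun n => Real.exp (2 * (Real.log (y n) + kap * TT v n +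
      kap * (TT x n - TT v n)))) atTop (𝓝 (Real.exp (2 * d))) :=
    (Real.continuous_exp.tendsto _).comp (h2.const_mul 2)
  refine ⟨A * Real.exp (2 * d), kap_pos, mul_pos hA (Real.exp_pos _), hx0, ?_⟩
  refine (hP.mul h3).congr fun n => ?_
  have hyn := hy n
  have h4 : Real.exp (2 * (Real.log (y n) + kap * TT v n + kap * (TT x n - TT v n))) =
      y n ^ 2 * Real.exp (2 * kap * TT x n) := by
    have h5 : y n ^ 2 = Real.exp (2 * Real.log (y n)) := by
      rw [← Real.exp_log hyn, ← Real.exp_nat_mul, Real.log_exp]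
      norm_num
    rw [h5, ← Real.exp_add]
    congr 1
    ring
  rw [h4]
  field_simp

/-- `∑ rem (q i)` converges -/
theorem rem_summable (hx0 : Tendsto x atTop (𝓝 0)) (hx2 : Summable fun n => x n ^ 2)
    (hxq : Summable fun n => |q n - x n|) : Summable fun n => rem (q n) := by
  have hpi := Real.pi_pos
  have hda : Tendsto (fun n => |q n - x n|) atTop (𝓝 0) := hxq.tendsto_atTop_zero
  have hd : Tendsto (fun n => q n - x n) atTop (𝓝 0) :=
    (tendsto_zero_iff_abs_tendsto_zero _).2 hda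
  have hq0 : Tendsto q atTop (𝓝 0) := by
    have := hd.add hx0
    simpa using this
  have hqa : Tendsto (fun n => |q n|) atTop (𝓝 0) := by simpa using hq0.abs
  have h3 : Summable fun n => Real.pi ^ 3 / 4 * (2 * x n ^ 2 + 2 * |q n - x n|) :=
    ((hx2.mul_left 2).add (hxq.mul_left 2)).mul_left _
  refine Summable.of_norm_bounded_eventually_nat h3 ?_
  filter_upwards [hqa.eventually (gt_mem_nhds (show (0 : ℝ) < 1 / Real.pi by positivity)),
    hda.eventually (gt_mem_nhds (show (0 : ℝ) < 1 by norm_num))] with n h4 h5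
  have h6 := rem_le h4.le
  have hpos : 0 < 2 / Real.pi + q n := by
    have h8 := neg_abs_le (q n)
    have h9 : 2 / Real.pi = 1 / Real.pi + 1 / Real.pi := by ring
    have h10 : 0 < 1 / Real.pi := by positivity
    linarith
  rw [Real.norm_eq_abs, abs_of_nonneg (rem_nonneg hpos)]
  refine h6.trans (mul_le_mul_of_nonneg_left ?_ (by positivity))
  have h7 : (q n - x n) ^ 2 ≤ |q n - x n| := by
    rw [← sq_abs]
    have := abs_nonneg (q n - x n)
    nlinarith
  nlinarith [sq_nonneg (q n - 2 * x n)]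

/-- the deterministic part: `(log 2/2π)∑1/(2/π+q) - (log 2/4) n + (1/8) log n` converges -/
theorem det_lim {A : ℝ} (h : Flow kap A x) (hxq : Summable fun n => |q n - x n|) :
    ∃ a : ℝ, Tendsto (fun n : ℕ => Real.log 2 / (2 * Real.pi) *
      ∑ i ∈ range n, 1 / (2 / Real.pi + q i) - Real.log 2 / 4 * n + 1 / 8 * Real.log n)
      atTop (𝓝 a) := by
  have hpi := Real.pi_pos
  have h1 := (TT_diff_lim hxq).const_mul (kap / 8)
  have h2 := h.T_lim.const_mul (1 / 8)
  have h3 := ((rem_summable h.x0 h.sq_summable hxq).hasSum.tendsto_sum_nat).const_mul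
    (Real.log 2 / (2 * Real.pi))
  refine ⟨_, ((h3.sub h1).sub h2).congr fun n => ?_⟩
  rw [sum_inv_eq, kap]
  field_simp
  ring

/-- **T3, dyadic**: `log C(2^n) + (log 2/4) n - (1/8) log n` converges -/
theorem asm_T3 {c A c' : ℝ} (hA : 0 < A) (hx0 : Tendsto x atTop (𝓝 0)) (hy : ∀ n, 0 < y n)
    (hxv : Summable fun n => |x n - v n|) (hxq : Summable fun n => |q n - x n|)
    (hV : Tendsto (fun n => Real.log (y n) + kap * TT v n) atTop (𝓝 c))
    (hP : Tendsto (fun n => (x n - x (n + 1)) / y n ^ 2) atTop (𝓝 A))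
    (hS : Tendsto (fun n : ℕ => L n + Real.log 2 / (2 * Real.pi) *
      ∑ i ∈ range n, 1 / (2 / Real.pi + q i)) atTop (𝓝 c')) :
    ∃ a : ℝ, Tendsto (fun n : ℕ => L n + Real.log 2 / 4 * n - 1 / 8 * Real.log n)
      atTop (𝓝 a) := by
  obtain ⟨A', hF⟩ := flow_of_VP hA hx0 hy hxv hV hP
  obtain ⟨a, ha⟩ := det_lim hF hxq
  refine ⟨_, (hS.sub ha).congr fun n => ?_⟩
  ring

/-- `Nat.log 2 r / log r → 1/log 2` -/
theorem natlog_div : Tendsto (fun r : ℕ => (Nat.log 2 r : ℝ) / Real.log r) atTop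
    (𝓝 (1 / Real.log 2)) := by
  have hl := log_two_pos
  have hlog : Tendsto (fun r : ℕ => Real.log r) atTop atTop :=
    Real.tendsto_log_atTop.comp tendsto_natCast_atTop_atTop
  have h1 : Tendsto (fun r : ℕ => 1 / Real.log 2 - (Real.log r)⁻¹) atTop
      (𝓝 (1 / Real.log 2)) := by
    have := (tendsto_const_nhds (x := 1 / Real.log 2)).sub (tendsto_inv_atTop_zero.comp hlog)
    simpa using this
  refine tendsto_of_tendsto_of_tendsto_of_le_of_le' h1 tendsto_const_nhds ?_ ?_
  · filter_upwards [eventually_gt_atTop 1] with r hr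
    have hr0 : (0 : ℝ) < r := by exact_mod_cast (by omega : 0 < r)
    have hlr : 0 < Real.log r := Real.log_pos (by exact_mod_cast hr)
    have h2 : r < 2 ^ (Nat.log 2 r + 1) := Nat.lt_pow_succ_log_self (by norm_num) r
    have h3 : Real.log r ≤ ((Nat.log 2 r : ℝ) + 1) * Real.log 2 := by
      have h4 : (r : ℝ) ≤ 2 ^ (Nat.log 2 r + 1) := by exact_mod_cast h2.le
      have h5 := Real.log_le_log hr0 h4
      rw [Real.log_pow] at h5
      push_cast at h5
      exact h5
    rw [le_div_iff₀ hlr, sub_mul, inv_mul_cancel₀ hlr.ne', one_div, ← div_eq_inv_mul,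
      sub_le_iff_le_add, div_le_iff₀ hl]
    exact h3
  · filter_upwards [eventually_gt_atTop 1] with r hr
    have hlr : 0 < Real.log r := Real.log_pos (by exact_mod_cast hr)
    have h2 : 2 ^ (Nat.log 2 r) ≤ r := Nat.pow_log_le_self 2 (by omega)
    have h3 : (Nat.log 2 r : ℝ) * Real.log 2 ≤ Real.log r := by
      have h4 : (2 : ℝ) ^ (Nat.log 2 r) ≤ r := by exact_mod_cast h2
      have h5 := Real.log_le_log (by positivity) h4
      rwa [Real.log_pow] at h5
    rw [div_le_div_iff₀ hlr hl]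
    linarith

theorem natlog_top : Tendsto (fun r : ℕ => Nat.log 2 r) atTop atTop := by
  refine tendsto_atTop.2 fun m => ?_
  filter_upwards [eventually_ge_atTop (2 ^ m)] with r hr
  exact Nat.le_log_of_pow_le (by norm_num) hr

/-- `log (Nat.log 2 r) - log log r → -log log 2` -/
theorem loglog : Tendsto (fun r : ℕ => Real.log (Nat.log 2 r) - Real.log (Real.log r)) atTop
    (𝓝 (Real.log (1 / Real.log 2))) := by
  have hl := log_two_pos
  have h1 := (Real.continuousAt_log (show (1 / Real.log 2) ≠ 0 by positivity)).tendsto.comp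
    natlog_div
  refine h1.congr' ?_
  filter_upwards [eventually_gt_atTop 1, natlog_top.eventually_gt_atTop 0] with r hr hn
  have hlr : 0 < Real.log r := Real.log_pos (by exact_mod_cast hr)
  have hn0 : (0 : ℝ) < Nat.log 2 r := by exact_mod_cast hn
  rw [Function.comp, Real.log_div hn0.ne' hlr.ne']

/-- **T3, all distances**: `C(r) ~ a r^{-1/4} (log r)^{1/8}`. -/
theorem asm_T3_all {c A c' : ℝ} (hA : 0 < A) (hx0 : Tendsto x atTop (𝓝 0)) (hy : ∀ n, 0 < y n)
    (hxv : Summable fun n => |x n - v n|) (hxq : Summable fun n => |q n - x n|)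
    (hV : Tendsto (fun n => Real.log (y n) + kap * TT v n) atTop (𝓝 c))
    (hP : Tendsto (fun n => (x n - x (n + 1)) / y n ^ 2) atTop (𝓝 A))
    (hC : ∀ᶠ r in atTop, 0 < C r)
    (hS : Tendsto (fun r : ℕ => Real.log (C r) + Real.log 2 / (2 * Real.pi) *
      ∑ i ∈ range (Nat.log 2 r), 1 / (2 / Real.pi + q i) +
      1 / 4 * (Real.log r - Nat.log 2 r * Real.log 2)) atTop (𝓝 c')) :
    ∃ a : ℝ, 0 < a ∧ Tendsto (fun r : ℕ => C r / ((r : ℝ) ^ (-(1 / 4) : ℝ) *
      Real.log r ^ (1 / 8 : ℝ))) atTop (𝓝 a) := by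
  obtain ⟨A', hF⟩ := flow_of_VP hA hx0 hy hxv hV hP
  obtain ⟨a, ha⟩ := det_lim hF hxq
  have h1 := hS.sub (ha.comp natlog_top)
  have h2 := h1.add (loglog.const_mul (1 / 8))
  set e : ℝ := c' - a + 1 / 8 * Real.log (1 / Real.log 2) with he
  refine ⟨Real.exp e, Real.exp_pos _, ?_⟩
  refine ((Real.continuous_exp.tendsto _).comp h2).congr' ?_
  filter_upwards [hC, eventually_gt_atTop 1] with r hr hr1
  have hr0 : (0 : ℝ) < r := by exact_mod_cast (by omega : 0 < r)
  have hlr : 0 < Real.log r := Real.log_pos (by exact_mod_cast hr1)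
  have h3 : C r / ((r : ℝ) ^ (-(1 / 4) : ℝ) * Real.log r ^ (1 / 8 : ℝ)) =
      Real.exp (Real.log (C r) + 1 / 4 * Real.log r - 1 / 8 * Real.log (Real.log r)) := by
    rw [Real.exp_sub, Real.exp_add, Real.exp_log hr, Real.rpow_def_of_pos hr0,
      Real.rpow_def_of_pos hlr, mul_comm (Real.log r) (-(1 / 4)), neg_mul, Real.exp_neg,
      mul_comm (Real.log (Real.log r)) (1 / 8)]
    field_simp
  rw [h3, Function.comp]
  congr 1
  simp only [Function.comp]
  ring

end

end Vale.Agent.P159.H264
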