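import Vale.Agent.P159.H264.Gq3

/-!
P159 / module CLASS (helper264), part 1: tails of positive quadratic forms of the field with the
trace only; finite families.
-/

set_option linter.unusedSectionVars false

namespace Vale.Agent.P159.H264.Gq

open Finset Matrix MeasureTheory
open Vale.Agent.P159.TM.H104 (EM nh Gr li)
open Vale.Agent.P159.H37 (wM ZM qf bf Zn Zs re gau Gm)
open Vale.Agent.P159.H963 (GrI pin MF ntr GW)
open Vale.Agent.P159.H883

noncomputable section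

section la

variable {V : Type} [Fintype V] [DecidableEq V]

lemma psd_of {S : Matrix V V ℝ} (hS : Sᵀ = S) (h0 : ∀ u, 0 ≤ qf S u) : S.PosSemidef := by
  refine Matrix.posSemidef_iff_dotProduct_mulVec.2 ⟨?_, fun u => ?_⟩
  · show Sᴴ = S
    rw [Matrix.conjTranspose_eq_transpose_of_trivial]
    exact hS
  · have h := h0 u
    rw [H37.qf_eq] at h
    simpa using h

/-- a positive form is a sum of squares -/
lemma psd_sq {S : Matrix V V ℝ} (hS : Sᵀ = S) (h0 : ∀ u, 0 ≤ qf S u) :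
    ∃ (m : ℕ) (v : Fin m → V → ℝ), (∀ u, qf S u = ∑ i, (∑ x, v i x * u x) ^ 2) ∧
      S.trace = ∑ i, ∑ x, v i x ^ 2 := by
  obtain ⟨m, v, hv⟩ := Matrix.posSemidef_iff_eq_sum_vecMulVec.1 (psd_of hS h0)
  refine ⟨m, v, fun u => ?_, ?_⟩
  · rw [hv]
    unfold qf
    have h1 : ∀ x y : V, (∑ i, vecMulVec (v i) (star (v i))) x y = ∑ i, v i x * v i y := by
      intro x y
      rw [Matrix.sum_apply]
      refine Finset.sum_congr rfl fun i _ => ?_
      rw [Matrix.vecMulVec_apply]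
      simp
    simp only [h1]
    have h2 : ∀ i, (∑ x, v i x * u x) ^ 2 = ∑ x, ∑ y, u x * (v i x * v i y) * u y := by
      intro i
      rw [pow_two, Finset.sum_mul_sum]
      refine Finset.sum_congr rfl fun x _ => Finset.sum_congr rfl fun y _ => by ring
    have h3 : ∀ x y : V, u x * (∑ i, v i x * v i y) * u y =
        ∑ i, u x * (v i x * v i y) * u y := by
      intro x y
      rw [Finset.mul_sum, Finset.sum_mul]
    simp only [h2, h3]
    calc ∑ x, ∑ y, ∑ i, u x * (v i x * v i y) * u y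
        = ∑ x, ∑ i, ∑ y, u x * (v i x * v i y) * u y :=
          Finset.sum_congr rfl fun x _ => Finset.sum_comm
      _ = ∑ i, ∑ x, ∑ y, u x * (v i x * v i y) * u y := Finset.sum_comm
  · rw [hv, Matrix.trace_sum]
    refine Finset.sum_congr rfl fun i _ => ?_
    rw [Matrix.trace_vecMulVec]
    unfold dotProduct
    refine Finset.sum_congr rfl fun x _ => ?_
    simp only [Pi.star_apply, star_trivial]
    ring

lemma trace_nonneg' {S : Matrix V V ℝ} (hS : Sᵀ = S) (h0 : ∀ u, 0 ≤ qf S u) : 0 ≤ S.trace := by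
  obtain ⟨m, v, -, h2⟩ := psd_sq hS h0
  rw [h2]
  exact Finset.sum_nonneg fun i _ => Finset.sum_nonneg fun x _ => sq_nonneg _

/-- a positive form is at most its trace -/
lemma qf_le_trace {S : Matrix V V ℝ} (hS : Sᵀ = S) (h0 : ∀ u, 0 ≤ qf S u) (u : V → ℝ) :
    qf S u ≤ S.trace * ∑ x, u x ^ 2 := by
  obtain ⟨m, v, h1, h2⟩ := psd_sq hS h0
  rw [h1, h2, Finset.sum_mul]
  exact Finset.sum_le_sum fun i _ => Finset.sum_mul_sq_le_sq_mul_sq _ _ _

/-- Gaussian tail with the trace only -/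
theorem gau_tail_tr {K : Matrix V V ℝ} (hK : Kᵀ = K) (h0 : ∀ u, 0 ≤ qf K u) {T A : ℝ}
    (hT : 0 < T) (htr : K.trace ≤ T) :
    ∫ g, ind {F : V → ℝ | A ≤ qf K F} g ∂(gau V) ≤ Real.exp (1 / 2 - A / (4 * T)) := by
  have hl : 0 ≤ 1 / (2 * T) := by positivity
  have h2 := H663.gau_tail hK h0 hl (fun u => by
    have h3 := (qf_le_trace hK h0 u).trans (mul_le_mul_of_nonneg_right htr
      (Finset.sum_nonneg fun x _ => sq_nonneg (u x)))
    have h4 := mul_le_mul_of_nonneg_left h3 hl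
    refine h4.trans (le_of_eq ?_)
    field_simp) A
  refine le_trans h2 (Real.exp_le_exp.2 ?_)
  have h3 : 1 / (2 * T) * K.trace ≤ 1 / 2 := by
    calc 1 / (2 * T) * K.trace ≤ 1 / (2 * T) * T := mul_le_mul_of_nonneg_left htr hl
      _ = 1 / 2 := by field_simp
  have h4 : 1 / (2 * T) * A / 2 = A / (4 * T) := by
    field_simp
    ring
  linarith

end la

section ab

variable {V : Type} [Fintype V] [DecidableEq V] [Nonempty V]

/-- **finite family of positive forms**, law of the dislocated model -/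
theorem EQ_fam {wD : (V → ℤ) → ℝ} (hD : BW wD) {t : ℝ} (ht : 0 < t) (x₀ : V) (φ : V → ℝ)
    {I : Type*} (s : Finset I) {K : I → Matrix V V ℝ} {A T : I → ℝ}
    (hK : ∀ i ∈ s, (K i)ᵀ = K i) (h0 : ∀ i ∈ s, ∀ u, 0 ≤ qf (K i) u) (hc : ∀ i ∈ s, CK (K i))
    (hT : ∀ i ∈ s, 0 < T i) (htr : ∀ i ∈ s, (K i).trace ≤ T i)
    {Sh : Set (V → ℤ)} (hSh : ∀ h, h ∉ Sh → ∀ i ∈ s, qf (K i) (re h - φ) < A i / 4) :
    EQ wD (t • (1 : Matrix V V ℝ)) x₀ φ (ind {F | ∃ i ∈ s, A i ≤ qf (K i) F}) ≤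
      Pp wD x₀ Sh + ∑ i ∈ s, Real.exp (1 / 2 - t * A i / (16 * T i)) := by
  classical
  have hset : ∀ a : I → ℝ, {F : V → ℝ | ∃ i ∈ s, a i ≤ qf (K i) F} =
      ⋃ i ∈ s, {F : V → ℝ | a i ≤ qf (K i) F} := by
    intro a
    ext F
    simp only [Set.mem_iUnion]
    constructor
    · rintro ⟨i, hi, h⟩
      exact ⟨i, hi, h⟩
    · rintro ⟨i, hi, h⟩
      exact ⟨i, hi, h⟩
  have hmeas : ∀ a : I → ℝ, MeasurableSet (⋃ i ∈ s, {F : V → ℝ | a i ≤ qf (K i) F}) := fun a =>
    Finset.measurableSet_biUnion s fun i _ => meas_set _ _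
  rw [hset]
  refine (EQ_split hD ht x₀ φ (hmeas A) ?_ (Sh := Sh)
    (Sg := ⋃ i ∈ s, {g : V → ℝ | t * A i / 4 ≤ qf (K i) g}) (hmeas fun i => t * A i / 4) ?_).trans
    (add_le_add le_rfl ?_)
  · intro F c
    unfold ind
    have hiff : (fun x => F x + c) ∈ (⋃ i ∈ s, {F : V → ℝ | A i ≤ qf (K i) F}) ↔
        F ∈ (⋃ i ∈ s, {F : V → ℝ | A i ≤ qf (K i) F}) := by
      simp only [Set.mem_iUnion]
      constructor
      · rintro ⟨i, hi, h⟩
        refine ⟨i, hi, ?_⟩
        have h' : A i ≤ qf (K i) fun x => F x + c := h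
        rw [hc i hi] at h'
        exact h'
      · rintro ⟨i, hi, h⟩
        refine ⟨i, hi, ?_⟩
        show A i ≤ qf (K i) fun x => F x + c
        rw [hc i hi]
        exact h
    by_cases h : F ∈ (⋃ i ∈ s, {F : V → ℝ | A i ≤ qf (K i) F})
    · rw [Set.indicator_of_mem h, Set.indicator_of_mem (hiff.2 h)]
    · rw [Set.indicator_of_notMem h, Set.indicator_of_notMem fun hc => h (hiff.1 hc)]
  · intro k g hg
    simp only [Set.mem_iUnion] at hg ⊢
    obtain ⟨i, hi, hg⟩ := hg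
    by_cases hk : k ∈ Sh
    · exact Or.inl hk
    · right
      refine ⟨i, hi, ?_⟩
      have h2 : A i ≤ qf (K i) (re k - φ + (√t)⁻¹ • g) := hg
      have h3 := qf_par (hK i hi) (h0 i hi) (re k - φ) ((√t)⁻¹ • g)
      rw [H37.qf_smul] at h3
      have h4 : ((√t)⁻¹) ^ 2 = t⁻¹ := by
        rw [inv_pow, Real.sq_sqrt ht.le]
      rw [h4] at h3
      have h5 := hSh k hk i hi
      show t * A i / 4 ≤ qf (K i) g
      have h6 : A i / 4 ≤ t⁻¹ * qf (K i) g := by linarith
      have h7 := mul_le_mul_of_nonneg_left h6 ht.le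
      rw [← mul_assoc, mul_inv_cancel₀ ht.ne', one_mul] at h7
      linarith
  · have hint : ∀ i ∈ s, Integrable (ind {g : V → ℝ | t * A i / 4 ≤ qf (K i) g}) (gau V) := by
      intro i _
      refine Integrable.mono' (integrable_const (1 : ℝ))
        (meas_ind (meas_set _ _)).aestronglyMeasurable
        (Filter.Eventually.of_forall fun g => ?_)
      rw [Real.norm_eq_abs, abs_of_nonneg (ind_nonneg _ g)]
      exact ind_le_one _ g
    have h1 : ∫ g, ind (⋃ i ∈ s, {g : V → ℝ | t * A i / 4 ≤ qf (K i) g}) g ∂(gau V) ≤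
        ∫ g, ∑ i ∈ s, ind {g : V → ℝ | t * A i / 4 ≤ qf (K i) g} g ∂(gau V) := by
      refine integral_mono_of_nonneg (Filter.Eventually.of_forall fun g => ind_nonneg _ g)
        (integrable_finsetSum s hint) (Filter.Eventually.of_forall fun g => ?_)
      simp only
      by_cases hg : g ∈ ⋃ i ∈ s, {g : V → ℝ | t * A i / 4 ≤ qf (K i) g}
      · rw [ind_mem hg]
        simp only [Set.mem_iUnion] at hg
        obtain ⟨i, hi, hg⟩ := hg
        refine le_trans (le_of_eq (ind_mem hg).symm)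
          (Finset.single_le_sum (f := fun i => ind {g : V → ℝ | t * A i / 4 ≤ qf (K i) g} g)
            (fun i _ => ind_nonneg _ g) hi)
      · rw [ind_notMem hg]
        exact Finset.sum_nonneg fun i _ => ind_nonneg _ g
    refine h1.trans ?_
    rw [integral_finsetSum s hint]
    refine Finset.sum_le_sum fun i hi => ?_
    refine (gau_tail_tr (hK i hi) (h0 i hi) (hT i hi) (htr i hi)).trans (Real.exp_le_exp.2 (le_of_eq ?_))
    have := (hT i hi).ne'
    field_simp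
    ring

/-- the same for `ν` as a measure -/
theorem nu_fam {w : (V → ℤ) → ℝ} (hG : GW w) (hw : BW w) {t : ℝ} (ht : 0 < t)
    (hM : MF (t • (1 : Matrix V V ℝ)) t) (x₀ : V)
    {I : Type*} (s : Finset I) {K : I → Matrix V V ℝ} {A T : I → ℝ}
    (hK : ∀ i ∈ s, (K i)ᵀ = K i) (h0 : ∀ i ∈ s, ∀ u, 0 ≤ qf (K i) u) (hc : ∀ i ∈ s, CK (K i))
    (hT : ∀ i ∈ s, 0 < T i) (htr : ∀ i ∈ s, (K i).trace ≤ T i)
    {Sh : Set (V → ℤ)} (hSh : ∀ h, h ∉ Sh → ∀ i ∈ s, qf (K i) (re h) < A i / 4) :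
    (nuM w (t • (1 : Matrix V V ℝ)) x₀).real {F | ∃ i ∈ s, A i ≤ qf (K i) F} ≤
      Pp w x₀ Sh + ∑ i ∈ s, Real.exp (1 / 2 - t * A i / (16 * T i)) := by
  have hset : {F : V → ℝ | ∃ i ∈ s, A i ≤ qf (K i) F} =
      ⋃ i ∈ s, {F : V → ℝ | A i ≤ qf (K i) F} := by
    ext F
    simp only [Set.mem_iUnion]
    constructor
    · rintro ⟨i, hi, h⟩
      exact ⟨i, hi, h⟩
    · rintro ⟨i, hi, h⟩
      exact ⟨i, hi, h⟩
  have hmeas : MeasurableSet {F : V → ℝ | ∃ i ∈ s, A i ≤ qf (K i) F} := by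
    rw [hset]
    exact Finset.measurableSet_biUnion s fun i _ => meas_set _ _
  have hci : CI (ind {F : V → ℝ | ∃ i ∈ s, A i ≤ qf (K i) F}) := by
    intro F c
    unfold ind
    have hiff : (fun x => F x + c) ∈ {F : V → ℝ | ∃ i ∈ s, A i ≤ qf (K i) F} ↔
        F ∈ {F : V → ℝ | ∃ i ∈ s, A i ≤ qf (K i) F} := by
      constructor
      · rintro ⟨i, hi, h⟩
        refine ⟨i, hi, ?_⟩
        rw [hc i hi] at h
        exact h
      · rintro ⟨i, hi, h⟩
        refine ⟨i, hi, ?_⟩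
        rw [hc i hi]
        exact h
    by_cases h : F ∈ {F : V → ℝ | ∃ i ∈ s, A i ≤ qf (K i) F}
    · rw [Set.indicator_of_mem h, Set.indicator_of_mem (hiff.2 h)]
    · rw [Set.indicator_of_notMem h, Set.indicator_of_notMem fun hc => h (hiff.1 hc)]
  have h := EQ_fam hw ht x₀ 0 s hK h0 hc hT htr (Sh := Sh) (fun k hk i hi => by
    rw [sub_zero]
    exact hSh k hk i hi)
  unfold EQ at h
  simp only [sub_zero] at h
  rw [← (nuM_ci hG hw hM x₀ hci (meas_ind hmeas)).2] at h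
  refine le_trans (le_of_eq ?_) h
  unfold ind
  rw [integral_indicator hmeas, setIntegral_const, smul_eq_mul, mul_one]

end ab

end

end Vale.Agent.P159.H264.Gq
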