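import Vale.Agent.P159.H264.Cl1
import Vale.Agent.P159.H276.Uf1
import Vale.Agent.P159.H340.Kl0

/-!
P159 / module CLASS (helper264), part 2: the map `F ↦ χ (T F - ⟨β, T F⟩)`, `T` a smoothing kernel,
and the traces of the three forms `Qa`, `Qb`, `Qc` of helper276.
-/

set_option linter.unusedSectionVars false

namespace Vale.Agent.P159.H264.Gq

open Finset Matrix
open Vale.Agent.P159.TM.Spec (V)
open Vale.Agent.P159.TM.H764 (cN sN dt EE)
open Vale.Agent.P159.H37 (qf)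
open Vale.Agent.P159.H864 (TI sym lapM ti_lapM sym_lapM)
open Vale.Agent.P159.H817 (gr dv nrm sz e1 e2 eb)
open Vale.Agent.P159.H340 (Rl ti_Rl sym_Rl Rl_nonneg)
open Vale.Agent.P159.H276 (nbZ Qa Qb Qc)

noncomputable section

/-! ### sums of squares -/

section la

variable {V' : Type} [Fintype V'] [DecidableEq V']

/-- positive matrices as sums of squares, with traces of conjugates -/
lemma psd_rep {S : Matrix V' V' ℝ} (hS : Sᵀ = S) (h0 : ∀ u, 0 ≤ qf S u) :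
    ∃ (m : ℕ) (v : Fin m → V' → ℝ), (∀ u, qf S u = ∑ i, (∑ x, v i x * u x) ^ 2) ∧
      ∀ W : Matrix V' V' ℝ, (Wᵀ * S * W).trace = ∑ i, ∑ x, (Wᵀ *ᵥ v i) x ^ 2 := by
  obtain ⟨m, v, hv⟩ := Matrix.posSemidef_iff_eq_sum_vecMulVec.1 (psd_of hS h0)
  refine ⟨m, v, fun u => ?_, fun W => ?_⟩
  · rw [hv]
    unfold qf
    have h1 : ∀ x y : V', (∑ i, vecMulVec (v i) (star (v i))) x y = ∑ i, v i x * v i y := by
      intro x y
      rw [Matrix.sum_apply]
      refine Finset.sum_congr rfl fun i _ => ?_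
      rw [Matrix.vecMulVec_apply]
      simp
    simp only [h1]
    have h2 : ∀ i, (∑ x, v i x * u x) ^ 2 = ∑ x, ∑ y, u x * (v i x * v i y) * u y := by
      intro i
      rw [pow_two, Finset.sum_mul_sum]
      refine Finset.sum_congr rfl fun x _ => Finset.sum_congr rfl fun y _ => by ring
    have h3 : ∀ x y : V', u x * (∑ i, v i x * v i y) * u y =
        ∑ i, u x * (v i x * v i y) * u y := by
      intro x y
      rw [Finset.mul_sum, Finset.sum_mul]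
    simp only [h2, h3]
    calc ∑ x, ∑ y, ∑ i, u x * (v i x * v i y) * u y
        = ∑ x, ∑ i, ∑ y, u x * (v i x * v i y) * u y :=
          Finset.sum_congr rfl fun x _ => Finset.sum_comm
      _ = ∑ i, ∑ x, ∑ y, u x * (v i x * v i y) * u y := Finset.sum_comm
  · rw [hv, Finset.mul_sum, Finset.sum_mul, Matrix.trace_sum]
    refine Finset.sum_congr rfl fun i _ => ?_
    have e1 : (star (v i)) = v i := by
      funext x
      simp
    rw [e1, Matrix.mul_vecMulVec, Matrix.vecMulVec_mul, Matrix.trace_vecMulVec]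
    have e2 : v i ᵥ* W = Wᵀ *ᵥ v i := (Matrix.mulVec_transpose W (v i)).symm
    rw [e2]
    unfold dotProduct
    refine Finset.sum_congr rfl fun x _ => ?_
    ring

/-- the adjoint of a cut -/
lemma cutM_tr (χ β v : V' → ℝ) (y : V') :
    ((cutM χ β)ᵀ *ᵥ v) y = χ y * v y - (∑ x, χ x * v x) * β y := by
  have h0 : ((cutM χ β)ᵀ *ᵥ v) y = ∑ x, cutM χ β x y * v x := rfl
  have h : ∀ x, cutM χ β x y * v x =
      (if x = y then χ x * v x else 0) - χ x * v x * β y := by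
    intro x
    unfold cutM
    split_ifs <;> ring
  rw [h0, Finset.sum_congr rfl fun x _ => h x, Finset.sum_sub_distrib, Finset.sum_ite_eq',
    Finset.sum_mul]
  simp

lemma diag_tr (χ v : V' → ℝ) : (Matrix.diagonal χ)ᵀ *ᵥ v = fun x => χ x * v x := by
  rw [Matrix.diagonal_transpose]
  funext x
  rw [Matrix.mulVec_diagonal]

/-- **the mean costs little**: `tr (T'ᵀ S T') ≤ 2 tr ((χ T)ᵀ S (χ T)) + 2 |β|² ⟨χ, S χ⟩` -/
theorem tr_cut {S T : Matrix V' V' ℝ} (hS : Sᵀ = S) (h0 : ∀ u, 0 ≤ qf S u) (hT : TB T 1)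
    (χ β : V' → ℝ) : ((cutM χ β * T)ᵀ * S * (cutM χ β * T)).trace ≤
      2 * ((Matrix.diagonal χ * T)ᵀ * S * (Matrix.diagonal χ * T)).trace +
        2 * (∑ y, β y ^ 2) * qf S χ := by
  obtain ⟨m, v, h1, h2⟩ := psd_rep hS h0
  rw [h2, h2, h1, Finset.mul_sum, Finset.mul_sum, ← Finset.sum_add_distrib]
  refine Finset.sum_le_sum fun i _ => ?_
  have e1 : (cutM χ β * T)ᵀ *ᵥ v i =
      (Matrix.diagonal χ * T)ᵀ *ᵥ v i + (-(∑ x, v i x * χ x)) • (Tᵀ *ᵥ β) := by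
    rw [Matrix.transpose_mul, Matrix.transpose_mul, ← Matrix.mulVec_mulVec, ← Matrix.mulVec_mulVec,
      diag_tr, ← Matrix.mulVec_smul, ← Matrix.mulVec_add]
    congr 1
    funext y
    rw [cutM_tr, Pi.add_apply, Pi.smul_apply, smul_eq_mul]
    have e2 : ∑ x, χ x * v i x = ∑ x, v i x * χ x := Finset.sum_congr rfl fun x _ => mul_comm _ _
    rw [e2]
    ring
  rw [e1]
  have h3 : ∑ x, (Tᵀ *ᵥ β) x ^ 2 ≤ ∑ y, β y ^ 2 := by
    have := hT.transpose β
    simpa using this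
  calc ∑ x, ((Matrix.diagonal χ * T)ᵀ *ᵥ v i + (-(∑ x, v i x * χ x)) • (Tᵀ *ᵥ β)) x ^ 2
      ≤ ∑ x, (2 * ((Matrix.diagonal χ * T)ᵀ *ᵥ v i) x ^ 2 +
          2 * ((∑ x, v i x * χ x) ^ 2 * (Tᵀ *ᵥ β) x ^ 2)) := by
        refine Finset.sum_le_sum fun x _ => ?_
        rw [Pi.add_apply, Pi.smul_apply, smul_eq_mul]
        nlinarith [sq_nonneg (((Matrix.diagonal χ * T)ᵀ *ᵥ v i) x +
          (∑ x, v i x * χ x) * (Tᵀ *ᵥ β) x)]
    _ = 2 * ∑ x, ((Matrix.diagonal χ * T)ᵀ *ᵥ v i) x ^ 2 +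
          2 * ((∑ x, v i x * χ x) ^ 2 * ∑ x, (Tᵀ *ᵥ β) x ^ 2) := by
        rw [Finset.sum_add_distrib, ← Finset.mul_sum, ← Finset.mul_sum, ← Finset.mul_sum]
    _ ≤ 2 * ∑ x, ((Matrix.diagonal χ * T)ᵀ *ᵥ v i) x ^ 2 +
          2 * (∑ y, β y ^ 2) * (∑ x, v i x * χ x) ^ 2 := by
        have := mul_le_mul_of_nonneg_left h3 (sq_nonneg (∑ x, v i x * χ x))
        linarith

end la

/-! ### smoothing kernels -/

variable {N : ℕ} [NeZero N]

/-- **a smoothing kernel of range `q`** -/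
structure Smo (N : ℕ) [NeZero N] (q : ℕ) (T : Matrix (V N) (V N) ℝ) : Prop where
  ti : TI T
  nn : ∀ x y, 0 ≤ T x y
  row : ∀ x, ∑ y, T x y = 1
  rng : ∀ x y, T x y ≠ 0 → sz (x - y) < q
  sy : ∀ k, sym T k ^ 2 ≤ 1
  sq : ∀ k, sym T k ^ 2 * ((q : ℝ) ^ 2 * EE k) ^ 2 ≤ 64

variable {q : ℕ} {T : Matrix (V N) (V N) ℝ}

lemma Smo.tb (h : Smo N q T) : TB T 1 := by
  intro u
  rw [one_pow, one_mul]
  have h1 : ∑ x, (T *ᵥ u) x ^ 2 = qf (T * T) u := by
    have e : T * T = Tᵀ * (1 : Matrix (V N) (V N) ℝ) * T := by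
      rw [h.ti.transpose, Matrix.mul_one]
    have e2 := H883.qf_QB (1 : Matrix (V N) (V N) ℝ) T u
    unfold H883.QB at e2
    rw [e, e2, H340.qf_one]
  rw [h1, ← H340.qf_one]
  refine (H864.qf_le_iff (h.ti.mul h.ti) TI.one).2 (fun k => ?_) u
  rw [H864.sym_mul h.ti h.ti, H864.sym_one, ← pow_two]
  exact h.sy k

lemma Smo.tc (h : Smo N q T) : T *ᵥ (fun _ => (1 : ℝ)) = fun _ => 1 := by
  funext x
  unfold Matrix.mulVec dotProduct
  simp only [mul_one]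
  exact h.row x

/-- the cut map kills constants -/
lemma Smo.cut_tc (h : Smo N q T) {χ β : V N → ℝ} (hβ : ∑ y, β y = 1) : TC (cutM χ β * T) := by
  unfold TC
  rw [← Matrix.mulVec_mulVec, h.tc]
  exact TC_cutM hβ

/-- normalised sum of symbols -/
def avk (N : ℕ) [NeZero N] (f : V N → ℝ) : ℝ := ((N : ℝ) ^ 2)⁻¹ * ∑ k, f k

lemma diag_avk {A : Matrix (V N) (V N) ℝ} (hA : TI A) (x : V N) : A x x = avk N (sym A) :=
  hA.diag_eq x

lemma avk_mono {f g : V N → ℝ} (h : ∀ k, f k ≤ g k) : avk N f ≤ avk N g := by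
  unfold avk
  exact mul_le_mul_of_nonneg_left (Finset.sum_le_sum fun k _ => h k) (by positivity)

lemma avk_nonneg {f : V N → ℝ} (h : ∀ k, 0 ≤ f k) : 0 ≤ avk N f := by
  unfold avk
  exact mul_nonneg (by positivity) (Finset.sum_nonneg fun k _ => h k)

lemma avk_mul (c : ℝ) (f : V N → ℝ) : avk N (fun k => c * f k) = c * avk N f := by
  unfold avk
  rw [← Finset.mul_sum]
  ring

/-- the numbers -/
def gT (N : ℕ) [NeZero N] (T : Matrix (V N) (V N) ℝ) (κ : ℝ) : ℝ :=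
  avk N fun k => sym T k ^ 2 * (1 + κ * EE k)⁻¹
def g1 (N : ℕ) [NeZero N] (κ : ℝ) : ℝ := avk N fun k => (1 + κ * EE k)⁻¹
def g2 (N : ℕ) [NeZero N] (T : Matrix (V N) (V N) ℝ) : ℝ := avk N fun k => sym T k ^ 2

/-! ### (a) -/

lemma trace_ent {S T : Matrix (V N) (V N) ℝ} (χ : V N → ℝ) :
    ((Matrix.diagonal χ * T)ᵀ * S * (Matrix.diagonal χ * T)).trace =
      ∑ x, ∑ y, χ x * χ y * (S x y * (T * Tᵀ) y x) := by
  have e : ((Matrix.diagonal χ * T)ᵀ * S * (Matrix.diagonal χ * T)).trace =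
      ((Matrix.diagonal χ * S * Matrix.diagonal χ) * (T * Tᵀ)).trace := by
    rw [Matrix.transpose_mul, Matrix.diagonal_transpose, ← Matrix.mul_assoc,
      Matrix.trace_mul_comm _ T]
    rw [Matrix.trace_mul_comm (Matrix.diagonal χ * S * Matrix.diagonal χ)]
    congr 1
    simp only [Matrix.mul_assoc]
  rw [e, Matrix.trace]
  refine Finset.sum_congr rfl fun x _ => ?_
  rw [Matrix.diag_apply, Matrix.mul_apply]
  refine Finset.sum_congr rfl fun y _ => ?_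
  rw [Matrix.mul_diagonal, Matrix.diagonal_mul]
  ring

lemma TT_nn (h : Smo N q T) (x y : V N) : 0 ≤ (T * Tᵀ) x y := by
  rw [Matrix.mul_apply]
  exact Finset.sum_nonneg fun z _ => mul_nonneg (h.nn _ _) (by
    rw [Matrix.transpose_apply]
    exact h.nn _ _)

/-- weighted double sums of a nonnegative symmetric kernel -/
lemma dbl_le {M : V N → V N → ℝ} (hn : ∀ x y, 0 ≤ M x y) (hs : ∀ x y, M x y = M y x) {c : ℝ}
    (hc : ∀ x, ∑ y, M x y ≤ c) (χ : V N → ℝ) :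
    ∑ x, ∑ y, χ x * χ y * M x y ≤ c * ∑ x, χ x ^ 2 := by
  have h1 : ∑ x, ∑ y, χ x * χ y * M x y ≤ ∑ x, ∑ y, (χ x ^ 2 + χ y ^ 2) / 2 * M x y := by
    refine Finset.sum_le_sum fun x _ => Finset.sum_le_sum fun y _ => ?_
    refine mul_le_mul_of_nonneg_right ?_ (hn x y)
    nlinarith [sq_nonneg (χ x - χ y)]
  have h2 : ∑ x, ∑ y, (χ x ^ 2 + χ y ^ 2) / 2 * M x y = ∑ x, χ x ^ 2 * ∑ y, M x y := by
    have e1 : ∀ x y, (χ x ^ 2 + χ y ^ 2) / 2 * M x y =
        χ x ^ 2 * M x y / 2 + χ y ^ 2 * M x y / 2 := fun x y => by ring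
    simp only [e1, Finset.sum_add_distrib]
    have e2 : ∑ x, ∑ y, χ y ^ 2 * M x y / 2 = ∑ x, ∑ y, χ x ^ 2 * M x y / 2 := by
      rw [Finset.sum_comm]
      refine Finset.sum_congr rfl fun x _ => Finset.sum_congr rfl fun y _ => ?_
      rw [hs y x]
    rw [e2, ← Finset.sum_add_distrib]
    refine Finset.sum_congr rfl fun x _ => ?_
    rw [Finset.mul_sum, ← Finset.sum_add_distrib]
    refine Finset.sum_congr rfl fun y _ => by ring
  refine (h1.trans (le_of_eq h2)).trans ?_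
  rw [Finset.mul_sum]
  refine Finset.sum_le_sum fun x _ => ?_
  rw [mul_comm]
  exact mul_le_mul_of_nonneg_right (hc x) (sq_nonneg _)

theorem tr_a0 (h : Smo N q T) {κ : ℝ} (hκ : 0 ≤ κ) (χ : V N → ℝ) :
    ((Matrix.diagonal χ * T)ᵀ * Rl κ * (Matrix.diagonal χ * T)).trace ≤
      gT N T κ * ∑ x, χ x ^ 2 := by
  rw [trace_ent]
  have hTT : TI (T * Tᵀ) := by
    rw [h.ti.transpose]
    exact h.ti.mul h.ti
  refine dbl_le (M := fun x y => Rl κ x y * (T * Tᵀ) y x)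
    (fun x y => mul_nonneg (Rl_nonneg hκ _ _) (TT_nn h _ _))
    (fun x y => by rw [(ti_Rl κ).sy x y, hTT.sy y x]) (fun x => ?_) χ
  have e1 : ∑ y, Rl κ x y * (T * Tᵀ) y x = (Rl (N := N) κ * (T * Tᵀ)) x x := by
    rw [Matrix.mul_apply]
  rw [e1, diag_avk ((ti_Rl κ).mul hTT)]
  unfold gT
  refine le_of_eq (congrArg (avk N) (funext fun k => ?_))
  rw [H864.sym_mul (ti_Rl κ) hTT, sym_Rl, h.ti.transpose, H864.sym_mul h.ti h.ti]
  ring

/-- **(a)** -/
theorem tr_a (h : Smo N q T) {κ : ℝ} (hκ : 0 ≤ κ) (χ β : V N → ℝ) :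
    ((cutM χ β * T)ᵀ * Rl κ * (cutM χ β * T)).trace ≤
      2 * (gT N T κ + ∑ y, β y ^ 2) * ∑ x, χ x ^ 2 := by
  have h1 := tr_cut (ti_Rl κ).transpose (H340.qf_Rl_nonneg hκ) h.tb χ β
  have h2 := tr_a0 h hκ χ
  have h3 := H340.qf_Rl_le hκ χ
  have h4 : 0 ≤ ∑ y, β y ^ 2 := Finset.sum_nonneg fun y _ => sq_nonneg _
  have h5 := mul_le_mul_of_nonneg_left h3 h4
  linarith

/-! ### (b) -/

/-- restriction to a set -/
def IB (B : Finset (V N)) : Matrix (V N) (V N) ℝ := Matrix.diagonal fun x => if x ∈ B then 1 else 0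

lemma IB_symm (B : Finset (V N)) : (IB B)ᵀ = IB B := Matrix.diagonal_transpose _

lemma qf_IB (B : Finset (V N)) (u : V N → ℝ) : qf (IB B) u = ∑ x ∈ B, u x ^ 2 := by
  rw [H37.qf_eq]
  unfold dotProduct IB
  simp only [Matrix.mulVec_diagonal]
  have h : ∀ x, u x * ((if x ∈ B then 1 else 0) * u x) = if x ∈ B then u x ^ 2 else 0 := by
    intro x
    split_ifs <;> ring
  rw [Finset.sum_congr rfl fun x _ => h x, Finset.sum_ite_mem, Finset.univ_inter]

theorem tr_b (h : Smo N q T) (B : Finset (V N)) {χ : V N → ℝ} (hχ : ∀ x, |χ x| ≤ 1)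
    (β : V N → ℝ) : ((cutM χ β * T)ᵀ * IB B * (cutM χ β * T)).trace ≤
      2 * (g2 N T + ∑ y, β y ^ 2) * (B.card : ℝ) := by
  have hχ2 : ∀ x, χ x ^ 2 ≤ 1 := fun x => by
    rw [← sq_abs]
    exact pow_le_one₀ (abs_nonneg _) (hχ x)
  have h0 : ∀ u : V N → ℝ, 0 ≤ qf (IB B) u := fun u => by
    rw [qf_IB]
    exact Finset.sum_nonneg fun x _ => sq_nonneg _
  have h1 := tr_cut (IB_symm B) h0 h.tb χ β
  have hTT : TI (T * Tᵀ) := by
    rw [h.ti.transpose]
    exact h.ti.mul h.ti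
  have hd : ∀ x, (T * Tᵀ) x x = g2 N T := by
    intro x
    rw [diag_avk hTT]
    unfold g2
    refine congrArg (avk N) (funext fun k => ?_)
    rw [h.ti.transpose, H864.sym_mul h.ti h.ti]
    ring
  have hg2 : 0 ≤ g2 N T := avk_nonneg fun k => sq_nonneg _
  have h2 : ((Matrix.diagonal χ * T)ᵀ * IB B * (Matrix.diagonal χ * T)).trace ≤
      g2 N T * (B.card : ℝ) := by
    rw [trace_ent]
    have e1 : ∀ x, ∑ y, χ x * χ y * (IB B x y * (T * Tᵀ) y x) =
        if x ∈ B then χ x ^ 2 * g2 N T else 0 := by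
      intro x
      have e2 : ∀ y, χ x * χ y * (IB B x y * (T * Tᵀ) y x) =
          if x = y then (if x ∈ B then χ x ^ 2 * g2 N T else 0) else 0 := by
        intro y
        unfold IB
        rw [Matrix.diagonal_apply]
        by_cases hxy : x = y
        · subst hxy
          rw [if_pos rfl, if_pos rfl, hd]
          split_ifs <;> ring
        · rw [if_neg hxy, if_neg hxy]
          ring
      rw [Finset.sum_congr rfl fun y _ => e2 y, Finset.sum_ite_eq]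
      simp
    rw [Finset.sum_congr rfl fun x _ => e1 x, Finset.sum_ite_mem, Finset.univ_inter]
    calc ∑ x ∈ B, χ x ^ 2 * g2 N T ≤ ∑ _x ∈ B, g2 N T :=
          Finset.sum_le_sum fun x _ => mul_le_of_le_one_left hg2 (hχ2 x)
      _ = g2 N T * (B.card : ℝ) := by
          rw [Finset.sum_const, nsmul_eq_mul]
          ring
  have h3 : qf (IB B) χ ≤ (B.card : ℝ) := by
    rw [qf_IB]
    calc ∑ x ∈ B, χ x ^ 2 ≤ ∑ _x ∈ B, (1 : ℝ) := Finset.sum_le_sum fun x _ => hχ2 x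
      _ = (B.card : ℝ) := by simp
  have h4 : 0 ≤ ∑ y, β y ^ 2 := Finset.sum_nonneg fun y _ => sq_nonneg _
  have h5 := mul_le_mul_of_nonneg_left h3 h4
  linarith

end

end Vale.Agent.P159.H264.Gq
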