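import Vale.Agent.P159.H264.Cl2
import Vale.Agent.P159.H462.In3Sum

/-!
P159 / module CLASS (helper264), part 3: the trace of the layer form `Qc` (commutator of the smoothing
with the cut-off) and the three numbers `gT`, `g1`, `g2`.
-/

set_option linter.unusedSectionVars false

namespace Vale.Agent.P159.H264.Gq

open Finset Matrix
open Vale.Agent.P159.TM.Spec (V)
open Vale.Agent.P159.TM.H764 (cN sN dt EE)
open Vale.Agent.P159.H37 (qf)
open Vale.Agent.P159.H864 (TI sym lapM ti_lapM sym_lapM)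
open Vale.Agent.P159.H817 (gr dv nrm sz e1 e2 eb)
open Vale.Agent.P159.H340 (Rl ti_Rl sym_Rl Rl_nonneg)
open Vale.Agent.P159.H276 (nbZ Qa Qb Qc)

noncomputable section

variable {N : ℕ} [NeZero N] {q : ℕ} {T : Matrix (V N) (V N) ℝ}

/-! ### gradients of translation invariant kernels -/

/-- `∑_b ∑_y (A(y, x + e_b) - A(y, x))² = N⁻² ∑_k λ(k) Â(k)²` -/
theorem grad_sq {A : Matrix (V N) (V N) ℝ} (hA : TI A) (x : V N) :
    ∑ y, (A y (x + e1) - A y x) ^ 2 + ∑ y, (A y (x + e2) - A y x) ^ 2 =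
      avk N fun k => EE k * sym A k ^ 2 := by
  have hC : TI (A * A) := hA.mul hA
  have h1 : ∀ e : V N, ∑ y, (A y (x + e) - A y x) ^ 2 =
      2 * (A * A) x x - 2 * (A * A) (x + e) x := by
    intro e
    have a1 : ∀ u v : V N, ∑ y, A y u * A y v = (A * A) u v := by
      intro u v
      rw [Matrix.mul_apply]
      refine Finset.sum_congr rfl fun y _ => ?_
      rw [hA.sy y u]
    have a2 : ∀ y, (A y (x + e) - A y x) ^ 2 =
        A y (x + e) * A y (x + e) + A y x * A y x - 2 * (A y (x + e) * A y x) := fun y => by ring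
    simp only [a2]
    rw [Finset.sum_sub_distrib, Finset.sum_add_distrib, ← Finset.mul_sum, a1, a1, a1]
    have a3 : (A * A) (x + e) (x + e) = (A * A) x x := hC.tr e x x
    rw [a3]
    ring
  rw [h1, h1]
  have h2 : avk N (fun k => EE k * sym A k ^ 2) = (lapM (N := N) * (A * A)) x x := by
    rw [diag_avk (ti_lapM.mul hC)]
    refine congrArg (avk N) (funext fun k => ?_)
    rw [H864.sym_mul ti_lapM hC, H864.sym_mul hA hA, sym_lapM]
    ring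
  rw [h2]
  have h3 : (lapM (N := N) * (A * A)) x x = (lapM *ᵥ fun z => (A * A) z x) x := by
    rw [Matrix.mul_apply]
    rfl
  rw [h3, H340.lapM_mulVec]
  have b1 : (A * A) (x - (1, 0)) x = (A * A) (x + e1) x := by
    have := hC.tr (1, 0) (x - (1, 0)) x
    rw [sub_add_cancel] at this
    rw [← this, hC.sy]
    rfl
  have b2 : (A * A) (x - (0, 1)) x = (A * A) (x + e2) x := by
    have := hC.tr (0, 1) (x - (0, 1)) x
    rw [sub_add_cancel] at this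
    rw [← this, hC.sy]
    rfl
  have b3 : (A * A) (x + (1, 0)) x = (A * A) (x + e1) x := rfl
  have b4 : (A * A) (x + (0, 1)) x = (A * A) (x + e2) x := rfl
  rw [b1, b2, b3, b4]
  ring

/-! ### the commutator -/

theorem comm_le (h : Smo N q T) {χ : V N → ℝ} (hχ : ∀ x, |χ x| ≤ 1) {ℓ : ℝ}
    (hL : ∀ x y, sz (x - y) < q → |χ x - χ y| ≤ ℓ) (w : V N → ℝ) :
    ∑ x, (T *ᵥ fun y => χ y * w y) x ^ 2 ≤
      2 * ∑ x, (T *ᵥ w) x ^ 2 + 2 * ℓ ^ 2 * ∑ y, w y ^ 2 := by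
  have hpt : ∀ x, (T *ᵥ fun y => χ y * w y) x ^ 2 ≤
      2 * (T *ᵥ w) x ^ 2 + 2 * ℓ ^ 2 * ∑ y, T x y * w y ^ 2 := by
    intro x
    have e1 : (T *ᵥ fun y => χ y * w y) x =
        χ x * (T *ᵥ w) x + ∑ y, T x y * ((χ y - χ x) * w y) := by
      unfold Matrix.mulVec dotProduct
      rw [Finset.mul_sum, ← Finset.sum_add_distrib]
      refine Finset.sum_congr rfl fun y _ => by ring
    have h1 : |∑ y, T x y * ((χ y - χ x) * w y)| ≤ ℓ * ∑ y, T x y * |w y| := by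
      refine (Finset.abs_sum_le_sum_abs _ _).trans ?_
      rw [Finset.mul_sum]
      refine Finset.sum_le_sum fun y _ => ?_
      rw [abs_mul, abs_of_nonneg (h.nn x y), abs_mul]
      by_cases h0 : T x y = 0
      · rw [h0]
        simp
      · have h2 := h.rng x y h0
        have h3 := hL x y h2
        rw [abs_sub_comm] at h3
        have h4 := mul_le_mul_of_nonneg_right h3 (abs_nonneg (w y))
        calc T x y * (|χ y - χ x| * |w y|) ≤ T x y * (ℓ * |w y|) :=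
              mul_le_mul_of_nonneg_left h4 (h.nn x y)
          _ = ℓ * (T x y * |w y|) := by ring
    have h2 : (∑ y, T x y * |w y|) ^ 2 ≤ ∑ y, T x y * w y ^ 2 := by
      have h3 := Finset.sum_mul_sq_le_sq_mul_sq univ (fun y => √(T x y)) fun y => √(T x y) * |w y|
      have e2 : ∀ y, √(T x y) * (√(T x y) * |w y|) = T x y * |w y| := fun y => by
        rw [← mul_assoc, Real.mul_self_sqrt (h.nn x y)]
      have e3 : ∀ y, √(T x y) ^ 2 = T x y := fun y => Real.sq_sqrt (h.nn x y)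
      have e4 : ∀ y, (√(T x y) * |w y|) ^ 2 = T x y * w y ^ 2 := fun y => by
        rw [mul_pow, e3, sq_abs]
      simp only [e2, e3, e4] at h3
      rw [h.row x, one_mul] at h3
      exact h3
    have h3 : (∑ y, T x y * ((χ y - χ x) * w y)) ^ 2 ≤ ℓ ^ 2 * ∑ y, T x y * w y ^ 2 := by
      rw [← sq_abs]
      refine (pow_le_pow_left₀ (abs_nonneg _) h1 2).trans ?_
      rw [mul_pow]
      exact mul_le_mul_of_nonneg_left h2 (sq_nonneg ℓ)
    have h4 : (χ x * (T *ᵥ w) x) ^ 2 ≤ (T *ᵥ w) x ^ 2 := by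
      rw [mul_pow]
      refine mul_le_of_le_one_left (sq_nonneg _) ?_
      rw [← sq_abs]
      exact pow_le_one₀ (abs_nonneg _) (hχ x)
    rw [e1]
    nlinarith [sq_nonneg (χ x * (T *ᵥ w) x - ∑ y, T x y * ((χ y - χ x) * w y))]
  refine (Finset.sum_le_sum fun x _ => hpt x).trans (le_of_eq ?_)
  rw [Finset.sum_add_distrib, ← Finset.mul_sum, ← Finset.mul_sum]
  congr 2
  rw [Finset.sum_comm]
  refine Finset.sum_congr rfl fun y _ => ?_
  rw [← Finset.sum_mul]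
  have h5 : ∑ x, T x y = 1 := by
    rw [← h.row y]
    exact Finset.sum_congr rfl fun x _ => h.ti.sy x y
  rw [h5, one_mul]

/-! ### (c) -/

/-- the row of the gradient of the resolvent -/
def wv (κ : ℝ) (e : V N) (x : V N) : V N → ℝ := fun y => Rl κ (x + e) y - Rl κ x y

/-- the form `v ↦ ∑_{x ∈ B} ∑_b (gr (Rl v) (x, b))²` -/
def Sc (κ : ℝ) (B : Finset (V N)) : Matrix (V N) (V N) ℝ :=
  ∑ x ∈ B, (vecMulVec (wv κ e1 x) (wv κ e1 x) + vecMulVec (wv κ e2 x) (wv κ e2 x))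

lemma Sc_symm (κ : ℝ) (B : Finset (V N)) : (Sc κ B)ᵀ = Sc κ B := by
  unfold Sc
  rw [Matrix.transpose_sum]
  refine Finset.sum_congr rfl fun x _ => ?_
  rw [Matrix.transpose_add, Matrix.transpose_vecMulVec, Matrix.transpose_vecMulVec]

lemma qf_vmv (w v : V N → ℝ) : qf (vecMulVec w w) v = (∑ y, w y * v y) ^ 2 := by
  rw [H37.qf_eq, pow_two]
  have h : vecMulVec w w *ᵥ v = (∑ y, w y * v y) • w := by
    funext x
    unfold Matrix.mulVec dotProduct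
    rw [Pi.smul_apply, smul_eq_mul, Finset.sum_mul]
    refine Finset.sum_congr rfl fun y _ => ?_
    show w x * w y * v y = w y * v y * w x
    ring
  rw [h, dotProduct_smul, smul_eq_mul]
  congr 1
  unfold dotProduct
  exact Finset.sum_congr rfl fun y _ => mul_comm _ _

lemma wv_dot (κ : ℝ) (e x : V N) (v : V N → ℝ) :
    ∑ y, wv κ e x y * v y = (Rl κ *ᵥ v) (x + e) - (Rl κ *ᵥ v) x := by
  unfold wv Matrix.mulVec dotProduct
  rw [← Finset.sum_sub_distrib]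
  exact Finset.sum_congr rfl fun y _ => by ring

lemma qf_Sc (κ : ℝ) (B : Finset (V N)) (v : V N → ℝ) : qf (Sc κ B) v =
    ∑ x ∈ B, (gr (Rl κ *ᵥ v) (x, false) ^ 2 + gr (Rl κ *ᵥ v) (x, true) ^ 2) := by
  have h : ∀ (M : V N → Matrix (V N) (V N) ℝ), qf (∑ x ∈ B, M x) v = ∑ x ∈ B, qf (M x) v := by
    intro M
    classical
    induction B using Finset.induction_on with
    | empty => simp [qf]
    | insert a B ha ih => rw [Finset.sum_insert ha, Finset.sum_insert ha, H37.qf_add_mat, ih]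
  unfold Sc
  rw [h]
  refine Finset.sum_congr rfl fun x _ => ?_
  rw [H37.qf_add_mat, qf_vmv, qf_vmv, wv_dot, wv_dot]
  rfl

lemma Sc_nonneg (κ : ℝ) (B : Finset (V N)) (v : V N → ℝ) : 0 ≤ qf (Sc κ B) v := by
  rw [qf_Sc]
  exact Finset.sum_nonneg fun x _ => by positivity

lemma trace_vmv (W : Matrix (V N) (V N) ℝ) (w : V N → ℝ) :
    (Wᵀ * vecMulVec w w * W).trace = ∑ x, (Wᵀ *ᵥ w) x ^ 2 := by
  rw [Matrix.mul_vecMulVec, Matrix.vecMulVec_mul, Matrix.trace_vecMulVec]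
  have e2 : w ᵥ* W = Wᵀ *ᵥ w := (Matrix.mulVec_transpose W w).symm
  rw [e2]
  unfold dotProduct
  exact Finset.sum_congr rfl fun x _ => by ring

lemma trace_Sc (κ : ℝ) (B : Finset (V N)) (W : Matrix (V N) (V N) ℝ) :
    (Wᵀ * Sc κ B * W).trace =
      ∑ x ∈ B, (∑ y, (Wᵀ *ᵥ wv κ e1 x) y ^ 2 + ∑ y, (Wᵀ *ᵥ wv κ e2 x) y ^ 2) := by
  unfold Sc
  rw [Finset.mul_sum, Finset.sum_mul, Matrix.trace_sum]
  refine Finset.sum_congr rfl fun x _ => ?_
  rw [Matrix.mul_add, Matrix.add_mul, Matrix.trace_add, trace_vmv, trace_vmv]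

/-- `T w` for the gradient rows -/
lemma T_wv (h : Smo N q T) (κ : ℝ) (e x y : V N) :
    (T *ᵥ wv κ e x) y = (T * Rl (N := N) κ) y (x + e) - (T * Rl (N := N) κ) y x := by
  rw [Matrix.mul_apply, Matrix.mul_apply, ← Finset.sum_sub_distrib]
  refine Finset.sum_congr rfl fun z _ => ?_
  rw [(ti_Rl κ).sy z (x + e), (ti_Rl κ).sy z x]
  show T y z * (Rl κ (x + e) z - Rl κ x z) = _
  ring

lemma kEE_le {κ : ℝ} (hκ : 0 < κ) (k : V N) :
    EE k * ((1 + κ * EE k)⁻¹) ^ 2 ≤ κ⁻¹ * (1 + κ * EE k)⁻¹ := by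
  have h1 := H340.one_add_pos hκ.le k
  have h2 := H340.EE_nonneg k
  rw [pow_two, ← mul_assoc]
  refine mul_le_mul_of_nonneg_right ?_ (inv_nonneg.2 h1.le)
  rw [← div_eq_mul_inv, div_le_iff₀ h1, ← div_eq_inv_mul, le_div_iff₀ hκ]
  linarith

theorem tr_c0 (h : Smo N q T) {κ : ℝ} (hκ : 0 < κ) {χ : V N → ℝ} (hχ : ∀ x, |χ x| ≤ 1) {ℓ : ℝ}
    (hL : ∀ x y, sz (x - y) < q → |χ x - χ y| ≤ ℓ) (B : Finset (V N)) :
    ((Matrix.diagonal χ * T)ᵀ * Sc κ B * (Matrix.diagonal χ * T)).trace ≤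
      2 * (B.card : ℝ) * κ⁻¹ * (gT N T κ + ℓ ^ 2 * g1 N κ) := by
  rw [trace_Sc]
  have e0 : ∀ w : V N → ℝ, (Matrix.diagonal χ * T)ᵀ *ᵥ w = T *ᵥ fun y => χ y * w y := by
    intro w
    rw [Matrix.transpose_mul, ← Matrix.mulVec_mulVec, diag_tr, h.ti.transpose]
  have hx : ∀ x, ∑ y, ((Matrix.diagonal χ * T)ᵀ *ᵥ wv κ e1 x) y ^ 2 +
      ∑ y, ((Matrix.diagonal χ * T)ᵀ *ᵥ wv κ e2 x) y ^ 2 ≤
      2 * κ⁻¹ * (gT N T κ + ℓ ^ 2 * g1 N κ) := by
    intro x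
    rw [e0, e0]
    have c1 := comm_le h hχ hL (wv κ e1 x)
    have c2 := comm_le h hχ hL (wv κ e2 x)
    have hTR : TI (T * Rl (N := N) κ) := h.ti.mul (ti_Rl κ)
    have d1 : ∑ y, (T *ᵥ wv κ e1 x) y ^ 2 + ∑ y, (T *ᵥ wv κ e2 x) y ^ 2 ≤ κ⁻¹ * gT N T κ := by
      simp only [T_wv h]
      rw [grad_sq hTR]
      unfold gT
      rw [← avk_mul]
      refine avk_mono fun k => ?_
      rw [H864.sym_mul h.ti (ti_Rl κ), sym_Rl]
      have := mul_le_mul_of_nonneg_left (kEE_le hκ k) (sq_nonneg (sym T k))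
      nlinarith
    have d2 : ∑ y, wv κ e1 x y ^ 2 + ∑ y, wv κ e2 x y ^ 2 ≤ κ⁻¹ * g1 N κ := by
      have e3 : ∀ e y : V N, wv κ e x y ^ 2 = (Rl κ y (x + e) - Rl κ y x) ^ 2 := by
        intro e y
        unfold wv
        rw [(ti_Rl κ).sy (x + e) y, (ti_Rl κ).sy x y]
      simp only [e3]
      rw [grad_sq (ti_Rl κ)]
      unfold g1
      rw [← avk_mul]
      refine avk_mono fun k => ?_
      rw [sym_Rl]
      exact kEE_le hκ k
    have d3 := mul_le_mul_of_nonneg_left d2 (sq_nonneg ℓ)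
    nlinarith
  refine (Finset.sum_le_sum fun x _ => hx x).trans (le_of_eq ?_)
  rw [Finset.sum_const, nsmul_eq_mul]
  ring

lemma nrm_Rl {κ : ℝ} (hκ : 0 < κ) (χ : V N → ℝ) :
    nrm (gr (Rl κ *ᵥ χ)) ≤ κ⁻¹ * ∑ x, χ x ^ 2 := by
  have h1 := H276.en_pot (H340.Rl_eqn hκ.le χ)
  have h2 : ∑ x, χ x * (Rl κ *ᵥ χ) x = qf (Rl κ) χ := by
    rw [H37.qf_eq]
    rfl
  have h3 := H340.qf_Rl_le hκ.le χ
  have h4 : 0 ≤ ∑ x, (Rl κ *ᵥ χ) x ^ 2 := Finset.sum_nonneg fun x _ => sq_nonneg _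
  have h5 : κ * nrm (gr (Rl κ *ᵥ χ)) ≤ ∑ x, χ x ^ 2 := by linarith
  rw [← div_eq_inv_mul, le_div_iff₀ hκ, mul_comm]
  exact h5

lemma qf_Sc_le {κ : ℝ} (hκ : 0 < κ) (B : Finset (V N)) (χ : V N → ℝ) :
    qf (Sc κ B) χ ≤ κ⁻¹ * ∑ x, χ x ^ 2 := by
  rw [qf_Sc]
  refine le_trans ?_ (nrm_Rl hκ χ)
  unfold nrm
  rw [H817.sum_edges, ← Finset.sum_add_distrib]
  exact Finset.sum_le_sum_of_subset_of_nonneg (Finset.subset_univ B) fun x _ _ => by positivity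

/-- **(c)** -/
theorem tr_c (h : Smo N q T) {κ : ℝ} (hκ : 0 < κ) {χ : V N → ℝ} (hχ : ∀ x, |χ x| ≤ 1) {ℓ : ℝ}
    (hL : ∀ x y, sz (x - y) < q → |χ x - χ y| ≤ ℓ) (β : V N → ℝ) (B : Finset (V N)) :
    ((cutM χ β * T)ᵀ * Sc κ B * (cutM χ β * T)).trace ≤
      κ⁻¹ * (4 * (B.card : ℝ) * (gT N T κ + ℓ ^ 2 * g1 N κ) +
        2 * (∑ y, β y ^ 2) * ∑ x, χ x ^ 2) := by
  have h1 := tr_cut (Sc_symm κ B) (Sc_nonneg κ B) h.tb χ β
  have h2 := tr_c0 h hκ hχ hL B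
  have h3 := qf_Sc_le hκ B χ
  have h4 : 0 ≤ ∑ y, β y ^ 2 := Finset.sum_nonneg fun y _ => sq_nonneg _
  have h5 := mul_le_mul_of_nonneg_left h3 h4
  nlinarith

end

end Vale.Agent.P159.H264.Gq
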