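import Vale.Agent.P159.H264.Cl3

/-!
P159 / module CLASS (helper264), part 4: the three numbers `gT`, `g1`, `g2`.
-/

set_option linter.unusedSectionVars false

namespace Vale.Agent.P159.H264.Gq

open Finset Matrix
open Vale.Agent.P159.TM.Spec (V)
open Vale.Agent.P159.TM.H764 (cN sN dt EE)
open Vale.Agent.P159.H864 (TI sym lapM)
open Vale.Agent.P159.H817 (sz)
open Vale.Agent.P159.H462 (low)

noncomputable section

variable {N : ℕ} [NeZero N] {q : ℕ} {T : Matrix (V N) (V N) ℝ}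

/-- splitting of a sum over the torus of momenta -/
lemma split3 {f : V N → ℝ} {a b c ν : ℝ} (h0 : f 0 ≤ a) (h1 : ∑ k ∈ low N ν, f k ≤ b)
    (h2 : ∑ k ∈ univ.filter (fun k : V N => k ≠ 0 ∧ ν ≤ EE k), f k ≤ c) :
    ∑ k, f k ≤ a + b + c := by
  classical
  have e1 : ∑ k, f k = ∑ k ∈ univ.filter (fun k : V N => k = 0), f k +
      ∑ k ∈ univ.filter (fun k : V N => ¬ k = 0), f k :=
    (Finset.sum_filter_add_sum_filter_not univ (fun k : V N => k = 0) f).symm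
  have e2 : ∑ k ∈ univ.filter (fun k : V N => k = 0), f k = f 0 := by
    rw [Finset.filter_eq' univ (0 : V N)]
    simp
  have e3 : ∑ k ∈ univ.filter (fun k : V N => ¬ k = 0), f k =
      ∑ k ∈ low N ν, f k + ∑ k ∈ univ.filter (fun k : V N => k ≠ 0 ∧ ν ≤ EE k), f k := by
    have a1 := Finset.sum_filter_add_sum_filter_not
      (univ.filter (fun k : V N => ¬ k = 0)) (fun k : V N => EE k < ν) f
    rw [← a1, Finset.filter_filter, Finset.filter_filter]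
    congr 1
    refine Finset.sum_congr ?_ fun _ _ => rfl
    ext k
    simp only [Finset.mem_filter, Finset.mem_univ, true_and, not_lt, ne_eq]
  rw [e1, e2, e3]
  linarith

lemma sum_high' {ν : ℝ} (hν : 0 < ν) :
    ∑ k ∈ univ.filter (fun k : V N => k ≠ 0 ∧ ν ≤ EE k), (EE k ^ 2)⁻¹ ≤ 20 * (N : ℝ) ^ 2 / ν := by
  refine le_trans ?_ (H462.sum_high hν)
  refine Finset.sum_le_sum_of_subset_of_nonneg (fun k hk => ?_) fun k _ _ => by positivity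
  exact Finset.mem_filter.2 ⟨Finset.mem_univ _, (Finset.mem_filter.1 hk).2.2⟩

lemma Np : (0 : ℝ) < (N : ℝ) ^ 2 := H864.N_pos

lemma rl_low {κ : ℝ} (hκ : 0 < κ) (k : V N) : (1 + κ * EE k)⁻¹ = κ⁻¹ * (EE k + κ⁻¹)⁻¹ := by
  have h1 := H340.one_add_pos hκ.le k
  rw [← mul_inv]
  congr 1
  field_simp
  ring

/-- `T̂² ≤ 64 / (q² λ)²` -/
lemma Smo.dec (h : Smo N q T) (hq : 0 < q) {k : V N} (hk : 0 < EE k) :
    sym T k ^ 2 ≤ 64 / (q : ℝ) ^ 4 * (EE k ^ 2)⁻¹ := by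
  have hq0 : (0 : ℝ) < q := by exact_mod_cast hq
  have h1 := h.sq k
  rw [← div_eq_mul_inv, div_div, le_div_iff₀ (by positivity)]
  calc sym T k ^ 2 * ((q : ℝ) ^ 4 * EE k ^ 2) = sym T k ^ 2 * ((q : ℝ) ^ 2 * EE k) ^ 2 := by ring
    _ ≤ 64 := h1

theorem gT_le (h : Smo N q T) (hq : 0 < q) {κ : ℝ} (hκ : 0 < κ) :
    gT N T κ ≤ 1 / (N : ℝ) ^ 2 + κ⁻¹ * (25 * (1 + Real.log (1 + κ / (q : ℝ) ^ 2)) + 1280) := by
  have hq0 : (0 : ℝ) < q := by exact_mod_cast hq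
  have hN := Np (N := N)
  set ν : ℝ := 1 / (q : ℝ) ^ 2 with hν
  have hν0 : 0 < ν := by positivity
  have hf0 : ∀ k : V N, 0 ≤ (1 + κ * EE k)⁻¹ := fun k => inv_nonneg.2 (H340.one_add_pos hκ.le k).le
  have key := split3 (N := N) (f := fun k => sym T k ^ 2 * (1 + κ * EE k)⁻¹) (a := 1)
    (b := κ⁻¹ * (25 * (N : ℝ) ^ 2 * (1 + Real.log (1 + ν / κ⁻¹))))
    (c := 64 / (q : ℝ) ^ 4 * (κ * ν)⁻¹ * (20 * (N : ℝ) ^ 2 / ν)) (ν := ν) ?_ ?_ ?_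
  · unfold gT avk
    have e1 : ν / κ⁻¹ = κ / (q : ℝ) ^ 2 := by
      rw [hν, div_inv_eq_mul]
      ring
    have e2 : 64 / (q : ℝ) ^ 4 * (κ * ν)⁻¹ * (20 * (N : ℝ) ^ 2 / ν) =
        κ⁻¹ * (1280 * (N : ℝ) ^ 2) := by
      rw [hν]
      field_simp
      ring
    rw [e1, e2] at key
    calc ((N : ℝ) ^ 2)⁻¹ * ∑ k, sym T k ^ 2 * (1 + κ * EE k)⁻¹
        ≤ ((N : ℝ) ^ 2)⁻¹ * (1 + κ⁻¹ * (25 * (N : ℝ) ^ 2 * (1 + Real.log (1 + κ / (q : ℝ) ^ 2))) +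
          κ⁻¹ * (1280 * (N : ℝ) ^ 2)) := mul_le_mul_of_nonneg_left key (by positivity)
      _ = _ := by
        linear_combination (κ⁻¹ * (25 * (1 + Real.log (1 + κ / (q : ℝ) ^ 2)) + 1280)) *
          (inv_mul_cancel₀ hN.ne')
  · have a1 := h.sy 0
    have a2 : (1 + κ * EE (0 : V N))⁻¹ ≤ 1 := by
      rw [H340.EE_zero, mul_zero, add_zero, inv_one]
    exact mul_le_one₀ a1 (hf0 0) a2
  · have a1 := H462.sum_log (N := N) hν0 (inv_pos.2 hκ)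
    calc ∑ k ∈ low N ν, sym T k ^ 2 * (1 + κ * EE k)⁻¹
        ≤ ∑ k ∈ low N ν, κ⁻¹ * (EE k + κ⁻¹)⁻¹ := by
          refine Finset.sum_le_sum fun k _ => ?_
          rw [← rl_low hκ]
          exact mul_le_of_le_one_left (hf0 k) (h.sy k)
      _ = κ⁻¹ * ∑ k ∈ low N ν, (EE k + κ⁻¹)⁻¹ := by rw [Finset.mul_sum]
      _ ≤ _ := mul_le_mul_of_nonneg_left a1 (inv_nonneg.2 hκ.le)
  · calc ∑ k ∈ univ.filter (fun k : V N => k ≠ 0 ∧ ν ≤ EE k), sym T k ^ 2 * (1 + κ * EE k)⁻¹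
        ≤ ∑ k ∈ univ.filter (fun k : V N => k ≠ 0 ∧ ν ≤ EE k),
          64 / (q : ℝ) ^ 4 * (κ * ν)⁻¹ * (EE k ^ 2)⁻¹ := by
          refine Finset.sum_le_sum fun k hk => ?_
          have b1 := (Finset.mem_filter.1 hk).2.2
          have b2 : 0 < EE k := by linarith
          have b3 := h.dec hq b2
          have b4 : (1 + κ * EE k)⁻¹ ≤ (κ * ν)⁻¹ := by
            refine inv_anti₀ (by positivity) ?_
            have := mul_le_mul_of_nonneg_left b1 hκ.le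
            linarith
          calc sym T k ^ 2 * (1 + κ * EE k)⁻¹ ≤ 64 / (q : ℝ) ^ 4 * (EE k ^ 2)⁻¹ * (κ * ν)⁻¹ :=
                mul_le_mul b3 b4 (hf0 k) (by positivity)
            _ = _ := by ring
      _ = 64 / (q : ℝ) ^ 4 * (κ * ν)⁻¹ *
          ∑ k ∈ univ.filter (fun k : V N => k ≠ 0 ∧ ν ≤ EE k), (EE k ^ 2)⁻¹ := by
          rw [Finset.mul_sum]
      _ ≤ _ := mul_le_mul_of_nonneg_left (sum_high' hν0) (by positivity)

theorem g1_le {κ : ℝ} (hκ : 0 < κ) :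
    g1 N κ ≤ 1 / (N : ℝ) ^ 2 + κ⁻¹ * (25 * (1 + Real.log (1 + 9 * κ))) := by
  have hN := Np (N := N)
  have key := split3 (N := N) (f := fun k => (1 + κ * EE k)⁻¹) (a := 1)
    (b := κ⁻¹ * (25 * (N : ℝ) ^ 2 * (1 + Real.log (1 + 9 / κ⁻¹)))) (c := 0) (ν := 9) ?_ ?_ ?_
  · unfold g1 avk
    have e1 : 9 / κ⁻¹ = 9 * κ := by rw [div_inv_eq_mul]
    rw [e1, add_zero] at key
    calc ((N : ℝ) ^ 2)⁻¹ * ∑ k : V N, (1 + κ * EE k)⁻¹
        ≤ ((N : ℝ) ^ 2)⁻¹ * (1 + κ⁻¹ * (25 * (N : ℝ) ^ 2 * (1 + Real.log (1 + 9 * κ)))) :=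
          mul_le_mul_of_nonneg_left key (by positivity)
      _ = _ := by
        linear_combination (κ⁻¹ * (25 * (1 + Real.log (1 + 9 * κ)))) * (inv_mul_cancel₀ hN.ne')
  · rw [H340.EE_zero, mul_zero, add_zero, inv_one]
  · have a1 := H462.sum_log (N := N) (ν := 9) (by norm_num) (inv_pos.2 hκ)
    calc ∑ k ∈ low N 9, (1 + κ * EE k)⁻¹ = ∑ k ∈ low N 9, κ⁻¹ * (EE k + κ⁻¹)⁻¹ :=
          Finset.sum_congr rfl fun k _ => rl_low hκ k
      _ = κ⁻¹ * ∑ k ∈ low N 9, (EE k + κ⁻¹)⁻¹ := by rw [Finset.mul_sum]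
      _ ≤ _ := mul_le_mul_of_nonneg_left a1 (inv_nonneg.2 hκ.le)
  · refine le_of_eq (Finset.sum_eq_zero fun k hk => ?_)
    have b1 := (Finset.mem_filter.1 hk).2.2
    have b2 := H340.EE_le_eight k
    exact absurd (b1.trans b2) (by norm_num)

theorem g2_le (h : Smo N q T) (hq : 0 < q) (hqN : q ≤ N) : g2 N T ≤ 1301 / (q : ℝ) ^ 2 := by
  have hq0 : (0 : ℝ) < q := by exact_mod_cast hq
  have hqN' : (q : ℝ) ≤ N := by exact_mod_cast hqN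
  have hN := Np (N := N)
  set ν : ℝ := 1 / (q : ℝ) ^ 2 with hν
  have hν0 : 0 < ν := by positivity
  have key := split3 (N := N) (f := fun k => sym T k ^ 2) (a := 1)
    (b := 20 * ν * (N : ℝ) ^ 2)
    (c := 64 / (q : ℝ) ^ 4 * (20 * (N : ℝ) ^ 2 / ν)) (ν := ν) (h.sy 0) ?_ ?_
  · unfold g2 avk
    have e2 : 20 * ν * (N : ℝ) ^ 2 + 64 / (q : ℝ) ^ 4 * (20 * (N : ℝ) ^ 2 / ν) =
        (N : ℝ) ^ 2 * (1300 / (q : ℝ) ^ 2) := by
      rw [hν]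
      field_simp
      ring
    rw [add_assoc, e2] at key
    have h1 : 1 / (N : ℝ) ^ 2 ≤ 1 / (q : ℝ) ^ 2 :=
      one_div_le_one_div_of_le (by positivity) (pow_le_pow_left₀ hq0.le hqN' 2)
    calc ((N : ℝ) ^ 2)⁻¹ * ∑ k, sym T k ^ 2
        ≤ ((N : ℝ) ^ 2)⁻¹ * (1 + (N : ℝ) ^ 2 * (1300 / (q : ℝ) ^ 2)) :=
          mul_le_mul_of_nonneg_left key (by positivity)
      _ = 1 / (N : ℝ) ^ 2 + 1300 / (q : ℝ) ^ 2 := by
        linear_combination (1300 / (q : ℝ) ^ 2) * (inv_mul_cancel₀ hN.ne')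
      _ ≤ 1 / (q : ℝ) ^ 2 + 1300 / (q : ℝ) ^ 2 := by linarith
      _ = 1301 / (q : ℝ) ^ 2 := by ring
  · calc ∑ k ∈ low N ν, sym T k ^ 2 ≤ ∑ _k ∈ low N ν, (1 : ℝ) :=
          Finset.sum_le_sum fun k _ => h.sy k
      _ = ((low N ν).card : ℝ) := by simp
      _ ≤ 20 * ν * (N : ℝ) ^ 2 := H462.card_low hν0
  · calc ∑ k ∈ univ.filter (fun k : V N => k ≠ 0 ∧ ν ≤ EE k), sym T k ^ 2
        ≤ ∑ k ∈ univ.filter (fun k : V N => k ≠ 0 ∧ ν ≤ EE k),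
          64 / (q : ℝ) ^ 4 * (EE k ^ 2)⁻¹ := by
          refine Finset.sum_le_sum fun k hk => ?_
          have b1 := (Finset.mem_filter.1 hk).2.2
          exact h.dec hq (by linarith)
      _ = 64 / (q : ℝ) ^ 4 *
          ∑ k ∈ univ.filter (fun k : V N => k ≠ 0 ∧ ν ≤ EE k), (EE k ^ 2)⁻¹ := by
          rw [Finset.mul_sum]
      _ ≤ _ := mul_le_mul_of_nonneg_left (sum_high' hν0) (by positivity)

end

end Vale.Agent.P159.H264.Gq
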