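import Vale.Agent.P159.H264.Cl5
import Vale.Agent.P159.H340.Rsv

/-!
P159 / module CLASS (helper264), part 6: the smeared cut-off operator and the class event.
-/

set_option linter.unusedSectionVars false

namespace Vale.Agent.P159.H264.Gq

open Finset Matrix MeasureTheory
open Vale.Agent.P159.TM.Spec (V)
open Vale.Agent.P159.TM.SpecC (wT)
open Vale.Agent.P159.H37 (qf re)
open Vale.Agent.P159.H864 (TI sym lapM)
open Vale.Agent.P159.H817 (gr nrm sz)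
open Vale.Agent.P159.H340 (Rl)
open Vale.Agent.P159.H276 (nbZ Qa Qb Qc)
open Vale.Agent.P159.H883

noncomputable section

variable {N : ℕ} [NeZero N] {q : ℕ} {T : Matrix (V N) (V N) ℝ}

/-! ### the smeared cut -/

lemma sq_avg_le {I : Type*} [Fintype I] {w : I → ℝ} (h0 : ∀ v, 0 ≤ w v) (h1 : ∑ v, w v = 1)
    (a : I → ℝ) : (∑ v, w v * a v) ^ 2 ≤ ∑ v, w v * a v ^ 2 := by
  have h2 : ∀ m : ℝ, ∑ v, w v * (a v - m) ^ 2 =
      (∑ v, w v * a v ^ 2) - 2 * m * (∑ v, w v * a v) + m ^ 2 * ∑ v, w v := by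
    intro m
    rw [Finset.mul_sum, Finset.mul_sum, ← Finset.sum_sub_distrib, ← Finset.sum_add_distrib]
    exact Finset.sum_congr rfl fun v _ => by ring
  have h3 := h2 (∑ v, w v * a v)
  have h4 : 0 ≤ ∑ v, w v * (a v - ∑ v, w v * a v) ^ 2 :=
    Finset.sum_nonneg fun v _ => mul_nonneg (h0 v) (sq_nonneg _)
  rw [h1] at h3
  nlinarith

section smear

variable {I : Type} [Fintype I] {w : I → ℝ} {χ β : I → V N → ℝ}

/-- the smeared cut-off operator -/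
def Mw (w : I → ℝ) (χ β : I → V N → ℝ) (T : Matrix (V N) (V N) ℝ) : Matrix (V N) (V N) ℝ :=
  ∑ v, w v • (cutM (χ v) (β v) * T)

lemma sum_mulVec' {V' : Type} [Fintype V'] (A : I → Matrix V' V' ℝ) (F : V' → ℝ) (x : V') :
    ((∑ v, A v) *ᵥ F) x = ∑ v, (A v *ᵥ F) x := by
  have h1 : ∀ y, (∑ v, A v) x y * F y = ∑ v, A v x y * F y := by
    intro y
    rw [Matrix.sum_apply, Finset.sum_mul]
  calc ((∑ v, A v) *ᵥ F) x = ∑ y, (∑ v, A v) x y * F y := rfl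
    _ = ∑ y, ∑ v, A v x y * F y := Finset.sum_congr rfl fun y _ => h1 y
    _ = ∑ v, ∑ y, A v x y * F y := Finset.sum_comm
    _ = ∑ v, (A v *ᵥ F) x := rfl

lemma Mw_mulVec (F : V N → ℝ) (x : V N) : (Mw w χ β T *ᵥ F) x =
    ∑ v, w v * (χ v x * ((T *ᵥ F) x - ∑ y, β v y * (T *ᵥ F) y)) := by
  unfold Mw
  rw [sum_mulVec']
  refine Finset.sum_congr rfl fun v _ => ?_
  rw [Matrix.smul_mulVec, Pi.smul_apply, smul_eq_mul, ← Matrix.mulVec_mulVec, cutM_mulVec]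

lemma Mw_tc (hT : Smo N q T) (hβ1 : ∀ v, ∑ y, β v y = 1) : TC (Mw w χ β T) := by
  unfold TC
  funext x
  rw [Mw_mulVec, hT.tc]
  simp only [mul_one, hβ1, sub_self, mul_zero, Finset.sum_const_zero, Pi.zero_apply]

/-- **convexity of the trace** -/
theorem tr_Mw {S : Matrix (V N) (V N) ℝ} (hS : Sᵀ = S) (h0 : ∀ u, 0 ≤ qf S u)
    (hw0 : ∀ v, 0 ≤ w v) (hw1 : ∑ v, w v = 1) {c : ℝ}
    (hc : ∀ v, w v ≠ 0 → ((cutM (χ v) (β v) * T)ᵀ * S * (cutM (χ v) (β v) * T)).trace ≤ c) :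
    ((Mw w χ β T)ᵀ * S * Mw w χ β T).trace ≤ c := by
  obtain ⟨m, v, -, h2⟩ := psd_rep hS h0
  rw [h2]
  have h3 : ∀ i, ∑ x, ((Mw w χ β T)ᵀ *ᵥ v i) x ^ 2 ≤
      ∑ k, w k * ∑ x, ((cutM (χ k) (β k) * T)ᵀ *ᵥ v i) x ^ 2 := by
    intro i
    have h4 : ∀ x, ((Mw w χ β T)ᵀ *ᵥ v i) x =
        ∑ k, w k * ((cutM (χ k) (β k) * T)ᵀ *ᵥ v i) x := by
      intro x
      unfold Mw
      rw [Matrix.transpose_sum, sum_mulVec']
      refine Finset.sum_congr rfl fun k _ => ?_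
      rw [Matrix.transpose_smul, Matrix.smul_mulVec, Pi.smul_apply, smul_eq_mul]
    simp only [h4]
    refine (Finset.sum_le_sum fun x _ => sq_avg_le hw0 hw1 _).trans (le_of_eq ?_)
    rw [Finset.sum_comm]
    refine Finset.sum_congr rfl fun k _ => ?_
    rw [Finset.mul_sum]
  refine (Finset.sum_le_sum fun i _ => h3 i).trans ?_
  rw [Finset.sum_comm]
  have h5 : ∀ k, ∑ i, w k * ∑ x, ((cutM (χ k) (β k) * T)ᵀ *ᵥ v i) x ^ 2 ≤ w k * c := by
    intro k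
    rw [← Finset.mul_sum, ← h2]
    by_cases hk : w k = 0
    · rw [hk, zero_mul, zero_mul]
    · exact mul_le_mul_of_nonneg_left (hc k hk) (hw0 k)
  refine (Finset.sum_le_sum fun k _ => h5 k).trans (le_of_eq ?_)
  rw [← Finset.sum_mul, hw1, one_mul]

/-- the smeared cut of a field with small oscillation -/
lemma Mw_abs (hw0 : ∀ v, 0 ≤ w v) (hw1 : ∑ v, w v = 1) (hχ : ∀ v x, |χ v x| ≤ 1)
    (hβ0 : ∀ v y, 0 ≤ β v y) (hβ1 : ∀ v, ∑ y, β v y = 1) {D : Set (V N)}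
    (hχD : ∀ v, w v ≠ 0 → ∀ x, χ v x ≠ 0 → x ∈ D)
    (hβD : ∀ v, w v ≠ 0 → ∀ x, β v x ≠ 0 → x ∈ D) {F : V N → ℝ} {c B : ℝ} (hB : 0 ≤ B)
    (h : ∀ x ∈ D, |(T *ᵥ F) x - c| ≤ B) (x : V N) : |(Mw w χ β T *ᵥ F) x| ≤ 2 * B := by
  rw [Mw_mulVec]
  refine (Finset.abs_sum_le_sum_abs _ _).trans ?_
  have h1 : ∀ v, |w v * (χ v x * ((T *ᵥ F) x - ∑ y, β v y * (T *ᵥ F) y))| ≤ w v * (2 * B) := by
    intro v
    rw [abs_mul, abs_of_nonneg (hw0 v)]
    by_cases hv : w v = 0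
    · rw [hv, zero_mul, zero_mul]
    refine mul_le_mul_of_nonneg_left ?_ (hw0 v)
    by_cases hx : χ v x = 0
    · rw [hx, zero_mul, abs_zero]
      positivity
    have e1 : (T *ᵥ F) x - ∑ y, β v y * (T *ᵥ F) y =
        ((T *ᵥ F) x - c) - ∑ y, β v y * ((T *ᵥ F) y - c) := by
      have : ∑ y, β v y * ((T *ᵥ F) y - c) = (∑ y, β v y * (T *ᵥ F) y) - c := by
        simp only [mul_sub]
        rw [Finset.sum_sub_distrib, ← Finset.sum_mul, hβ1, one_mul]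
      rw [this]
      ring
    have h2 := h x (hχD v hv x hx)
    have h3 : |∑ y, β v y * ((T *ᵥ F) y - c)| ≤ B := by
      refine (Finset.abs_sum_le_sum_abs _ _).trans ?_
      have h4 : ∀ y, |β v y * ((T *ᵥ F) y - c)| ≤ β v y * B := by
        intro y
        rw [abs_mul, abs_of_nonneg (hβ0 v y)]
        by_cases hy : β v y = 0
        · rw [hy, zero_mul, zero_mul]
        · exact mul_le_mul_of_nonneg_left (h y (hβD v hv y hy)) (hβ0 v y)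
      refine (Finset.sum_le_sum fun y _ => h4 y).trans (le_of_eq ?_)
      rw [← Finset.sum_mul, hβ1, one_mul]
    rw [e1, abs_mul]
    have h5 : |((T *ᵥ F) x - c) - ∑ y, β v y * ((T *ᵥ F) y - c)| ≤ 2 * B := by
      refine (abs_sub _ _).trans ?_
      linarith
    calc |χ v x| * |((T *ᵥ F) x - c) - ∑ y, β v y * ((T *ᵥ F) y - c)|
        ≤ 1 * (2 * B) := mul_le_mul (hχ v x) h5 (abs_nonneg _) zero_le_one
      _ = 2 * B := one_mul _
  refine (Finset.sum_le_sum fun v _ => h1 v).trans (le_of_eq ?_)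
  rw [← Finset.sum_mul, hw1, one_mul]

lemma Mw_zero {D1 : Finset (V N)} (hD1 : ∀ v, w v ≠ 0 → ∀ x, χ v x ≠ 0 → x ∈ D1)
    (F : V N → ℝ) {x : V N} (hx : x ∉ D1) : (Mw w χ β T *ᵥ F) x = 0 := by
  rw [Mw_mulVec]
  refine Finset.sum_eq_zero fun v _ => ?_
  by_cases hv : w v = 0
  · rw [hv, zero_mul]
  · have : χ v x = 0 := by
      by_contra hc
      exact hx (hD1 v hv x hc)
    rw [this, zero_mul, mul_zero]

end smear

/-! ### bounded fields -/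

lemma sum_sq_supp {f : V N → ℝ} {M : ℝ} (hM : ∀ x, |f x| ≤ M) {D1 : Finset (V N)}
    (hD : ∀ x, x ∉ D1 → f x = 0) : ∑ x, f x ^ 2 ≤ M ^ 2 * (D1.card : ℝ) := by
  rw [← Finset.sum_subset (Finset.subset_univ D1) fun x _ hx => by rw [hD x hx]; ring]
  calc ∑ x ∈ D1, f x ^ 2 ≤ ∑ _x ∈ D1, M ^ 2 := Finset.sum_le_sum fun x _ => by
        rw [← sq_abs]
        exact pow_le_pow_left₀ (abs_nonneg _) (hM x) 2
    _ = M ^ 2 * (D1.card : ℝ) := by
        rw [Finset.sum_const, nsmul_eq_mul]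
        ring

lemma sum_sq_set {f : V N → ℝ} {M : ℝ} (hM : ∀ x, |f x| ≤ M) (D1 : Finset (V N)) :
    ∑ x ∈ D1, f x ^ 2 ≤ M ^ 2 * (D1.card : ℝ) := by
  calc ∑ x ∈ D1, f x ^ 2 ≤ ∑ _x ∈ D1, M ^ 2 := Finset.sum_le_sum fun x _ => by
        rw [← sq_abs]
        exact pow_le_pow_left₀ (abs_nonneg _) (hM x) 2
    _ = M ^ 2 * (D1.card : ℝ) := by
        rw [Finset.sum_const, nsmul_eq_mul]
        ring

lemma Sc_bdd {L : ℕ} (hN : N = 2 * L) {κ : ℝ} {m : ℕ} (hm : 1 ≤ m)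
    (hκ : (m : ℝ) ^ 2 ≤ 2 * κ) {f : V N → ℝ} {M : ℝ} (hM : ∀ x, |f x| ≤ M) (B : Finset (V N)) :
    qf (Sc κ B) f ≤ 2 * (4 * M / m) ^ 2 * (B.card : ℝ) := by
  have hκ0 : 0 ≤ κ := by nlinarith [sq_nonneg (m : ℝ)]
  have h1 : ∀ e, |gr (Rl κ *ᵥ f) e| ≤ 4 * M / m := fun e =>
    H340.rsv_grad (c := 0) hN hm hκ (H340.Rl_eqn hκ0 f) (fun x => by rw [sub_zero]; exact hM x) e
  rw [qf_Sc]
  calc ∑ x ∈ B, (gr (Rl κ *ᵥ f) (x, false) ^ 2 + gr (Rl κ *ᵥ f) (x, true) ^ 2)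
      ≤ ∑ _x ∈ B, ((4 * M / m) ^ 2 + (4 * M / m) ^ 2) := by
        refine Finset.sum_le_sum fun x _ => add_le_add ?_ ?_
        · rw [← sq_abs]
          exact pow_le_pow_left₀ (abs_nonneg _) (h1 _) 2
        · rw [← sq_abs]
          exact pow_le_pow_left₀ (abs_nonneg _) (h1 _) 2
    _ = 2 * (4 * M / m) ^ 2 * (B.card : ℝ) := by
        rw [Finset.sum_const, nsmul_eq_mul]
        ring

/-! ### quadratic forms with a fixed background -/

lemma qf_conj (S M : Matrix (V N) (V N) ℝ) (F : V N → ℝ) :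
    qf (Mᵀ * S * M) F = qf S (M *ᵥ F) := by
  have := H883.qf_QB S M F
  unfold H883.QB at this
  exact this

lemma symm_conj {S : Matrix (V N) (V N) ℝ} (hS : Sᵀ = S) (M : Matrix (V N) (V N) ℝ) :
    (Mᵀ * S * M)ᵀ = Mᵀ * S * M := by
  have := H883.QB_symm hS M
  unfold H883.QB at this
  exact this

lemma ck_conj {S M : Matrix (V N) (V N) ℝ} (hM : TC M) : CK (Mᵀ * S * M) := by
  intro u c
  rw [qf_conj, qf_conj]
  congr 1
  have e : (fun x => u x + c) = u + c • (fun _ => (1 : ℝ)) := by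
    funext x
    simp
  rw [e, Matrix.mulVec_add, Matrix.mulVec_smul, hM, smul_zero, add_zero]

end

end Vale.Agent.P159.H264.Gq
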