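import Vale.Agent.P159.H264.Cl6
import Vale.Agent.P159.H276.Uf6

/-!
P159 / module CLASS (helper264), part 7: the class event for the smeared decoration of the smoothed
field: the three numbers `Qa`, `Qb`, `Qc` of helper276 and the gradient bound of the potential.
-/

set_option linter.unusedSectionVars false

namespace Vale.Agent.P159.H264.Gq

open Finset Matrix MeasureTheory
open Vale.Agent.P159.TM.Spec (V)
open Vale.Agent.P159.TM.SpecC (wT)
open Vale.Agent.P159.H37 (qf re)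
open Vale.Agent.P159.H817 (gr nrm sz)
open Vale.Agent.P159.H340 (Rl ti_Rl)
open Vale.Agent.P159.H276 (nbZ Qa Qb Qc pot pot_eq pot_unique Qa_eq)
open Vale.Agent.P159.H883

noncomputable section

variable {N : ℕ} [NeZero N] {q L : ℕ} {T : Matrix (V N) (V N) ℝ} {b t κ : ℝ}
  {w : V N → ℝ} {χ β : V N → V N → ℝ}

/-- heights with small oscillation of the smoothed field -/
def HtB (T : Matrix (V N) (V N) ℝ) (B : ℝ) : Set (V N → ℤ) :=
  {h | ∃ c, ∀ x, |(T *ᵥ re h) x - c| ≤ B}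

/-- the data of a smeared cut-off -/
structure Smr (w : V N → ℝ) (χ β : V N → V N → ℝ) (q : ℕ) (ℓ s2 : ℝ) (D1 : Finset (V N))
    (D : Set (V N)) : Prop where
  w0 : ∀ v, 0 ≤ w v
  w1 : ∑ v, w v = 1
  c1 : ∀ v x, |χ v x| ≤ 1
  cl : ∀ v x y, sz (x - y) < q → |χ v x - χ v y| ≤ ℓ
  cs : ∀ v, w v ≠ 0 → ∀ x, χ v x ≠ 0 → x ∈ D1
  b0 : ∀ v y, 0 ≤ β v y
  b1 : ∀ v, ∑ y, β v y = 1
  b2 : ∀ v, ∑ y, β v y ^ 2 ≤ s2
  cD : ∀ v, w v ≠ 0 → ∀ x, χ v x ≠ 0 → x ∈ D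
  bD : ∀ v, w v ≠ 0 → ∀ x, β v x ≠ 0 → x ∈ D

/-- **one event for a finite family of forms**, with a fixed background -/
theorem ev_fam (hb : 0 < b) (ht : 0 < t) (x₀ : V N) (hT : Smo N q T) {ℓ s2 : ℝ}
    {D1 : Finset (V N)} {D : Set (V N)} (hS : Smr w χ β q ℓ s2 D1 D) {g : V N → ℝ} {cg B : ℝ}
    (hB : 0 ≤ B) (hg : ∀ x ∈ D, |(T *ᵥ g) x - cg| ≤ B) {I : Type} [Fintype I]
    {S : I → Matrix (V N) (V N) ℝ} {A T' : I → ℝ} (s1 : ∀ i, (S i)ᵀ = S i)
    (s0 : ∀ i u, 0 ≤ qf (S i) u) (hT' : ∀ i, 0 < T' i)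
    (htr : ∀ i, ((Mw w χ β T)ᵀ * S i * Mw w χ β T).trace ≤ T' i)
    (hd : ∀ i, ∀ f : V N → ℝ, (∀ x, |f x| ≤ 2 * B) → (∀ x, x ∉ D1 → f x = 0) →
      qf (S i) f < A i / 16) :
    ∃ G : Set (V N → ℝ), MeasurableSet G ∧
      (nuM (wT b N) (t • (1 : Matrix (V N) (V N) ℝ)) x₀).real Gᶜ ≤
        Pp (wT b N) x₀ (HtB T B)ᶜ + ∑ i, Real.exp (1 / 2 - t * A i / (64 * T' i)) ∧
      ∀ F ∈ G, ∀ i, qf (S i) (Mw w χ β T *ᵥ (F + g)) < A i := by
  classical
  have hmeas : MeasurableSet {F : V N → ℝ | ∃ i ∈ (univ : Finset I),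
      A i / 4 ≤ qf ((Mw w χ β T)ᵀ * S i * Mw w χ β T) F} := by
    have e : {F : V N → ℝ | ∃ i ∈ (univ : Finset I),
        A i / 4 ≤ qf ((Mw w χ β T)ᵀ * S i * Mw w χ β T) F} =
        ⋃ i ∈ (univ : Finset I), {F : V N → ℝ | A i / 4 ≤
          qf ((Mw w χ β T)ᵀ * S i * Mw w χ β T) F} := by
      ext F
      simp only [Set.mem_iUnion]
      constructor
      · rintro ⟨i, hi, h⟩
        exact ⟨i, hi, h⟩
      · rintro ⟨i, hi, h⟩
        exact ⟨i, hi, h⟩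
    rw [e]
    exact Finset.measurableSet_biUnion _ fun i _ => meas_set _ _
  have key := nu_fam (H963.gw_wT (N := N) hb.le) (bw_wT hb) ht (mf_scalar ht) x₀
    (univ : Finset I) (K := fun i => (Mw w χ β T)ᵀ * S i * Mw w χ β T) (A := fun i => A i / 4)
    (T := T') (fun i _ => symm_conj (s1 i) _)
    (fun i _ u => by rw [qf_conj]; exact s0 i _)
    (fun i _ => ck_conj (Mw_tc hT hS.b1)) (fun i _ => hT' i) (fun i _ => htr i)
    (Sh := (HtB T B)ᶜ) (fun h hh i _ => by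
      have h1 : h ∈ HtB T B := by
        by_contra hc
        exact hh hc
      obtain ⟨c, hc⟩ := h1
      rw [qf_conj]
      have h2 := hd i (Mw w χ β T *ᵥ re h)
        (Mw_abs hS.w0 hS.w1 hS.c1 hS.b0 hS.b1 hS.cD hS.bD hB fun x _ => hc x)
        (fun x hx => Mw_zero hS.cs _ hx)
      have h3 : A i / 16 = A i / 4 / 4 := by ring
      rw [← h3]
      exact h2)
  refine ⟨_, hmeas.compl, ?_, ?_⟩
  · rw [compl_compl]
    refine key.trans (add_le_add le_rfl (Finset.sum_le_sum fun i _ => Real.exp_le_exp.2 ?_))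
    refine le_of_eq ?_
    have := (hT' i).ne'
    field_simp
    ring
  · intro F hF i
    have h1 : qf ((Mw w χ β T)ᵀ * S i * Mw w χ β T) F < A i / 4 := by
      by_contra hc
      exact hF ⟨i, mem_univ _, not_lt.1 hc⟩
    rw [qf_conj] at h1
    have h2 := hd i (Mw w χ β T *ᵥ g)
      (Mw_abs hS.w0 hS.w1 hS.c1 hS.b0 hS.b1 hS.cD hS.bD hB hg)
      (fun x hx => Mw_zero hS.cs _ hx)
    have h3 := qf_par (s1 i) (s0 i) (Mw w χ β T *ᵥ F) (Mw w χ β T *ᵥ g)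
    rw [← Matrix.mulVec_add] at h3
    have h4 := s0 i (Mw w χ β T *ᵥ g)
    linarith

/-! ### the four forms -/

/-- the forms -/
def Sf (κ : ℝ) (Bb Bc : Finset (V N)) : Option (Option (Option (V N))) → Matrix (V N) (V N) ℝ
  | none => Rl κ
  | some none => IB Bb
  | some (some none) => Sc κ Bc
  | some (some (some x)) => Sc κ {x}

/-- numbers -/
def Nf (a b c d : ℝ) : Option (Option (Option (V N))) → ℝ
  | none => a
  | some none => b
  | some (some none) => c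
  | some (some (some _)) => d

lemma sum_opt (f : Option (Option (Option (V N))) → ℝ) :
    ∑ i, f i = f none + f (some none) + f (some (some none)) + ∑ x, f (some (some (some x))) := by
  rw [Fintype.sum_option, Fintype.sum_option, Fintype.sum_option]
  ring

lemma card_V : (Fintype.card (V N) : ℝ) = (N : ℝ) ^ 2 := by
  have : Fintype.card (V N) = N * N := by
    show Fintype.card (ZMod N × ZMod N) = N * N
    rw [Fintype.card_prod, ZMod.card]
  rw [this]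
  push_cast
  ring

lemma mem_nbZ (p : V N) (ρ : ℕ) : p ∈ nbZ {p} ρ := by
  unfold nbZ
  refine Finset.mem_filter.2 ⟨mem_univ _, p, mem_singleton_self p, ?_⟩
  rw [sub_self, H817.sz_zero]
  exact Nat.zero_le _

lemma nbZ_pos (p : V N) (ρ : ℕ) : (0 : ℝ) < ((nbZ {p} ρ).card : ℝ) := by
  exact_mod_cast Finset.card_pos.2 ⟨p, mem_nbZ p ρ⟩

lemma gT_nonneg (hκ : 0 ≤ κ) : 0 ≤ gT N T κ := avk_nonneg fun k =>
  mul_nonneg (sq_nonneg _) (inv_nonneg.2 (H340.one_add_pos hκ k).le)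

lemma g1_nonneg (hκ : 0 ≤ κ) : 0 ≤ g1 N κ := avk_nonneg fun k =>
  inv_nonneg.2 (H340.one_add_pos hκ k).le

lemma g2_nonneg : 0 ≤ g2 N T := avk_nonneg fun _ => sq_nonneg _

lemma sq_chi_le {ℓ s2 : ℝ} {D1 : Finset (V N)} {D : Set (V N)} (hS : Smr w χ β q ℓ s2 D1 D) {v : V N} (hv : w v ≠ 0) :
    ∑ x, χ v x ^ 2 ≤ (D1.card : ℝ) := by
  have h := sum_sq_supp (M := 1) (hS.c1 v) (D1 := D1) fun x hx => by
    by_contra hc
    exact hx (hS.cs v hv x hc)
  rwa [one_pow, one_mul] at h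

/-- traces of the four forms -/
lemma tr_four (hT : Smo N q T) (hκ : 0 < κ) {ℓ s2 : ℝ} {D1 : Finset (V N)} {D : Set (V N)}
    (hS : Smr w χ β q ℓ s2 D1 D) (Bb Bc : Finset (V N)) (i : Option (Option (Option (V N)))) :
    ((Mw w χ β T)ᵀ * Sf κ Bb Bc i * Mw w χ β T).trace ≤
      Nf (2 * (gT N T κ + s2) * (D1.card : ℝ)) (2 * (g2 N T + s2) * (Bb.card : ℝ))
        (κ⁻¹ * (4 * (Bc.card : ℝ) * (gT N T κ + ℓ ^ 2 * g1 N κ) + 2 * s2 * (D1.card : ℝ)))
        (κ⁻¹ * (4 * (gT N T κ + ℓ ^ 2 * g1 N κ) + 2 * s2 * (D1.card : ℝ))) i := by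
  have hg := gT_nonneg (N := N) (T := T) hκ.le
  have hg1 := g1_nonneg (N := N) hκ.le
  have hg2 := g2_nonneg (N := N) (T := T)
  have hκi : 0 ≤ κ⁻¹ := inv_nonneg.2 hκ.le
  have hsq : ∀ v, 0 ≤ ∑ y, β v y ^ 2 := fun v => Finset.sum_nonneg fun y _ => sq_nonneg _
  have hc : ∀ (B : Finset (V N)) (v : V N), w v ≠ 0 →
      ((cutM (χ v) (β v) * T)ᵀ * Sc κ B * (cutM (χ v) (β v) * T)).trace ≤
      κ⁻¹ * (4 * (B.card : ℝ) * (gT N T κ + ℓ ^ 2 * g1 N κ) + 2 * s2 * (D1.card : ℝ)) := by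
    intro B v hv
    refine (tr_c hT hκ (hS.c1 v) (hS.cl v) (β v) B).trans (mul_le_mul_of_nonneg_left ?_ hκi)
    refine add_le_add le_rfl ?_
    have h1 : (∑ y, β v y ^ 2) * ∑ x, χ v x ^ 2 ≤ s2 * (D1.card : ℝ) :=
      mul_le_mul (hS.b2 v) (sq_chi_le hS hv) (Finset.sum_nonneg fun x _ => sq_nonneg _)
        ((hsq v).trans (hS.b2 v))
    nlinarith
  rcases i with _ | _ | _ | x
  · refine tr_Mw (ti_Rl κ).transpose (H340.qf_Rl_nonneg hκ.le) hS.w0 hS.w1 fun v hv => ?_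
    refine (tr_a hT hκ.le (χ v) (β v)).trans ?_
    show 2 * (gT N T κ + ∑ y, β v y ^ 2) * ∑ x, χ v x ^ 2 ≤ 2 * (gT N T κ + s2) * (D1.card : ℝ)
    have h1 := hS.b2 v
    have h2 := sq_chi_le hS hv
    have h3 := hsq v
    exact mul_le_mul (by linarith) h2 (Finset.sum_nonneg fun x _ => sq_nonneg _) (by linarith)
  · refine tr_Mw (IB_symm Bb) (fun u => ?_) hS.w0 hS.w1 fun v hv => ?_
    · rw [qf_IB]
      exact Finset.sum_nonneg fun x _ => sq_nonneg _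
    · refine (tr_b hT Bb (hS.c1 v) (β v)).trans ?_
      show 2 * (g2 N T + ∑ y, β v y ^ 2) * (Bb.card : ℝ) ≤ 2 * (g2 N T + s2) * (Bb.card : ℝ)
      have h1 := hS.b2 v
      exact mul_le_mul_of_nonneg_right (by linarith) (Nat.cast_nonneg _)
  · exact tr_Mw (Sc_symm κ Bc) (Sc_nonneg κ Bc) hS.w0 hS.w1 (hc Bc)
  · refine tr_Mw (Sc_symm κ {x}) (Sc_nonneg κ {x}) hS.w0 hS.w1 fun v hv => ?_
    refine (hc {x} v hv).trans (le_of_eq ?_)
    show κ⁻¹ * (4 * (({x} : Finset (V N)).card : ℝ) * (gT N T κ + ℓ ^ 2 * g1 N κ) +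
      2 * s2 * (D1.card : ℝ)) = κ⁻¹ * (4 * (gT N T κ + ℓ ^ 2 * g1 N κ) + 2 * s2 * (D1.card : ℝ))
    rw [Finset.card_singleton]
    push_cast
    ring

/-- **THE CLASS EVENT** -/
theorem cls_ev (hb : 0 < b) (ht : 0 < t) (x₀ : V N) (hT : Smo N q T) (hN : N = 2 * L)
    (hκ : 0 < κ) {m : ℕ} (hm : 1 ≤ m) (hmκ : (m : ℝ) ^ 2 ≤ 2 * κ) {ℓ s2 : ℝ} (hs2 : 0 < s2)
    {D1 : Finset (V N)} (hD1 : D1.Nonempty) {D : Set (V N)} (hS : Smr w χ β q ℓ s2 D1 D)
    {g : V N → ℝ} {cg B : ℝ} (hB : 0 ≤ B) (hg : ∀ x ∈ D, |(T *ᵥ g) x - cg| ≤ B)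
    (p : V N) {r : ℕ} (hr : 0 < r) {Aa Ab Ac E Ed : ℝ}
    (a1 : 64 * t * B ^ 2 * (D1.card : ℝ) < Aa)
    (a2 : 128 * (E + 1 / 2) * (gT N T κ + s2) * (D1.card : ℝ) ≤ Aa)
    (b1 : 64 * t * B ^ 2 * ((nbZ {p} (2 * r)).card : ℝ) < Ab)
    (b2 : 128 * (E + 1 / 2) * (g2 N T + s2) * ((nbZ {p} (2 * r)).card : ℝ) ≤ Ab)
    (c1 : 2048 * (t * κ ^ 2) * B ^ 2 * ((nbZ {p} (2 * r + 1)).card : ℝ) / ((r : ℝ) * m) ^ 2 < Ac)
    (c2 : 64 * (E + 1 / 2) * κ * (4 * ((nbZ {p} (2 * r + 1)).card : ℝ) *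
      (gT N T κ + ℓ ^ 2 * g1 N κ) + 2 * s2 * (D1.card : ℝ)) / (r : ℝ) ^ 2 ≤ Ac)
    (d1 : 2048 * (t * κ) ^ 2 * B ^ 2 / (m : ℝ) ^ 2 < 1)
    (d2 : 64 * (Ed + 1 / 2) * (t * κ) * (4 * (gT N T κ + ℓ ^ 2 * g1 N κ) +
      2 * s2 * (D1.card : ℝ)) ≤ 1) :
    ∃ G : Set (V N → ℝ), MeasurableSet G ∧
      (nuM (wT b N) (t • (1 : Matrix (V N) (V N) ℝ)) x₀).real Gᶜ ≤
        Pp (wT b N) x₀ (HtB T B)ᶜ + 3 * Real.exp (-E) + (N : ℝ) ^ 2 * Real.exp (-Ed) ∧
      ∀ F ∈ G, Qa t κ (pot κ (Mw w χ β T *ᵥ (F + g))) ≤ Aa ∧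
        Qb t {p} r (Mw w χ β T *ᵥ (F + g)) ≤ Ab ∧
        Qc t κ {p} r (pot κ (Mw w χ β T *ᵥ (F + g))) ≤ Ac ∧
        ∀ e, |t * κ * gr (pot κ (Mw w χ β T *ᵥ (F + g))) e| ≤ 1 := by
  have hm0 : (0 : ℝ) < m := by exact_mod_cast hm
  have hr0 : (0 : ℝ) < r := by exact_mod_cast hr
  have hD0 : (0 : ℝ) < D1.card := by exact_mod_cast Finset.card_pos.2 hD1
  have hn := nbZ_pos p (2 * r)
  have hn1 := nbZ_pos p (2 * r + 1)
  have hg0 := gT_nonneg (N := N) (T := T) hκ.le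
  have hg1 := g1_nonneg (N := N) hκ.le
  have hg2 := g2_nonneg (N := N) (T := T)
  have hX : 0 ≤ gT N T κ + ℓ ^ 2 * g1 N κ := by positivity
  set Bb := nbZ {p} (2 * r) with hBb
  set Bc := nbZ {p} (2 * r + 1) with hBc
  set X := gT N T κ + ℓ ^ 2 * g1 N κ with hXd
  set Ta := 2 * (gT N T κ + s2) * (D1.card : ℝ) with hTa
  set Tb := 2 * (g2 N T + s2) * (Bb.card : ℝ) with hTb
  set Tc := κ⁻¹ * (4 * (Bc.card : ℝ) * X + 2 * s2 * (D1.card : ℝ)) with hTc
  set Td := κ⁻¹ * (4 * X + 2 * s2 * (D1.card : ℝ)) with hTd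
  have pa : 0 < Ta := by positivity
  have pb : 0 < Tb := by positivity
  have pc : 0 < Tc := by positivity
  have pd : 0 < Td := by positivity
  have key := ev_fam hb ht x₀ hT hS hB hg (S := Sf κ Bb Bc)
    (A := Nf (Aa / t) (Ab / t) (Ac * (r : ℝ) ^ 2 / (t * κ ^ 2)) (1 / (t * κ) ^ 2))
    (T' := Nf Ta Tb Tc Td) ?_ ?_ ?_ (tr_four hT hκ hS Bb Bc) ?_
  · obtain ⟨G, mG, hG, hF⟩ := key
    refine ⟨G, mG, hG.trans ?_, fun F hFG => ?_⟩
    · rw [sum_opt]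
      have e1 : Real.exp (1 / 2 - t * (Aa / t) / (64 * Ta)) ≤ Real.exp (-E) := by
        refine Real.exp_le_exp.2 ?_
        have h1 : E + 1 / 2 ≤ t * (Aa / t) / (64 * Ta) := by
          rw [mul_div_cancel₀ _ ht.ne', le_div_iff₀ (by positivity)]
          refine le_trans (le_of_eq ?_) a2
          rw [hTa]
          ring
        linarith
      have e2 : Real.exp (1 / 2 - t * (Ab / t) / (64 * Tb)) ≤ Real.exp (-E) := by
        refine Real.exp_le_exp.2 ?_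
        have h1 : E + 1 / 2 ≤ t * (Ab / t) / (64 * Tb) := by
          rw [mul_div_cancel₀ _ ht.ne', le_div_iff₀ (by positivity)]
          refine le_trans (le_of_eq ?_) b2
          rw [hTb]
          ring
        linarith
      have e3 : Real.exp (1 / 2 - t * (Ac * (r : ℝ) ^ 2 / (t * κ ^ 2)) / (64 * Tc)) ≤
          Real.exp (-E) := by
        refine Real.exp_le_exp.2 ?_
        have h1 : E + 1 / 2 ≤ t * (Ac * (r : ℝ) ^ 2 / (t * κ ^ 2)) / (64 * Tc) := by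
          rw [div_le_iff₀ (by positivity)] at c2
          have h2 : t * (Ac * (r : ℝ) ^ 2 / (t * κ ^ 2)) = Ac * (r : ℝ) ^ 2 / κ ^ 2 := by
            field_simp
          rw [h2, le_div_iff₀ (by positivity), le_div_iff₀ (by positivity)]
          refine le_trans (le_of_eq ?_) c2
          rw [hTc]
          field_simp
        linarith
      have e4 : Real.exp (1 / 2 - t * (1 / (t * κ) ^ 2) / (64 * Td)) ≤ Real.exp (-Ed) := by
        refine Real.exp_le_exp.2 ?_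
        have h1 : Ed + 1 / 2 ≤ t * (1 / (t * κ) ^ 2) / (64 * Td) := by
          have h2 : t * (1 / (t * κ) ^ 2) = 1 / (t * κ ^ 2) := by
            field_simp
          rw [h2, le_div_iff₀ (by positivity), le_div_iff₀ (by positivity)]
          refine le_trans (le_of_eq ?_) d2
          rw [hTd]
          field_simp
        linarith
      have e5 : ∑ x : V N, Real.exp (1 / 2 - t * (1 / (t * κ) ^ 2) / (64 * Td)) ≤
          (N : ℝ) ^ 2 * Real.exp (-Ed) := by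
        rw [Finset.sum_const, Finset.card_univ, nsmul_eq_mul, card_V]
        exact mul_le_mul_of_nonneg_left e4 (by positivity)
      have e6 : Real.exp (1 / 2 - t * (Aa / t) / (64 * Ta)) +
          Real.exp (1 / 2 - t * (Ab / t) / (64 * Tb)) +
          Real.exp (1 / 2 - t * (Ac * (r : ℝ) ^ 2 / (t * κ ^ 2)) / (64 * Tc)) ≤
          3 * Real.exp (-E) := by linarith
      have e7 := add_le_add e6 e5
      have e8 := add_le_add (le_refl (Pp (wT b N) x₀ (HtB T B)ᶜ)) e7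
      refine e8.trans (le_of_eq ?_)
      ring
    · set f := Mw w χ β T *ᵥ (F + g) with hf
      have hpot : pot κ f = Rl κ *ᵥ f := (pot_unique hκ.le (H340.Rl_eqn hκ.le f)).symm
      have f1 : qf (Rl κ) f < Aa / t := hF F hFG none
      have f2 : qf (IB Bb) f < Ab / t := hF F hFG (some none)
      have f3 : qf (Sc κ Bc) f < Ac * (r : ℝ) ^ 2 / (t * κ ^ 2) := hF F hFG (some (some none))
      have f4 : ∀ x, qf (Sc κ {x}) f < 1 / (t * κ) ^ 2 := fun x => hF F hFG (some (some (some x)))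
      refine ⟨?_, ?_, ?_, ?_⟩
      · rw [Qa_eq (pot_eq hκ.le f), hpot]
        have h1 : ∑ x, f x * (Rl κ *ᵥ f) x = qf (Rl κ) f := by
          rw [H37.qf_eq]
          rfl
        rw [h1]
        rw [lt_div_iff₀ ht] at f1
        linarith
      · unfold Qb
        rw [qf_IB] at f2
        rw [lt_div_iff₀ ht] at f2
        linarith
      · unfold Qc
        rw [hpot, Finset.card_singleton]
        rw [qf_Sc] at f3
        rw [lt_div_iff₀ (by positivity)] at f3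
        push_cast
        have h1 : (1 / (r : ℝ)) ^ 2 * (t * κ ^ 2) *
            ∑ x ∈ Bc, (gr (Rl κ *ᵥ f) (x, false) ^ 2 + gr (Rl κ *ᵥ f) (x, true) ^ 2) =
            ((∑ x ∈ Bc, (gr (Rl κ *ᵥ f) (x, false) ^ 2 + gr (Rl κ *ᵥ f) (x, true) ^ 2)) *
              (t * κ ^ 2)) / (r : ℝ) ^ 2 := by
          field_simp
        rw [h1, div_le_iff₀ (by positivity)]
        exact f3.le
      · rintro ⟨x, e⟩
        rw [hpot]
        have h1 := f4 x
        rw [qf_Sc, Finset.sum_singleton, lt_div_iff₀ (by positivity)] at h1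
        have h2 : gr (Rl κ *ᵥ f) (x, e) ^ 2 ≤
            gr (Rl κ *ᵥ f) (x, false) ^ 2 + gr (Rl κ *ᵥ f) (x, true) ^ 2 := by
          cases e
          · exact le_add_of_nonneg_right (sq_nonneg _)
          · exact le_add_of_nonneg_left (sq_nonneg _)
        have h3 : (t * κ * gr (Rl κ *ᵥ f) (x, e)) ^ 2 ≤ 1 := by
          have h4 := mul_le_mul_of_nonneg_right h2 (sq_nonneg (t * κ))
          rw [mul_pow, mul_comm]
          linarith
        exact (sq_le_one_iff_abs_le_one _).1 h3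
  · rintro (_ | _ | _ | x)
    · exact (ti_Rl κ).transpose
    · exact IB_symm Bb
    · exact Sc_symm κ Bc
    · exact Sc_symm κ {x}
  · rintro (_ | _ | _ | x) u
    · exact H340.qf_Rl_nonneg hκ.le u
    · show 0 ≤ qf (IB Bb) u
      rw [qf_IB]
      exact Finset.sum_nonneg fun x _ => sq_nonneg _
    · exact Sc_nonneg κ Bc u
    · exact Sc_nonneg κ {x} u
  · rintro (_ | _ | _ | x)
    · exact pa
    · exact pb
    · exact pc
    · exact pd
  · rintro (_ | _ | _ | x) f hf hf0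
    · show qf (Rl κ) f < Aa / t / 16
      refine lt_of_le_of_lt ((H340.qf_Rl_le hκ.le f).trans (sum_sq_supp hf hf0)) ?_
      rw [div_div, lt_div_iff₀ (by positivity)]
      linarith
    · show qf (IB Bb) f < Ab / t / 16
      rw [qf_IB]
      refine lt_of_le_of_lt (sum_sq_set hf Bb) ?_
      rw [div_div, lt_div_iff₀ (by positivity)]
      linarith
    · show qf (Sc κ Bc) f < Ac * (r : ℝ) ^ 2 / (t * κ ^ 2) / 16
      refine lt_of_le_of_lt (Sc_bdd hN hm hmκ hf Bc) ?_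
      rw [div_lt_iff₀ (by positivity)] at c1
      rw [div_div, lt_div_iff₀ (by positivity)]
      have e1 : 2 * (4 * (2 * B) / m) ^ 2 * (Bc.card : ℝ) * (t * κ ^ 2 * 16) =
          (2048 * (t * κ ^ 2) * B ^ 2 * (Bc.card : ℝ)) / (m : ℝ) ^ 2 := by
        field_simp
        ring
      rw [e1, div_lt_iff₀ (by positivity)]
      refine c1.trans_le (le_of_eq ?_)
      ring
    · show qf (Sc κ {x}) f < 1 / (t * κ) ^ 2 / 16
      refine lt_of_le_of_lt (Sc_bdd hN hm hmκ hf {x}) ?_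
      rw [Finset.card_singleton, div_div, lt_div_iff₀ (by positivity)]
      refine lt_of_le_of_lt (le_of_eq ?_) d1
      push_cast
      field_simp
      ring

end

end Vale.Agent.P159.H264.Gq
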