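import Vale.Agent.P159.H264.Cl7
import Vale.Agent.P159.H340.Ed3b
import Vale.Agent.P159.H663.Drl2

/-!
P159 / module CLASS (helper264), part 8: the oscillation of the smoothed heights (`Pp` of `HtB`),
without a union over the sites.
-/

set_option linter.unusedSectionVars false

namespace Vale.Agent.P159.H264.Gq

open Finset Matrix MeasureTheory
open Vale.Agent.P159.TM.Spec (V)
open Vale.Agent.P159.TM.SpecC (wT)
open Vale.Agent.P159.TM.H104 (nh)
open Vale.Agent.P159.TM.H129 (ip)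
open Vale.Agent.P159.H37 (qf re)
open Vale.Agent.P159.H963 (pin)
open Vale.Agent.P159.H770 (Ed eS eT)
open Vale.Agent.P159.H817 (gr nrm sz)
open Vale.Agent.P159.H276 (bxT)
open Vale.Agent.P159.H340 (jB dB dr jB_gr jB_le jB_nonneg sum_jB_sq bxT_two)
open Vale.Agent.P159.H663.Dr (tT bxT_full)
open Vale.Agent.P159.H883

noncomputable section

variable {N : ℕ} [NeZero N] {q l k : ℕ} {b s : ℝ}

/-! ### flows between the means over boxes with a common corner -/

/-- box of side `l` against box of side `2 l` -/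
def jS (N l : ℕ) [NeZero N] (a : V N) (e : V N × Bool) : ℝ :=
  -((2 * jB N l a false e + jB N l a true e + jB N l (a + l • dr N false) true e) / 4)

lemma jS_gr (l : ℕ) (a : V N) (u : V N → ℝ) :
    ∑ e, jS N l a e * gr u e = bxT N l u a - bxT N (2 * l) u a := by
  have h1 := jB_gr l a false u
  have h2 := jB_gr l a true u
  have h3 := jB_gr l (a + l • dr N false) true u
  have h4 : ∑ e, jS N l a e * gr u e = -((2 * ∑ e, jB N l a false e * gr u e +
      ∑ e, jB N l a true e * gr u e + ∑ e, jB N l (a + l • dr N false) true e * gr u e) / 4) := by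
    rw [Finset.mul_sum, ← Finset.sum_add_distrib, ← Finset.sum_add_distrib, Finset.sum_div,
      ← Finset.sum_neg_distrib]
    refine Finset.sum_congr rfl fun e _ => ?_
    unfold jS
    ring
  rw [h4, h1, h2, h3, bxT_two]
  unfold dB
  ring

lemma jS_sq (hl : 1 ≤ l) (hN : l ≤ N) (a : V N) : ∑ e, jS N l a e ^ 2 ≤ 1 := by
  have h1 := sum_jB_sq hl hN a false
  have h2 := sum_jB_sq hl hN a true
  have h3 := sum_jB_sq hl hN (a + l • dr N false) true
  have h4 : ∑ e, jS N l a e ^ 2 ≤ ∑ e, (jB N l a false e ^ 2 / 2 + jB N l a true e ^ 2 / 4 +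
      jB N l (a + l • dr N false) true e ^ 2 / 4) := by
    refine Finset.sum_le_sum fun e _ => ?_
    unfold jS
    nlinarith [sq_nonneg (jB N l a false e - jB N l a true e),
      sq_nonneg (jB N l a false e - jB N l (a + l • dr N false) true e),
      sq_nonneg (jB N l a true e - jB N l (a + l • dr N false) true e)]
  rw [Finset.sum_add_distrib, Finset.sum_add_distrib, ← Finset.sum_div, ← Finset.sum_div,
    ← Finset.sum_div] at h4
  linarith

lemma jS_abs (hl : 1 ≤ l) (hN : l ≤ N) (a : V N) (e : V N × Bool) : |jS N l a e| ≤ 1 / l := by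
  have h1 := jB_le hl hN a false e
  have h2 := jB_le hl hN a true e
  have h3 := jB_le hl hN (a + l • dr N false) true e
  have g1 := jB_nonneg l a false e
  have g2 := jB_nonneg l a true e
  have g3 := jB_nonneg l (a + l • dr N false) true e
  unfold jS
  rw [abs_neg, abs_of_nonneg (by positivity)]
  linarith

/-- the dyadic flow: box of side `q` against box of side `q 2^k` -/
def jC (N q k : ℕ) [NeZero N] (a : V N) (e : V N × Bool) : ℝ :=
  ∑ i ∈ range k, jS N (q * 2 ^ i) a e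

lemma jC_gr (q k : ℕ) (a : V N) (u : V N → ℝ) :
    ∑ e, jC N q k a e * gr u e = bxT N q u a - bxT N (q * 2 ^ k) u a := by
  have h1 : ∑ e, jC N q k a e * gr u e = ∑ i ∈ range k, ∑ e, jS N (q * 2 ^ i) a e * gr u e := by
    rw [Finset.sum_comm]
    refine Finset.sum_congr rfl fun e _ => ?_
    unfold jC
    rw [Finset.sum_mul]
  rw [h1]
  have h2 : ∀ i, ∑ e, jS N (q * 2 ^ i) a e * gr u e =
      bxT N (q * 2 ^ i) u a - bxT N (q * 2 ^ (i + 1)) u a := by
    intro i
    rw [jS_gr]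
    have : 2 * (q * 2 ^ i) = q * 2 ^ (i + 1) := by ring
    rw [this]
  simp only [h2]
  rw [Finset.sum_range_sub' (fun i => bxT N (q * 2 ^ i) u a), pow_zero, mul_one]

lemma pow_le' (hN : q * 2 ^ k ≤ N) {i : ℕ} (hi : i < k) : q * 2 ^ i ≤ N :=
  (Nat.mul_le_mul_left q (Nat.pow_le_pow_right (by norm_num) hi.le)).trans hN

lemma jC_sq (hq : 1 ≤ q) (hN : q * 2 ^ k ≤ N) (a : V N) :
    ∑ e, jC N q k a e ^ 2 ≤ (k : ℝ) ^ 2 := by
  have h1 : ∀ e, jC N q k a e ^ 2 ≤ (k : ℝ) * ∑ i ∈ range k, jS N (q * 2 ^ i) a e ^ 2 := by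
    intro e
    have := sq_sum_le_card_mul_sum_sq (s := range k) (f := fun i => jS N (q * 2 ^ i) a e)
    rw [card_range] at this
    exact this
  refine (Finset.sum_le_sum fun e _ => h1 e).trans ?_
  rw [← Finset.mul_sum, Finset.sum_comm, pow_two]
  refine mul_le_mul_of_nonneg_left ?_ (Nat.cast_nonneg k)
  calc ∑ i ∈ range k, ∑ e, jS N (q * 2 ^ i) a e ^ 2 ≤ ∑ _i ∈ range k, (1 : ℝ) := by
        refine Finset.sum_le_sum fun i hi => jS_sq ?_ (pow_le' hN (mem_range.1 hi)) a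
        exact Nat.one_le_iff_ne_zero.2 (by positivity)
    _ = k := by simp

lemma jC_abs (hq : 1 ≤ q) (hN : q * 2 ^ k ≤ N) (a : V N) (e : V N × Bool) :
    |jC N q k a e| ≤ 2 / q := by
  have hq0 : (0 : ℝ) < q := by exact_mod_cast hq
  unfold jC
  refine (Finset.abs_sum_le_sum_abs _ _).trans ?_
  have h1 : ∀ i ∈ range k, |jS N (q * 2 ^ i) a e| ≤ 1 / q * (1 / 2) ^ i := by
    intro i hi
    have h2 := jS_abs (l := q * 2 ^ i) (Nat.one_le_iff_ne_zero.2 (by positivity))
      (pow_le' hN (mem_range.1 hi)) a e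
    refine h2.trans (le_of_eq ?_)
    push_cast
    rw [_root_.one_div_pow, one_div_mul_one_div]
  refine (Finset.sum_le_sum h1).trans ?_
  rw [← Finset.mul_sum]
  have h3 : ∑ i ∈ range k, (1 / 2 : ℝ) ^ i ≤ 2 := by
    have h4 := geom_sum_eq (x := (1 / 2 : ℝ)) (by norm_num) k
    rw [h4]
    have h5 : (0 : ℝ) < (1 / 2) ^ k := by positivity
    rw [div_le_iff_of_neg (by norm_num)]
    linarith
  calc 1 / (q : ℝ) * ∑ i ∈ range k, (1 / 2 : ℝ) ^ i ≤ 1 / q * 2 :=
        mul_le_mul_of_nonneg_left h3 (by positivity)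
    _ = 2 / q := by ring

/-! ### exponential moments of the heights -/

lemma gr_re (h : V N → ℤ) (e : V N × Bool) : gr (re h) e = ((dhT N h e : ℤ) : ℝ) := by
  obtain ⟨x, c⟩ := e
  rw [dhT_apply]
  push_cast
  cases c <;> rfl

lemma ip_gr (j : V N × Bool → ℝ) (h : V N → ℤ) : ip j (dhT N h) = ∑ e, j e * gr (re h) e := by
  unfold TM.H129.ip
  exact Finset.sum_congr rfl fun e _ => by rw [gr_re]

lemma summ_ip (hb : 0 < b) (x₀ : V N) (j : V N × Bool → ℝ) :
    Summable fun h : V N → ℤ => pin (wT b N) x₀ h * Real.exp (ip j (dhT N h)) := by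
  have hw := bw_wT (N := N) hb
  refine Summable.of_nonneg_of_le (fun h => mul_nonneg (H963.pin_nonneg hw.nn x₀ h)
    (Real.exp_pos _).le) (fun h => ?_) ((hw.em0 x₀).sum (2 * ∑ e, |j e|))
  refine mul_le_mul_of_nonneg_left (Real.exp_le_exp.2 ?_) (H963.pin_nonneg hw.nn x₀ h)
  unfold TM.H129.ip
  rw [Finset.mul_sum, Finset.sum_mul]
  refine Finset.sum_le_sum fun e _ => ?_
  have h1 : ∀ x : V N, |((h x : ℤ) : ℝ)| ≤ nh h := fun x =>
    Finset.single_le_sum (f := fun x : V N => |((h x : ℤ) : ℝ)|) (fun y _ => abs_nonneg _)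
      (mem_univ x)
  have h2 : |((dhT N h e : ℤ) : ℝ)| ≤ 2 * nh h := by
    rw [dhT_apply]
    push_cast
    refine (abs_sub _ _).trans ?_
    have := h1 (eT N e)
    have := h1 (eS N e)
    linarith
  calc j e * ((dhT N h e : ℤ) : ℝ) ≤ |j e| * |((dhT N h e : ℤ) : ℝ)| := by
        rw [← abs_mul]
        exact le_abs_self _
    _ ≤ |j e| * (2 * nh h) := mul_le_mul_of_nonneg_left h2 (abs_nonneg _)
    _ = 2 * |j e| * nh h := by ring

/-- exponential moment with a small flow -/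
lemma mgf_small (hb : 0 < b) (x₀ : V N) {j : V N × Bool → ℝ} (h1 : ∀ e, |j e| ≤ 1) {v : ℝ}
    (h2 : ∑ e, j e ^ 2 ≤ v) :
    ∑' h, pin (wT b N) x₀ h * Real.exp (ip j (dhT N h)) ≤
      Real.exp (b * v) * Zp (wT b N) x₀ := by
  have h3 := pin_mgf hb.le x₀ j
  have h4 : ∑ e, (Real.cosh (j e) - 1) ≤ v := by
    refine (Finset.sum_le_sum fun e _ => ?_).trans h2
    exact TM.H77.cosh_sub_one_le (h1 e)
  refine h3.trans ?_
  have hZ := (bw_wT (N := N) hb).Zp_pos x₀
  exact mul_le_mul_of_nonneg_right (Real.exp_le_exp.2 (mul_le_mul_of_nonneg_left h4 hb.le)) hZ.le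

/-! ### Jensen, no union over the sites -/

lemma inj_box (hqN : q ≤ N) (x : V N) : Set.InjOn
    (fun p : ℕ × ℕ => x - (((p.1 : ℕ) : ZMod N), ((p.2 : ℕ) : ZMod N)))
    (range q ×ˢ range q : Finset (ℕ × ℕ)) := by
  rintro ⟨i, j⟩ h1 ⟨i', j'⟩ h2 h
  rw [Finset.mem_coe, Finset.mem_product, mem_range, mem_range] at h1 h2
  simp only [sub_right_inj, Prod.mk.injEq] at h
  have e1 : ∀ {m m' : ℕ}, m < q → m' < q → (m : ZMod N) = m' → m = m' := by
    intro m m' hm hm' hmm
    have := congrArg ZMod.val hmm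
    rwa [ZMod.val_cast_of_lt (hm.trans_le hqN), ZMod.val_cast_of_lt (hm'.trans_le hqN)] at this
  rw [Prod.mk.injEq]
  exact ⟨e1 h1.1 h2.1 h.1, e1 h1.2 h2.2 h.2⟩

/-- **the tent average is controlled by all the box averages at once** -/
theorem tT_exp (hq : 1 ≤ q) (hqN : q ≤ N) (hs : 0 ≤ s) (u : V N → ℝ) (c : ℝ) (x : V N) :
    Real.exp (s * |tT N q u x - c|) ≤
      ((q : ℝ) ^ 2)⁻¹ * ∑ a : V N, Real.exp (s * |bxT N q u a - c|) := by
  have hq0 : (0 : ℝ) < q := by exact_mod_cast hq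
  set P : Finset (ℕ × ℕ) := range q ×ˢ range q with hP
  set A : ℕ × ℕ → V N := fun p => x - (((p.1 : ℕ) : ZMod N), ((p.2 : ℕ) : ZMod N)) with hA
  have hw : ∑ _p ∈ P, ((q : ℝ) ^ 2)⁻¹ = 1 := by
    rw [Finset.sum_const, hP, card_product, card_range, nsmul_eq_mul]
    push_cast
    field_simp
  have h1 : tT N q u x - c = ∑ p ∈ P, ((q : ℝ) ^ 2)⁻¹ * (bxT N q u (A p) - c) := by
    have e1 : ∑ p ∈ P, ((q : ℝ) ^ 2)⁻¹ * (bxT N q u (A p) - c) =
        ((q : ℝ) ^ 2)⁻¹ * ∑ p ∈ P, bxT N q u (A p) - (∑ _p ∈ P, ((q : ℝ) ^ 2)⁻¹) * c := by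
      rw [Finset.mul_sum, Finset.sum_mul, ← Finset.sum_sub_distrib]
      exact Finset.sum_congr rfl fun p _ => by ring
    rw [e1, hw, one_mul, hP, Finset.sum_product]
    rfl
  have h2 : s * |tT N q u x - c| ≤ ∑ p ∈ P, ((q : ℝ) ^ 2)⁻¹ • (s * |bxT N q u (A p) - c|) := by
    rw [h1]
    refine (mul_le_mul_of_nonneg_left (Finset.abs_sum_le_sum_abs _ _) hs).trans (le_of_eq ?_)
    rw [Finset.mul_sum]
    refine Finset.sum_congr rfl fun p _ => ?_
    rw [abs_mul, abs_of_pos (by positivity : 0 < ((q : ℝ) ^ 2)⁻¹), smul_eq_mul]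
    ring
  have h3 := convexOn_exp.map_sum_le (t := P) (w := fun _ => ((q : ℝ) ^ 2)⁻¹)
    (p := fun p => s * |bxT N q u (A p) - c|) (fun _ _ => by positivity) hw
    (fun _ _ => Set.mem_univ _)
  refine (Real.exp_le_exp.2 h2).trans (h3.trans ?_)
  simp only [smul_eq_mul]
  rw [← Finset.mul_sum]
  refine mul_le_mul_of_nonneg_left ?_ (by positivity)
  rw [← Finset.sum_image (f := fun a => Real.exp (s * |bxT N q u a - c|)) (inj_box hqN x)]
  exact Finset.sum_le_sum_of_subset_of_nonneg (Finset.subset_univ _) fun _ _ _ =>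
    (Real.exp_pos _).le

/-- **OSCILLATION OF THE SMOOTHED HEIGHTS** -/
theorem ht_prob (hb : 0 < b) (x₀ : V N) (hN : N = q * 2 ^ k) (hq : 1 ≤ q) {B : ℝ} (hs : 0 ≤ s)
    (hs2 : 2 * s ≤ q) :
    Pp (wT b N) x₀ (HtB (tM N q) B)ᶜ ≤
      2 * (4 : ℝ) ^ k * Real.exp (b * (s ^ 2 * (k : ℝ) ^ 2) - s * B) := by
  have hw := bw_wT (N := N) hb
  have hZ := hw.Zp_pos x₀
  have hq0 : (0 : ℝ) < q := by exact_mod_cast hq
  have hqN : q ≤ N := by
    rw [hN]
    exact Nat.le_mul_of_pos_right q (by positivity)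
  have hN0 : (N : ℝ) ^ 2 = (q : ℝ) ^ 2 * 4 ^ k := by
    have : (N : ℝ) = q * 2 ^ k := by
      have h0 := congrArg (fun n : ℕ => (n : ℝ)) hN
      push_cast at h0
      exact h0
    rw [this, mul_pow, ← pow_mul, mul_comm k 2, pow_mul]
    norm_num
  -- the flows
  have hj : ∀ (a : V N) (σ : ℝ), |σ| = s →
      ∑' h, pin (wT b N) x₀ h * Real.exp (σ * (bxT N q (re h) a - bxT N N (re h) 0)) ≤
        Real.exp (b * (s ^ 2 * (k : ℝ) ^ 2)) * Zp (wT b N) x₀ ∧
      Summable fun h : V N → ℤ => pin (wT b N) x₀ h *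
        Real.exp (σ * (bxT N q (re h) a - bxT N N (re h) 0)) := by
    intro a σ hσ
    have e1 : ∀ h : V N → ℤ, σ * (bxT N q (re h) a - bxT N N (re h) 0) =
        ip (fun e => σ * jC N q k a e) (dhT N h) := by
      intro h
      rw [ip_gr]
      have e2 := jC_gr (N := N) q k a (re h)
      rw [← hN] at e2
      have e3 : bxT N N (re h) a = bxT N N (re h) 0 := by rw [bxT_full, bxT_full]
      rw [e3] at e2
      rw [← e2, Finset.mul_sum]
      exact Finset.sum_congr rfl fun e _ => by ring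
    simp only [e1]
    refine ⟨mgf_small hb x₀ (fun e => ?_) ?_, summ_ip hb x₀ _⟩
    · rw [abs_mul, hσ]
      have h1 := jC_abs hq hN.ge a e
      calc s * |jC N q k a e| ≤ s * (2 / q) := mul_le_mul_of_nonneg_left h1 hs
        _ = 2 * s / q := by ring
        _ ≤ 1 := by
          rw [div_le_one hq0]
          exact hs2
    · have h1 := jC_sq hq hN.ge a
      have h2 : ∑ e, (σ * jC N q k a e) ^ 2 = σ ^ 2 * ∑ e, jC N q k a e ^ 2 := by
        rw [Finset.mul_sum]
        exact Finset.sum_congr rfl fun e _ => by ring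
      rw [h2, ← sq_abs σ, hσ]
      exact mul_le_mul_of_nonneg_left h1 (sq_nonneg s)
  -- pointwise bound of the indicator
  have hpt : ∀ h : V N → ℤ, pin (wT b N) x₀ h * ind (HtB (tM N q) B)ᶜ h ≤
      Real.exp (-(s * B)) * ((q : ℝ) ^ 2)⁻¹ * ∑ a : V N,
        (pin (wT b N) x₀ h * Real.exp (s * (bxT N q (re h) a - bxT N N (re h) 0)) +
          pin (wT b N) x₀ h * Real.exp (-s * (bxT N q (re h) a - bxT N N (re h) 0))) := by
    intro h
    have hp := H963.pin_nonneg hw.nn x₀ h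
    by_cases hh : h ∈ (HtB (tM N q) B)ᶜ
    · rw [ind_mem hh, mul_one]
      have h1 : ∃ x, B < |tT N q (re h) x - bxT N N (re h) 0| := by
        by_contra hc
        refine hh ⟨bxT N N (re h) 0, fun x => ?_⟩
        rw [tM_mulVec]
        exact not_lt.1 fun h2 => hc ⟨x, h2⟩
      obtain ⟨x, hx⟩ := h1
      have h2 := tT_exp hq hqN hs (re h) (bxT N N (re h) 0) x
      have h3 : Real.exp (s * B) ≤ Real.exp (s * |tT N q (re h) x - bxT N N (re h) 0|) :=
        Real.exp_le_exp.2 (mul_le_mul_of_nonneg_left hx.le hs)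
      have h4 : ∀ a : V N, Real.exp (s * |bxT N q (re h) a - bxT N N (re h) 0|) ≤
          Real.exp (s * (bxT N q (re h) a - bxT N N (re h) 0)) +
            Real.exp (-s * (bxT N q (re h) a - bxT N N (re h) 0)) := by
        intro a
        rcases abs_cases (bxT N q (re h) a - bxT N N (re h) 0) with ⟨h5, -⟩ | ⟨h5, -⟩
        · rw [h5]
          exact le_add_of_nonneg_right (Real.exp_pos _).le
        · rw [h5]
          have e : s * -(bxT N q (re h) a - bxT N N (re h) 0) =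
              -s * (bxT N q (re h) a - bxT N N (re h) 0) := by ring
          rw [e]
          exact le_add_of_nonneg_left (Real.exp_pos _).le
      have h5 := (h3.trans h2).trans (mul_le_mul_of_nonneg_left
        (Finset.sum_le_sum fun a (_ : a ∈ univ) => h4 a) (by positivity : 0 ≤ ((q : ℝ) ^ 2)⁻¹))
      have h6 : 1 ≤ Real.exp (-(s * B)) * (((q : ℝ) ^ 2)⁻¹ * ∑ a : V N,
          (Real.exp (s * (bxT N q (re h) a - bxT N N (re h) 0)) +
            Real.exp (-s * (bxT N q (re h) a - bxT N N (re h) 0)))) := by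
        have h7 := mul_le_mul_of_nonneg_left h5 (Real.exp_pos (-(s * B))).le
        rw [← Real.exp_add, neg_add_cancel, Real.exp_zero] at h7
        exact h7
      calc pin (wT b N) x₀ h ≤ pin (wT b N) x₀ h * (Real.exp (-(s * B)) *
            (((q : ℝ) ^ 2)⁻¹ * ∑ a : V N,
            (Real.exp (s * (bxT N q (re h) a - bxT N N (re h) 0)) +
            Real.exp (-s * (bxT N q (re h) a - bxT N N (re h) 0))))) :=
            le_mul_of_one_le_right hp h6
        _ = _ := by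
          rw [← mul_assoc (Real.exp (-(s * B))), mul_left_comm, Finset.mul_sum]
          congr 1
          exact Finset.sum_congr rfl fun a _ => by ring
    · rw [ind_notMem hh, mul_zero]
      exact mul_nonneg (by positivity) (Finset.sum_nonneg fun a _ => by positivity)
  have hsm : Summable fun h : V N → ℤ => Real.exp (-(s * B)) * ((q : ℝ) ^ 2)⁻¹ * ∑ a : V N,
        (pin (wT b N) x₀ h * Real.exp (s * (bxT N q (re h) a - bxT N N (re h) 0)) +
          pin (wT b N) x₀ h * Real.exp (-s * (bxT N q (re h) a - bxT N N (re h) 0))) :=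
    (summable_sum fun a _ => ((hj a s (abs_of_nonneg hs)).2.add
      (hj a (-s) (by rw [abs_neg, abs_of_nonneg hs])).2)).mul_left _
  unfold Pp
  rw [div_le_iff₀ hZ]
  refine (Summable.tsum_le_tsum hpt (summ_ind hw x₀ _) hsm).trans ?_
  rw [tsum_mul_left, Summable.tsum_finsetSum fun a _ => (hj a s (abs_of_nonneg hs)).2.add
      (hj a (-s) (by rw [abs_neg, abs_of_nonneg hs])).2]
  have h8 : ∀ a : V N, ∑' h, (pin (wT b N) x₀ h *
      Real.exp (s * (bxT N q (re h) a - bxT N N (re h) 0)) +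
      pin (wT b N) x₀ h * Real.exp (-s * (bxT N q (re h) a - bxT N N (re h) 0))) ≤
      2 * (Real.exp (b * (s ^ 2 * (k : ℝ) ^ 2)) * Zp (wT b N) x₀) := by
    intro a
    have h9 := hj a s (abs_of_nonneg hs)
    have h10 := hj a (-s) (by rw [abs_neg, abs_of_nonneg hs])
    rw [h9.2.tsum_add h10.2]
    linarith [h9.1, h10.1]
  calc Real.exp (-(s * B)) * ((q : ℝ) ^ 2)⁻¹ * ∑ a : V N, ∑' h, (pin (wT b N) x₀ h *
      Real.exp (s * (bxT N q (re h) a - bxT N N (re h) 0)) +
      pin (wT b N) x₀ h * Real.exp (-s * (bxT N q (re h) a - bxT N N (re h) 0)))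
      ≤ Real.exp (-(s * B)) * ((q : ℝ) ^ 2)⁻¹ * ∑ _a : V N,
        2 * (Real.exp (b * (s ^ 2 * (k : ℝ) ^ 2)) * Zp (wT b N) x₀) :=
        mul_le_mul_of_nonneg_left (Finset.sum_le_sum fun a _ => h8 a) (by positivity)
    _ = 2 * (4 : ℝ) ^ k * Real.exp (b * (s ^ 2 * (k : ℝ) ^ 2) - s * B) * Zp (wT b N) x₀ := by
        rw [Finset.sum_const, Finset.card_univ, nsmul_eq_mul, card_V, hN0, sub_eq_add_neg,
          Real.exp_add]
        field_simp

/-- the same, optimised: `V ≥ 2 b k²`, `2 B ≤ q V` -/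
theorem ht_prob2 (hb : 0 < b) (x₀ : V N) (hN : N = q * 2 ^ k) (hq : 1 ≤ q) {B v : ℝ}
    (hB : 0 ≤ B) (hv : 0 < v) (hk : 2 * b * (k : ℝ) ^ 2 ≤ v) (hBv : 2 * B ≤ q * v) :
    Pp (wT b N) x₀ (HtB (tM N q) B)ᶜ ≤ 2 * (4 : ℝ) ^ k * Real.exp (-(B ^ 2 / (2 * v))) := by
  have h1 := ht_prob hb x₀ hN hq (B := B) (s := B / v) (div_nonneg hB hv.le) (by
    rw [← mul_div_assoc, div_le_iff₀ hv]
    exact hBv)
  refine h1.trans (mul_le_mul_of_nonneg_left (Real.exp_le_exp.2 ?_) (by positivity))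
  have h2 : b * ((B / v) ^ 2 * (k : ℝ) ^ 2) ≤ B ^ 2 / (2 * v) := by
    have h3 : b * ((B / v) ^ 2 * (k : ℝ) ^ 2) = (2 * b * (k : ℝ) ^ 2) * (B ^ 2 / (2 * v ^ 2)) := by
      field_simp
    rw [h3]
    refine (mul_le_mul_of_nonneg_right hk (by positivity)).trans (le_of_eq ?_)
    field_simp
  have h4 : B / v * B = B ^ 2 / (2 * v) + B ^ 2 / (2 * v) := by
    field_simp
    ring
  linarith

end

end Vale.Agent.P159.H264.Gq
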