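import Vale.Agent.P159.H264.Cl8

/-!
P159 / module CLASS (helper264), part 9: the class event for a finite family of smeared cut-offs
(nodes of the cut path).
-/

set_option linter.unusedSectionVars false

namespace Vale.Agent.P159.H264.Gq

open Finset Matrix MeasureTheory
open Vale.Agent.P159.TM.Spec (V)
open Vale.Agent.P159.TM.SpecC (wT)
open Vale.Agent.P159.H37 (qf re)
open Vale.Agent.P159.H817 (gr nrm sz)
open Vale.Agent.P159.H340 (Rl ti_Rl)
open Vale.Agent.P159.H276 (nbZ Qa Qb Qc pot pot_eq pot_unique Qa_eq)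
open Vale.Agent.P159.H883

noncomputable section

variable {N : ℕ} [NeZero N] {q L : ℕ} {T : Matrix (V N) (V N) ℝ} {b t κ : ℝ}

/-- **one event for a finite family of cut-offs and forms**, fixed background -/
theorem ev_fam2 (hb : 0 < b) (ht : 0 < t) (x₀ : V N) (hT : Smo N q T) {I : Type} [Fintype I]
    {w : V N → ℝ} {χ β : I → V N → V N → ℝ} {ℓ s2 : ℝ} {D1 : I → Finset (V N)}
    {D : I → Set (V N)} (hS : ∀ i, Smr w (χ i) (β i) q ℓ s2 (D1 i) (D i)) {g : V N → ℝ}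
    {cg : I → ℝ} {B : ℝ} (hB : 0 ≤ B) (hg : ∀ i, ∀ x ∈ D i, |(T *ᵥ g) x - cg i| ≤ B)
    {S : I → Matrix (V N) (V N) ℝ} {A T' : I → ℝ} (s1 : ∀ i, (S i)ᵀ = S i)
    (s0 : ∀ i u, 0 ≤ qf (S i) u) (hT' : ∀ i, 0 < T' i)
    (htr : ∀ i, ((Mw w (χ i) (β i) T)ᵀ * S i * Mw w (χ i) (β i) T).trace ≤ T' i)
    (hd : ∀ i, ∀ f : V N → ℝ, (∀ x, |f x| ≤ 2 * B) → (∀ x, x ∉ D1 i → f x = 0) →
      qf (S i) f < A i / 16) :
    ∃ G : Set (V N → ℝ), MeasurableSet G ∧
      (nuM (wT b N) (t • (1 : Matrix (V N) (V N) ℝ)) x₀).real Gᶜ ≤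
        Pp (wT b N) x₀ (HtB T B)ᶜ + ∑ i, Real.exp (1 / 2 - t * A i / (64 * T' i)) ∧
      ∀ F ∈ G, ∀ i, qf (S i) (Mw w (χ i) (β i) T *ᵥ (F + g)) < A i := by
  classical
  have hmeas : MeasurableSet {F : V N → ℝ | ∃ i ∈ (univ : Finset I),
      A i / 4 ≤ qf ((Mw w (χ i) (β i) T)ᵀ * S i * Mw w (χ i) (β i) T) F} := by
    have e : {F : V N → ℝ | ∃ i ∈ (univ : Finset I),
        A i / 4 ≤ qf ((Mw w (χ i) (β i) T)ᵀ * S i * Mw w (χ i) (β i) T) F} =
        ⋃ i ∈ (univ : Finset I), {F : V N → ℝ | A i / 4 ≤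
          qf ((Mw w (χ i) (β i) T)ᵀ * S i * Mw w (χ i) (β i) T) F} := by
      ext F
      simp only [Set.mem_iUnion]
      constructor
      · rintro ⟨i, hi, h⟩
        exact ⟨i, hi, h⟩
      · rintro ⟨i, hi, h⟩
        exact ⟨i, hi, h⟩
    rw [e]
    exact Finset.measurableSet_biUnion _ fun i _ => meas_set _ _
  have key := nu_fam (H963.gw_wT (N := N) hb.le) (bw_wT hb) ht (mf_scalar ht) x₀
    (univ : Finset I) (K := fun i => (Mw w (χ i) (β i) T)ᵀ * S i * Mw w (χ i) (β i) T)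
    (A := fun i => A i / 4)
    (T := T') (fun i _ => symm_conj (s1 i) _)
    (fun i _ u => by rw [qf_conj]; exact s0 i _)
    (fun i _ => ck_conj (Mw_tc hT (hS i).b1)) (fun i _ => hT' i) (fun i _ => htr i)
    (Sh := (HtB T B)ᶜ) (fun h hh i _ => by
      have h1 : h ∈ HtB T B := by
        by_contra hc
        exact hh hc
      obtain ⟨c, hc⟩ := h1
      rw [qf_conj]
      have h2 := hd i (Mw w (χ i) (β i) T *ᵥ re h)
        (Mw_abs (hS i).w0 (hS i).w1 (hS i).c1 (hS i).b0 (hS i).b1 (hS i).cD (hS i).bD hB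
          fun x _ => hc x)
        (fun x hx => Mw_zero (hS i).cs _ hx)
      have h3 : A i / 16 = A i / 4 / 4 := by ring
      rw [← h3]
      exact h2)
  refine ⟨_, hmeas.compl, ?_, ?_⟩
  · rw [compl_compl]
    refine key.trans (add_le_add le_rfl (Finset.sum_le_sum fun i _ => Real.exp_le_exp.2 ?_))
    refine le_of_eq ?_
    have := (hT' i).ne'
    field_simp
    ring
  · intro F hF i
    have h1 : qf ((Mw w (χ i) (β i) T)ᵀ * S i * Mw w (χ i) (β i) T) F < A i / 4 := by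
      by_contra hc
      exact hF ⟨i, mem_univ _, not_lt.1 hc⟩
    rw [qf_conj] at h1
    have h2 := hd i (Mw w (χ i) (β i) T *ᵥ g)
      (Mw_abs (hS i).w0 (hS i).w1 (hS i).c1 (hS i).b0 (hS i).b1 (hS i).cD (hS i).bD hB (hg i))
      (fun x hx => Mw_zero (hS i).cs _ hx)
    have h3 := qf_par (s1 i) (s0 i) (Mw w (χ i) (β i) T *ᵥ F) (Mw w (χ i) (β i) T *ᵥ g)
    rw [← Matrix.mulVec_add] at h3
    have h4 := s0 i (Mw w (χ i) (β i) T *ᵥ g)
    linarith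

/-- **the class number `Qa` at all the nodes at once** -/
theorem node_ev (hb : 0 < b) (ht : 0 < t) (x₀ : V N) (hT : Smo N q T) (hκ : 0 < κ)
    {I : Type} [Fintype I] {w : V N → ℝ} {χ β : I → V N → V N → ℝ} {ℓ s2 nD : ℝ} (hs2 : 0 < s2)
    (hnD : 0 < nD) {D1 : I → Finset (V N)} (hD1 : ∀ i, ((D1 i).card : ℝ) ≤ nD)
    {D : I → Set (V N)} (hS : ∀ i, Smr w (χ i) (β i) q ℓ s2 (D1 i) (D i)) {g : V N → ℝ}
    {cg : I → ℝ} {B : ℝ} (hB : 0 ≤ B) (hg : ∀ i, ∀ x ∈ D i, |(T *ᵥ g) x - cg i| ≤ B)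
    {Aa E : ℝ} (a1 : 64 * t * B ^ 2 * nD < Aa)
    (a2 : 128 * (E + 1 / 2) * (gT N T κ + s2) * nD ≤ Aa) :
    ∃ G : Set (V N → ℝ), MeasurableSet G ∧
      (nuM (wT b N) (t • (1 : Matrix (V N) (V N) ℝ)) x₀).real Gᶜ ≤
        Pp (wT b N) x₀ (HtB T B)ᶜ + (Fintype.card I : ℝ) * Real.exp (-E) ∧
      ∀ F ∈ G, ∀ i, Qa t κ (pot κ (Mw w (χ i) (β i) T *ᵥ (F + g))) ≤ Aa := by
  have hg0 := gT_nonneg (N := N) (T := T) hκ.le
  have pa : 0 < 2 * (gT N T κ + s2) * nD := by positivity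
  have key := ev_fam2 hb ht x₀ hT hS hB hg (S := fun _ => Rl κ) (A := fun _ => Aa / t)
    (T' := fun _ => 2 * (gT N T κ + s2) * nD) (fun _ => (ti_Rl κ).transpose)
    (fun _ u => H340.qf_Rl_nonneg hκ.le u) (fun _ => pa) ?_ ?_
  · obtain ⟨G, mG, hG, hF⟩ := key
    refine ⟨G, mG, hG.trans (add_le_add le_rfl ?_), fun F hFG i => ?_⟩
    · rw [Finset.sum_const, Finset.card_univ, nsmul_eq_mul]
      refine mul_le_mul_of_nonneg_left (Real.exp_le_exp.2 ?_) (Nat.cast_nonneg _)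
      have h1 : E + 1 / 2 ≤ t * (Aa / t) / (64 * (2 * (gT N T κ + s2) * nD)) := by
        rw [mul_div_cancel₀ _ ht.ne', le_div_iff₀ (by positivity)]
        refine le_trans (le_of_eq ?_) a2
        ring
      linarith
    · set f := Mw w (χ i) (β i) T *ᵥ (F + g) with hf
      have hpot : pot κ f = Rl κ *ᵥ f := (pot_unique hκ.le (H340.Rl_eqn hκ.le f)).symm
      have f1 : qf (Rl κ) f < Aa / t := hF F hFG i
      rw [Qa_eq (pot_eq hκ.le f), hpot]
      have h1 : ∑ x, f x * (Rl κ *ᵥ f) x = qf (Rl κ) f := by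
        rw [H37.qf_eq]
        rfl
      rw [h1]
      rw [lt_div_iff₀ ht] at f1
      linarith
  · intro i
    refine tr_Mw (ti_Rl κ).transpose (H340.qf_Rl_nonneg hκ.le) (hS i).w0 (hS i).w1 fun v hv => ?_
    refine (tr_a hT hκ.le (χ i v) (β i v)).trans ?_
    have h1 := (hS i).b2 v
    have h2 := (sq_chi_le (hS i) hv).trans (hD1 i)
    have h3 : 0 ≤ ∑ y, β i v y ^ 2 := Finset.sum_nonneg fun y _ => sq_nonneg _
    exact mul_le_mul (by linarith) h2 (Finset.sum_nonneg fun x _ => sq_nonneg _) (by linarith)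
  · intro i f hf hf0
    refine lt_of_le_of_lt ((H340.qf_Rl_le hκ.le f).trans (sum_sq_supp hf hf0)) ?_
    rw [div_div, lt_div_iff₀ (by positivity)]
    have h1 := mul_le_mul_of_nonneg_left (hD1 i) (by positivity : 0 ≤ 64 * t * B ^ 2)
    nlinarith

end

end Vale.Agent.P159.H264.Gq
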