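import Vale.Agent.P159.H883.Brg5
import Vale.Agent.P159.H663.Sgq

/-!
P159 / module GQ (helper264), part 1: positive quadratic forms of the field.

For a positive semidefinite form `K` invariant under constants and the field `F` of level `t`
(law of the dislocated model, centred at `φ`):
`P(A ≤ K[F]) ≤ P(A/4 ≤ K[h - φ]) + exp (lam tr K - lam t A / 8)` as soon as `lam K ≤ 1/2`.
-/

set_option linter.unusedSectionVars false

namespace Vale.Agent.P159.H264.Gq

open Finset Matrix MeasureTheory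
open Vale.Agent.P159.TM.H104 (EM nh Gr li)
open Vale.Agent.P159.H37 (wM ZM qf bf Zn Zs re gau)
open Vale.Agent.P159.H963 (GrI pin MF ntr GW)
open Vale.Agent.P159.H883

noncomputable section

variable {V : Type} [Fintype V] [DecidableEq V] [Nonempty V]

/-- indicator of a set of fields -/
def ind {α : Type*} (S : Set α) : α → ℝ := S.indicator fun _ => (1 : ℝ)

lemma ind_nonneg {α : Type*} (S : Set α) (x : α) : 0 ≤ ind S x :=
  Set.indicator_nonneg (fun _ _ => zero_le_one) x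

lemma ind_le_one {α : Type*} (S : Set α) (x : α) : ind S x ≤ 1 := by
  unfold ind
  by_cases h : x ∈ S
  · rw [Set.indicator_of_mem h]
  · rw [Set.indicator_of_notMem h]
    exact zero_le_one

lemma ind_mem {α : Type*} {S : Set α} {x : α} (h : x ∈ S) : ind S x = 1 := Set.indicator_of_mem h _

lemma ind_notMem {α : Type*} {S : Set α} {x : α} (h : x ∉ S) : ind S x = 0 :=
  Set.indicator_of_notMem h _

/-- invariance of a form under constants -/
def CK (K : Matrix V V ℝ) : Prop := ∀ (u : V → ℝ) (c : ℝ), qf K (fun x => u x + c) = qf K u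

lemma qf_par {K : Matrix V V ℝ} (hK : Kᵀ = K) (h0 : ∀ u, 0 ≤ qf K u) (u v : V → ℝ) :
    qf K (u + v) ≤ 2 * qf K u + 2 * qf K v := by
  have h1 := H37.qf_add_vec hK u v
  have h2 := H37.qf_sub_vec hK u v
  have h3 := h0 (u - v)
  linarith

lemma meas_qf (K : Matrix V V ℝ) : Measurable fun F : V → ℝ => qf K F :=
  H896.continuous_qf.measurable

lemma meas_set (K : Matrix V V ℝ) (A : ℝ) : MeasurableSet {F : V → ℝ | A ≤ qf K F} :=
  measurableSet_le measurable_const (meas_qf K)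

lemma meas_ind {α : Type*} [MeasurableSpace α] {S : Set α} (hS : MeasurableSet S) :
    Measurable (ind S) := measurable_const.indicator hS

lemma xg_ind {S : Set (V → ℝ)} (hS : MeasurableSet S) : XG (ind S) := by
  refine ⟨meas_ind hS, 1, zero_le_one, fun F => ?_⟩
  rw [abs_of_nonneg (ind_nonneg S F), one_mul, one_mul]
  exact (ind_le_one S F).trans (Real.one_le_exp (Finset.sum_nonneg fun _ _ => abs_nonneg _))

/-- the probability of a set of heights under the pinned massless law -/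
def Pp (w : (V → ℤ) → ℝ) (x₀ : V) (S : Set (V → ℤ)) : ℝ := (∑' h, pin w x₀ h * ind S h) / Zp w x₀

lemma summ_pin {w : (V → ℤ) → ℝ} (hw : BW w) (x₀ : V) : Summable (pin w x₀) := by
  have := (hw.em0 x₀).sum 0
  simpa using this

lemma summ_ind {w : (V → ℤ) → ℝ} (hw : BW w) (x₀ : V) (S : Set (V → ℤ)) :
    Summable fun h => pin w x₀ h * ind S h := by
  refine Summable.of_nonneg_of_le (fun h => mul_nonneg (H963.pin_nonneg hw.nn x₀ h)
    (ind_nonneg S h)) (fun h => ?_) (summ_pin hw x₀)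
  exact mul_le_of_le_one_right (H963.pin_nonneg hw.nn x₀ h) (ind_le_one S h)

lemma Pp_nonneg {w : (V → ℤ) → ℝ} (hw : BW w) (x₀ : V) (S : Set (V → ℤ)) : 0 ≤ Pp w x₀ S :=
  div_nonneg (tsum_nonneg fun h => mul_nonneg (H963.pin_nonneg hw.nn x₀ h) (ind_nonneg S h))
    (hw.Zp_pos x₀).le

lemma Pp_mono {w : (V → ℤ) → ℝ} (hw : BW w) (x₀ : V) {S S' : Set (V → ℤ)} (h : S ⊆ S') :
    Pp w x₀ S ≤ Pp w x₀ S' := by
  unfold Pp
  refine div_le_div_of_nonneg_right ?_ (hw.Zp_pos x₀).le
  refine Summable.tsum_le_tsum (fun k => ?_) (summ_ind hw x₀ S) (summ_ind hw x₀ S')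
  refine mul_le_mul_of_nonneg_left ?_ (H963.pin_nonneg hw.nn x₀ k)
  exact Set.indicator_le_indicator_of_subset h (fun _ => zero_le_one) k

/-- **general split**: field event against a height event and a noise event -/
theorem EQ_split {wD : (V → ℤ) → ℝ} (hD : BW wD) {t : ℝ} (ht : 0 < t) (x₀ : V) (φ : V → ℝ)
    {S : Set (V → ℝ)} (hS : MeasurableSet S) (hc : CI (ind S)) {Sh : Set (V → ℤ)}
    {Sg : Set (V → ℝ)} (hSg : MeasurableSet Sg)
    (hsub : ∀ (h : V → ℤ) (g : V → ℝ), re h - φ + (√t)⁻¹ • g ∈ S → h ∈ Sh ∨ g ∈ Sg) :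
    EQ wD (t • (1 : Matrix V V ℝ)) x₀ φ (ind S) ≤ Pp wD x₀ Sh + ∫ g, ind Sg g ∂(gau V) := by
  have hcΦ : CI fun F : V → ℝ => ind S (F - φ) := by
    have h1 := hc.shift (-φ)
    simpa only [sub_eq_add_neg] using h1
  have hxΦ : XG fun F : V → ℝ => ind S (F - φ) := by
    have h1 := (xg_ind hS).shift (-φ)
    refine (funext fun F => ?_ : (fun F : V → ℝ => ind S (-φ + F)) = fun F => ind S (F - φ)) ▸ h1
    rw [sub_eq_add_neg, add_comm]
  obtain ⟨h1, h2⟩ := Enu_gau ht hD x₀ hcΦ hxΦ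
  unfold EQ
  rw [h2]
  set c := ∫ g, ind Sg g ∂(gau V) with hcdef
  have hgi : Integrable (ind Sg) (gau V) := by
    refine Integrable.mono' (integrable_const (1 : ℝ)) (meas_ind hSg).aestronglyMeasurable
      (Filter.Eventually.of_forall fun g => ?_)
    rw [Real.norm_eq_abs, abs_of_nonneg (ind_nonneg Sg g)]
    exact ind_le_one Sg g
  have hpt : ∀ h : V → ℤ, ∫ g, ind S (re h + (√t)⁻¹ • g - φ) ∂(gau V) ≤ ind Sh h + c := by
    intro h
    have e1 : ∫ g : V → ℝ, (ind Sh h + ind Sg g) ∂(gau V) = ind Sh h + c := by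
      rw [integral_add (integrable_const _) hgi, integral_const]
      simp
      rfl
    rw [← e1]
    refine integral_mono_of_nonneg (Filter.Eventually.of_forall fun g => ind_nonneg S _)
      ((integrable_const _).add hgi) (Filter.Eventually.of_forall fun g => ?_)
    simp only
    by_cases hg : re h + (√t)⁻¹ • g - φ ∈ S
    · have hg' : re h - φ + (√t)⁻¹ • g ∈ S := by
        have e : re h - φ + (√t)⁻¹ • g = re h + (√t)⁻¹ • g - φ := by abel
        rw [e]
        exact hg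
      rcases hsub h g hg' with h3 | h3
      · rw [ind_mem hg, ind_mem h3]
        linarith [ind_nonneg Sg g]
      · rw [ind_mem hg, ind_mem h3]
        linarith [ind_nonneg Sh h]
    · rw [ind_notMem hg]
      exact add_nonneg (ind_nonneg _ _) (ind_nonneg _ _)
  have hs1 : Summable fun h => pin wD x₀ h * (ind Sh h + c) := by
    have := (summ_ind hD x₀ Sh).add ((summ_pin hD x₀).mul_right c)
    refine this.congr fun h => ?_
    ring
  have h3 : ∑' h, pin wD x₀ h * ∫ g, ind S (re h + (√t)⁻¹ • g - φ) ∂(gau V) ≤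
      ∑' h, pin wD x₀ h * (ind Sh h + c) :=
    Summable.tsum_le_tsum (fun h => mul_le_mul_of_nonneg_left (hpt h)
      (H963.pin_nonneg hD.nn x₀ h)) h1 hs1
  have h4 : ∑' h, pin wD x₀ h * (ind Sh h + c) =
      (∑' h, pin wD x₀ h * ind Sh h) + Zp wD x₀ * c := by
    unfold Zp
    rw [← tsum_mul_right, ← (summ_ind hD x₀ Sh).tsum_add ((summ_pin hD x₀).mul_right c)]
    refine tsum_congr fun h => ?_
    ring
  have hZ := hD.Zp_pos x₀
  rw [div_le_iff₀ hZ]
  refine h3.trans (le_of_eq ?_)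
  rw [h4]
  unfold Pp
  field_simp

/-- **positive forms of the field**, law of the dislocated model centred at `φ` -/
theorem EQ_psd {wD : (V → ℤ) → ℝ} (hD : BW wD) {t : ℝ} (ht : 0 < t) (x₀ : V) (φ : V → ℝ)
    {K : Matrix V V ℝ} (hK : Kᵀ = K) (h0 : ∀ u, 0 ≤ qf K u) (hc : CK K) {lam : ℝ} (hl : 0 ≤ lam)
    (h1 : ∀ x : V → ℝ, lam * qf K x ≤ 1 / 2 * ∑ i, x i ^ 2) (A : ℝ) :
    EQ wD (t • (1 : Matrix V V ℝ)) x₀ φ (ind {F | A ≤ qf K F}) ≤
      Pp wD x₀ {h | A / 4 ≤ qf K (re h - φ)} +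
        Real.exp (lam * trace K - lam * (t * A / 4) / 2) := by
  refine (EQ_split hD ht x₀ φ (meas_set K A) ?_ (Sh := {h | A / 4 ≤ qf K (re h - φ)})
    (meas_set K (t * A / 4)) ?_).trans ?_
  · intro F c
    unfold ind
    by_cases h : A ≤ qf K F
    · rw [Set.indicator_of_mem (show F ∈ {F | A ≤ qf K F} from h),
        Set.indicator_of_mem (show (fun x => F x + c) ∈ {F | A ≤ qf K F} from ?_)]
      show A ≤ qf K (fun x => F x + c)
      rw [hc]
      exact h
    · rw [Set.indicator_of_notMem (show F ∉ {F | A ≤ qf K F} from h),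
        Set.indicator_of_notMem (show (fun x => F x + c) ∉ {F | A ≤ qf K F} from ?_)]
      show ¬ A ≤ qf K (fun x => F x + c)
      rw [hc]
      exact h
  · intro h g hg
    have h2 : A ≤ qf K (re h - φ + (√t)⁻¹ • g) := hg
    have h3 := qf_par hK h0 (re h - φ) ((√t)⁻¹ • g)
    rw [H37.qf_smul] at h3
    have h4 : ((√t)⁻¹) ^ 2 = t⁻¹ := by
      rw [inv_pow, Real.sq_sqrt ht.le]
    rw [h4] at h3
    by_cases h5 : A / 4 ≤ qf K (re h - φ)
    · exact Or.inl h5
    · refine Or.inr ?_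
      show t * A / 4 ≤ qf K g
      have h6 : A / 4 ≤ t⁻¹ * qf K g := by
        push Not at h5
        linarith
      have h7 := mul_le_mul_of_nonneg_left h6 ht.le
      rw [← mul_assoc, mul_inv_cancel₀ ht.ne', one_mul] at h7
      linarith
  · have h2 := H663.gau_tail hK h0 hl h1 (t * A / 4)
    have e : ∫ g, ind {F : V → ℝ | t * A / 4 ≤ qf K F} g ∂(gau V) =
        ∫ g, Set.indicator {g : V → ℝ | t * A / 4 ≤ qf K g} (fun _ => (1 : ℝ)) g ∂(gau V) := rfl
    rw [e]
    linarith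

/-- the same for the law `ν` -/
theorem Enu_psd {w : (V → ℤ) → ℝ} (hw : BW w) {t : ℝ} (ht : 0 < t) (x₀ : V)
    {K : Matrix V V ℝ} (hK : Kᵀ = K) (h0 : ∀ u, 0 ≤ qf K u) (hc : CK K) {lam : ℝ} (hl : 0 ≤ lam)
    (h1 : ∀ x : V → ℝ, lam * qf K x ≤ 1 / 2 * ∑ i, x i ^ 2) (A : ℝ) :
    Enu w (t • (1 : Matrix V V ℝ)) x₀ (ind {F | A ≤ qf K F}) ≤
      Pp w x₀ {h | A / 4 ≤ qf K (re h)} +
        Real.exp (lam * trace K - lam * (t * A / 4) / 2) := by
  have h := EQ_psd hw ht x₀ 0 hK h0 hc hl h1 A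
  unfold EQ at h
  simpa only [sub_zero] using h

end

end Vale.Agent.P159.H264.Gq
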