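import Vale.Agent.P159.H264.Gq1
import Vale.Agent.P159.H883.Twr4
import Vale.Agent.P159.H513.Cor2
import Vale.Agent.P159.H474.Green9

/-!
P159 / module GQ (helper264), part 2: the torus instance.

`S = Gm (wM (wT b N) (t • 1))` = covariance of the integer model of mass `t` at zero data,
`T` = a linear map that kills constants, `|T u|₂ ≤ τ |u|₂`. The form `qf S (t • T F)` of the field
`F` is polynomial in `N √t` up to probability `exp (- large)`.
-/

set_option linter.unusedSectionVars false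

namespace Vale.Agent.P159.H264.Gq

open Finset Matrix MeasureTheory
open Vale.Agent.P159.TM.H104 (EM nh Gr li)
open Vale.Agent.P159.H37 (wM ZM qf bf Zn Zs re gau Gm)
open Vale.Agent.P159.H963 (GrI pin MF ntr GW)
open Vale.Agent.P159.H864 (TI sym lapM ti_lapM sym_lapM)
open Vale.Agent.P159.H883

noncomputable section

/-! ### linear algebra -/

section la

variable {V : Type} [Fintype V] [DecidableEq V]

/-- `|T u|₂ ≤ τ |u|₂` -/
def TB (T : Matrix V V ℝ) (τ : ℝ) : Prop := ∀ u : V → ℝ, ∑ x, (T *ᵥ u) x ^ 2 ≤ τ ^ 2 * ∑ x, u x ^ 2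

/-- `T` kills constants -/
def TC (T : Matrix V V ℝ) : Prop := T *ᵥ (fun _ => (1 : ℝ)) = 0

lemma TB.transpose {T : Matrix V V ℝ} {τ : ℝ} (h : TB T τ) : TB Tᵀ τ := by
  intro u
  have h0 : ∑ x, (Tᵀ *ᵥ u) x ^ 2 = u ⬝ᵥ (T *ᵥ (Tᵀ *ᵥ u)) := by
    have e1 : ∑ x, (Tᵀ *ᵥ u) x ^ 2 = (Tᵀ *ᵥ u) ⬝ᵥ (Tᵀ *ᵥ u) := by
      unfold dotProduct
      exact Finset.sum_congr rfl fun x _ => by ring
    rw [e1, Matrix.mulVec_transpose, ← Matrix.dotProduct_mulVec]
  have h1 : (u ⬝ᵥ (T *ᵥ (Tᵀ *ᵥ u))) ^ 2 ≤ (∑ x, u x ^ 2) * ∑ x, (T *ᵥ (Tᵀ *ᵥ u)) x ^ 2 := by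
    unfold dotProduct
    exact Finset.sum_mul_sq_le_sq_mul_sq _ _ _
  have h2 := h (Tᵀ *ᵥ u)
  rw [← h0] at h1
  set a := ∑ x, (Tᵀ *ᵥ u) x ^ 2 with ha
  have ha0 : 0 ≤ a := Finset.sum_nonneg fun x _ => sq_nonneg _
  have hu0 : 0 ≤ ∑ x, u x ^ 2 := Finset.sum_nonneg fun x _ => sq_nonneg _
  have h3 : a ^ 2 ≤ (∑ x, u x ^ 2) * (τ ^ 2 * a) := h1.trans (mul_le_mul_of_nonneg_left h2 hu0)
  rcases eq_or_lt_of_le ha0 with h4 | h4
  · rw [← h4]
    positivity
  · have h5 : a * a ≤ (τ ^ 2 * ∑ x, u x ^ 2) * a := by nlinarith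
    exact le_of_mul_le_mul_right h5 h4

/-- `tr (Tᵀ S T) ≤ τ² tr S` -/
theorem tr_conj {S T : Matrix V V ℝ} (hS : Sᵀ = S) (h0 : ∀ u, 0 ≤ qf S u) {τ : ℝ} (hT : TB T τ) :
    (Tᵀ * S * T).trace ≤ τ ^ 2 * S.trace := by
  have hps : S.PosSemidef := by
    refine Matrix.posSemidef_iff_dotProduct_mulVec.2 ⟨?_, fun u => ?_⟩
    · show Sᴴ = S
      rw [Matrix.conjTranspose_eq_transpose_of_trivial]
      exact hS
    · have h := h0 u
      rw [H37.qf_eq] at h
      simpa using h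
  obtain ⟨m, v, hv⟩ := Matrix.posSemidef_iff_eq_sum_vecMulVec.1 hps
  have h1 : S.trace = ∑ i, ∑ x, v i x ^ 2 := by
    rw [hv, Matrix.trace_sum]
    refine Finset.sum_congr rfl fun i _ => ?_
    rw [Matrix.trace_vecMulVec]
    unfold dotProduct
    refine Finset.sum_congr rfl fun x _ => ?_
    simp only [Pi.star_apply, star_trivial]
    ring
  have h2 : (Tᵀ * S * T).trace = ∑ i, ∑ x, (Tᵀ *ᵥ v i) x ^ 2 := by
    rw [hv, Finset.mul_sum, Finset.sum_mul, Matrix.trace_sum]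
    refine Finset.sum_congr rfl fun i _ => ?_
    have e1 : (star (v i)) = v i := by
      funext x
      simp
    rw [e1, Matrix.mul_vecMulVec, Matrix.vecMulVec_mul, Matrix.trace_vecMulVec]
    have e2 : v i ᵥ* T = Tᵀ *ᵥ v i := (Matrix.mulVec_transpose T (v i)).symm
    rw [e2]
    unfold dotProduct
    refine Finset.sum_congr rfl fun x _ => ?_
    ring
  rw [h1, h2, Finset.mul_sum]
  exact Finset.sum_le_sum fun i _ => hT.transpose (v i)

/-- the form `t² Tᵀ S T` -/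
def KT (S T : Matrix V V ℝ) (t : ℝ) : Matrix V V ℝ := t ^ 2 • (Tᵀ * S * T)

lemma qf_KT (S T : Matrix V V ℝ) (t : ℝ) (u : V → ℝ) :
    qf (KT S T t) u = qf S (t • (T *ᵥ u)) := by
  rw [H37.qf_smul]
  have h1 : qf (KT S T t) u = t ^ 2 * qf (Tᵀ * S * T) u := by
    unfold KT
    rw [H37.qf_eq, H37.qf_eq, Matrix.smul_mulVec, dotProduct_smul, smul_eq_mul]
  rw [h1]
  congr 1
  exact qf_QB S T u

lemma KT_symm {S T : Matrix V V ℝ} (hS : Sᵀ = S) (t : ℝ) : (KT S T t)ᵀ = KT S T t := by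
  unfold KT
  rw [Matrix.transpose_smul]
  congr 1
  exact QB_symm hS T

lemma CK_KT {S T : Matrix V V ℝ} (hT : TC T) (t : ℝ) : CK (KT S T t) := by
  intro u c
  rw [qf_KT, qf_KT]
  congr 2
  have e : (fun x => u x + c) = u + c • fun _ => (1 : ℝ) := by
    funext x
    simp
  rw [e, Matrix.mulVec_add, Matrix.mulVec_smul, hT, smul_zero, add_zero]

lemma trace_KT (S T : Matrix V V ℝ) (t : ℝ) : (KT S T t).trace = t ^ 2 * (Tᵀ * S * T).trace := by
  unfold KT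
  rw [Matrix.trace_smul, smul_eq_mul]

end la

/-! ### abstract instance -/

section ab

variable {V : Type} [Fintype V] [DecidableEq V] [Nonempty V]

/-- heights with `|h - φ - c| > B` somewhere, for every constant `c` -/
def Sup (φ : V → ℝ) (B : ℝ) : Set (V → ℤ) := {h | ∀ c : ℝ, ∃ x, B < |re h x - φ x - c|}

/-- **(GQ) abstract**: `F ↦ qf S (t T_i F)`, `i` in a finite family, under the law of the
dislocated model -/
theorem EQ_gq {wD : (V → ℤ) → ℝ} (hD : BW wD) {t : ℝ} (ht : 0 < t) (x₀ : V) (φ : V → ℝ)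
    {S : Matrix V V ℝ} (hS : Sᵀ = S) (h0 : ∀ u, 0 ≤ qf S u)
    (hSt : ∀ u, qf S u ≤ t⁻¹ * ∑ x, u x ^ 2) {I : Type*} (s : Finset I) {T : I → Matrix V V ℝ}
    {τ : ℝ} (hτ : 0 < τ) (hT : ∀ i ∈ s, TB (T i) τ) (hC : ∀ i ∈ s, TC (T i))
    {tr : ℝ} (htr : S.trace ≤ tr) {B A : ℝ} (hA : 4 * (t * τ ^ 2 * (Fintype.card V * B ^ 2)) < A) :
    EQ wD (t • (1 : Matrix V V ℝ)) x₀ φ (ind {F | ∃ i ∈ s, A ≤ qf S (t • (T i *ᵥ F))}) ≤
      Pp wD x₀ (Sup φ B) + s.card * Real.exp (t * tr / 2 - A / (16 * τ ^ 2)) := by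
  classical
  have hl : 0 ≤ 1 / (2 * t * τ ^ 2) := by positivity
  have hq : ∀ i ∈ s, ∀ u, qf (KT S (T i) t) u ≤ t * τ ^ 2 * ∑ x, u x ^ 2 := by
    intro i hi u
    rw [qf_KT, H37.qf_smul]
    calc t ^ 2 * qf S (T i *ᵥ u) ≤ t ^ 2 * (t⁻¹ * (τ ^ 2 * ∑ x, u x ^ 2)) := by
          refine mul_le_mul_of_nonneg_left ((hSt _).trans ?_) (sq_nonneg t)
          exact mul_le_mul_of_nonneg_left (hT i hi u) (by positivity)
      _ = t * τ ^ 2 * ∑ x, u x ^ 2 := by field_simp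
  have hset : {F : V → ℝ | ∃ i ∈ s, A ≤ qf S (t • (T i *ᵥ F))} =
      ⋃ i ∈ s, {F : V → ℝ | A ≤ qf (KT S (T i) t) F} := by
    ext F
    simp only [Set.mem_iUnion]
    constructor
    · rintro ⟨i, hi, h⟩
      refine ⟨i, hi, ?_⟩
      show A ≤ qf (KT S (T i) t) F
      rw [qf_KT]
      exact h
    · rintro ⟨i, hi, h⟩
      refine ⟨i, hi, ?_⟩
      have h' : A ≤ qf (KT S (T i) t) F := h
      rwa [qf_KT] at h'
  have hmeas : ∀ a : ℝ, MeasurableSet (⋃ i ∈ s, {F : V → ℝ | a ≤ qf (KT S (T i) t) F}) := fun a =>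
    Finset.measurableSet_biUnion s fun i _ => meas_set _ _
  rw [hset]
  have hck : ∀ (i : I), i ∈ s → CK (KT S (T i) t) := fun i hi => CK_KT (hC i hi) t
  refine (EQ_split hD ht x₀ φ (hmeas A) ?_ (Sh := Sup φ B)
    (Sg := ⋃ i ∈ s, {g : V → ℝ | t * A / 4 ≤ qf (KT S (T i) t) g}) (hmeas _) ?_).trans
    (add_le_add le_rfl ?_)
  · intro F c
    unfold ind
    have hiff : (fun x => F x + c) ∈ (⋃ i ∈ s, {F : V → ℝ | A ≤ qf (KT S (T i) t) F}) ↔
        F ∈ (⋃ i ∈ s, {F : V → ℝ | A ≤ qf (KT S (T i) t) F}) := by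
      simp only [Set.mem_iUnion]
      constructor
      · rintro ⟨i, hi, h⟩
        refine ⟨i, hi, ?_⟩
        have h' : A ≤ qf (KT S (T i) t) fun x => F x + c := h
        rw [hck i hi] at h'
        exact h'
      · rintro ⟨i, hi, h⟩
        refine ⟨i, hi, ?_⟩
        show A ≤ qf (KT S (T i) t) fun x => F x + c
        rw [hck i hi]
        exact h
    by_cases h : F ∈ (⋃ i ∈ s, {F : V → ℝ | A ≤ qf (KT S (T i) t) F})
    · rw [Set.indicator_of_mem h, Set.indicator_of_mem (hiff.2 h)]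
    · rw [Set.indicator_of_notMem h, Set.indicator_of_notMem fun hc => h (hiff.1 hc)]
  · intro k g hg
    simp only [Set.mem_iUnion] at hg ⊢
    obtain ⟨i, hi, hg⟩ := hg
    have h2 : A ≤ qf (KT S (T i) t) (re k - φ + (√t)⁻¹ • g) := hg
    have hKs := KT_symm (T := T i) hS t
    have hK0 : ∀ u, 0 ≤ qf (KT S (T i) t) u := fun u => by rw [qf_KT]; exact h0 _
    have h3 := qf_par hKs hK0 (re k - φ) ((√t)⁻¹ • g)
    rw [H37.qf_smul] at h3
    have h4 : ((√t)⁻¹) ^ 2 = t⁻¹ := by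
      rw [inv_pow, Real.sq_sqrt ht.le]
    rw [h4] at h3
    by_cases h5 : A / 4 ≤ qf (KT S (T i) t) (re k - φ)
    · left
      intro c
      by_contra hcon
      push Not at hcon
      have h3 := hck i hi (re k - φ) (-c)
      rw [← h3] at h5
      have h4 := hq i hi fun x => (re k - φ) x + -c
      have h5' : ∑ x, ((re k - φ) x + -c) ^ 2 ≤ Fintype.card V * B ^ 2 := by
        calc ∑ x, ((re k - φ) x + -c) ^ 2 ≤ ∑ _x : V, B ^ 2 := by
              refine Finset.sum_le_sum fun x _ => ?_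
              have h6 := hcon x
              have h7 : (re k - φ) x + -c = re k x - φ x - c := by
                rw [Pi.sub_apply]
                ring
              rw [h7, ← sq_abs]
              exact pow_le_pow_left₀ (abs_nonneg _) h6 2
          _ = Fintype.card V * B ^ 2 := by
              rw [Finset.sum_const, Finset.card_univ, nsmul_eq_mul]
      have h6 := mul_le_mul_of_nonneg_left h5' (show 0 ≤ t * τ ^ 2 by positivity)
      linarith
    · right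
      refine ⟨i, hi, ?_⟩
      show t * A / 4 ≤ qf (KT S (T i) t) g
      have h6 : A / 4 ≤ t⁻¹ * qf (KT S (T i) t) g := by
        push Not at h5
        linarith
      have h7 := mul_le_mul_of_nonneg_left h6 ht.le
      rw [← mul_assoc, mul_inv_cancel₀ ht.ne', one_mul] at h7
      linarith
  · have hint : ∀ i ∈ s, Integrable (ind {g : V → ℝ | t * A / 4 ≤ qf (KT S (T i) t) g}) (gau V) := by
      intro i _
      refine Integrable.mono' (integrable_const (1 : ℝ))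
        (meas_ind (meas_set _ _)).aestronglyMeasurable
        (Filter.Eventually.of_forall fun g => ?_)
      rw [Real.norm_eq_abs, abs_of_nonneg (ind_nonneg _ g)]
      exact ind_le_one _ g
    have h1 : ∫ g, ind (⋃ i ∈ s, {g : V → ℝ | t * A / 4 ≤ qf (KT S (T i) t) g}) g ∂(gau V) ≤
        ∫ g, ∑ i ∈ s, ind {g : V → ℝ | t * A / 4 ≤ qf (KT S (T i) t) g} g ∂(gau V) := by
      refine integral_mono_of_nonneg (Filter.Eventually.of_forall fun g => ind_nonneg _ g)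
        (integrable_finset_sum s hint) (Filter.Eventually.of_forall fun g => ?_)
      simp only
      by_cases hg : g ∈ ⋃ i ∈ s, {g : V → ℝ | t * A / 4 ≤ qf (KT S (T i) t) g}
      · rw [ind_mem hg]
        simp only [Set.mem_iUnion] at hg
        obtain ⟨i, hi, hg⟩ := hg
        refine le_trans (le_of_eq (ind_mem hg).symm)
          (Finset.single_le_sum (f := fun i => ind {g : V → ℝ | t * A / 4 ≤ qf (KT S (T i) t) g} g)
            (fun i _ => ind_nonneg _ g) hi)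
      · rw [ind_notMem hg]
        exact Finset.sum_nonneg fun i _ => ind_nonneg _ g
    refine h1.trans ?_
    rw [integral_finset_sum s hint]
    refine (Finset.sum_le_sum (g := fun _ => Real.exp (t * tr / 2 - A / (16 * τ ^ 2)))
      fun i hi => ?_).trans (by rw [Finset.sum_const, nsmul_eq_mul])
    have hKs := KT_symm (T := T i) hS t
    have hK0 : ∀ u, 0 ≤ qf (KT S (T i) t) u := fun u => by rw [qf_KT]; exact h0 _
    have h2 := H663.gau_tail hKs hK0 hl (fun u => by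
      have h1 := mul_le_mul_of_nonneg_left (hq i hi u) hl
      refine h1.trans (le_of_eq ?_)
      field_simp) (t * A / 4)
    refine le_trans h2 (Real.exp_le_exp.2 ?_)
    have h2 := tr_conj hS h0 (hT i hi)
    rw [trace_KT]
    have h3 : ((T i)ᵀ * S * T i).trace ≤ τ ^ 2 * tr :=
      h2.trans (mul_le_mul_of_nonneg_left htr (sq_nonneg τ))
    have h4 : 1 / (2 * t * τ ^ 2) * (t ^ 2 * ((T i)ᵀ * S * T i).trace) ≤ t * tr / 2 := by
      calc 1 / (2 * t * τ ^ 2) * (t ^ 2 * ((T i)ᵀ * S * T i).trace)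
          ≤ 1 / (2 * t * τ ^ 2) * (t ^ 2 * (τ ^ 2 * tr)) := by
            refine mul_le_mul_of_nonneg_left ?_ hl
            exact mul_le_mul_of_nonneg_left h3 (sq_nonneg t)
        _ = t * tr / 2 := by field_simp
    have h5 : 1 / (2 * t * τ ^ 2) * (t * A / 4) / 2 = A / (16 * τ ^ 2) := by
      field_simp
      ring
    rw [h5]
    linarith

end ab

/-! ### the torus -/

section tor

open Vale.Agent.P159.TM.SpecC (Tor wT)
open Vale.Agent.P159.TM.H764 (cN sN dt EE)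
open Vale.Agent.P159.H474 (SN)

variable {N : ℕ} [NeZero N] {b t : ℝ}

/-- covariance of the integer model of mass `t` at zero data -/
def S0 (N : ℕ) [NeZero N] (b t : ℝ) : Matrix (Tor N) (Tor N) ℝ :=
  Gm (wM (wT b N) (t • (1 : Matrix (Tor N) (Tor N) ℝ)))

lemma t1_ge (u : Tor N → ℝ) :
    t * ∑ x, u x ^ 2 ≤ qf (t • (1 : Matrix (Tor N) (Tor N) ℝ)) u := by
  rw [H37.qf_smul_one]

lemma t1_symm : (t • (1 : Matrix (Tor N) (Tor N) ℝ))ᵀ = t • (1 : Matrix (Tor N) (Tor N) ℝ) := by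
  rw [Matrix.transpose_smul, Matrix.transpose_one]

lemma S0_le (hb : 0 < b) (ht : 0 < t) (u : Tor N → ℝ) :
    qf (S0 N b t) u ≤ qf (t • (1 : Matrix (Tor N) (Tor N) ℝ) + b⁻¹ • lapM)⁻¹ u :=
  H513.gm_bare_inv hb t1_symm ht t1_ge u

lemma ti_A (b t : ℝ) : TI (t • (1 : Matrix (Tor N) (Tor N) ℝ) + b⁻¹ • lapM) :=
  (TI.one.smul t).add (ti_lapM.smul b⁻¹)

lemma sym_A (b t : ℝ) (k : Tor N) :
    sym (t • (1 : Matrix (Tor N) (Tor N) ℝ) + b⁻¹ • lapM) k = t + b⁻¹ * EE k := by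
  rw [H864.sym_add, H864.sym_smul_one, H864.sym_smul, sym_lapM]

lemma sym_Ai (hb : 0 < b) (ht : 0 < t) (k : Tor N) :
    sym (t • (1 : Matrix (Tor N) (Tor N) ℝ) + b⁻¹ • lapM)⁻¹ k = (t + b⁻¹ * EE k)⁻¹ := by
  have hE : 0 ≤ EE k := TM.H764.EE_nonneg k
  rw [H864.sym_inv' (ti_A b t) fun k => ?_, sym_A]
  rw [sym_A]
  have hE : 0 ≤ EE k := TM.H764.EE_nonneg k
  positivity

lemma ti_S0 : TI (S0 N b t) := H864.ti_Gm (H864.tinv_wM (H864.tinv_wT b) (TI.one.smul t))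

lemma S0_le_inv (hb : 0 < b) (ht : 0 < t) (u : Tor N → ℝ) :
    qf (S0 N b t) u ≤ t⁻¹ * ∑ x, u x ^ 2 := by
  refine (S0_le hb ht u).trans ?_
  have h1 : TI (t⁻¹ • (1 : Matrix (Tor N) (Tor N) ℝ)) := TI.one.smul _
  have h2 := (H864.qf_le_iff (ti_A (N := N) b t).inv h1).2 (fun k => by
    rw [sym_Ai hb ht, H864.sym_smul_one]
    have hE : 0 ≤ EE k := TM.H764.EE_nonneg k
    refine inv_anti₀ ht ?_
    have : 0 ≤ b⁻¹ * EE k := by positivity
    linarith) u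
  rwa [H37.qf_smul_one] at h2

lemma S0_nonneg (hb : 0 < b) (ht : 0 < t) (u : Tor N → ℝ) : 0 ≤ qf (S0 N b t) u :=
  H114.qf_Cm_nonneg (H789.em_wM_wT hb.le ht t1_ge) 0 u

lemma S0_trace (hb : 0 < b) (ht : 0 < t) :
    (S0 N b t).trace ≤ (N : ℝ) ^ 2 * (b * SN N (b * t)) := by
  rw [TI.trace_eq ti_S0]
  have h1 := (H864.qf_le_iff (ti_S0 (N := N) (b := b) (t := t)) (ti_A (N := N) b t).inv).1
    (S0_le hb ht)
  have hN : (0 : ℝ) < (N : ℝ) ^ 2 := H864.N_pos
  calc ∑ k, sym (S0 N b t) k ≤ ∑ k : Tor N, (t + b⁻¹ * EE k)⁻¹ := by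
        refine Finset.sum_le_sum fun k _ => (h1 k).trans (le_of_eq (sym_Ai hb ht k))
    _ = (N : ℝ) ^ 2 * (b * SN N (b * t)) := by
        unfold SN
        have h2 : ∀ k : Tor N, (t + b⁻¹ * EE k)⁻¹ = b * (1 / (b * t + EE k)) := by
          intro k
          have hE : 0 ≤ EE k := TM.H764.EE_nonneg k
          have h3 : 0 < b * t + EE k := by positivity
          have h4 : t + b⁻¹ * EE k = (b * t + EE k) / b := by
            field_simp
          rw [h4, inv_div, mul_one_div]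
        rw [Finset.sum_congr rfl fun k _ => h2 k, ← Finset.mul_sum]
        have h3 : (N : ℝ) ^ 2 * (b * ((∑ k : Tor N, 1 / (b * t + EE k)) / (N : ℝ) ^ 2)) =
            b * ((∑ k : Tor N, 1 / (b * t + EE k)) * ((N : ℝ) ^ 2 / (N : ℝ) ^ 2)) := by ring
        rw [h3, div_self hN.ne', mul_one]

/-- size of the torus sum -/
lemma SN_le {m : ℝ} (hm : 0 < m) (hm1 : m ≤ 1) (hN : 1 ≤ (N : ℝ) * √m) :
    SN N m ≤ 121 * (1 + Real.log (1 / m)) := by
  have h1 := H474.SN_sub_Im (N := N) hm (by linarith) hN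
  have h2 := H474.Im_le hm hm1
  have h3 : 0 ≤ Real.log (1 / m) := Real.log_nonneg (by rw [le_div_iff₀ hm]; linarith)
  have h4 : Real.log (1 / m) / (4 * Real.pi) ≤ Real.log (1 / m) := by
    refine div_le_self h3 ?_
    have := Real.pi_gt_three
    linarith
  have h5 : Real.exp (-((N : ℝ) * √m / 4)) ≤ 1 := Real.exp_le_one_iff.2 (by linarith)
  have h6 : 0 ≤ H474.Im m := H474.Im_nonneg m
  have h9 := (abs_le.1 h1).2
  nlinarith

/-- the exceptional set of the quadratic condition for a finite family of maps -/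
def BdQ (N : ℕ) [NeZero N] (b t : ℝ) {I : Type*} (s : Finset I) (T : I → Matrix (Tor N) (Tor N) ℝ)
    (A : ℝ) : Set (Tor N → ℝ) := {F | ∃ i ∈ s, A ≤ qf (S0 N b t) (t • (T i *ᵥ F))}

lemma meas_BdQ {I : Type*} (s : Finset I) (T : I → Matrix (Tor N) (Tor N) ℝ) (A : ℝ) :
    MeasurableSet (BdQ N b t s T A) := by
  have hset : BdQ N b t s T A = ⋃ i ∈ s, {F : Tor N → ℝ | A ≤ qf (KT (S0 N b t) (T i) t) F} := by
    ext F
    simp only [Set.mem_iUnion]
    constructor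
    · rintro ⟨i, hi, h⟩
      refine ⟨i, hi, ?_⟩
      show A ≤ qf (KT _ (T i) t) F
      rw [qf_KT]
      exact h
    · rintro ⟨i, hi, h⟩
      refine ⟨i, hi, ?_⟩
      have h' : A ≤ qf (KT (S0 N b t) (T i) t) F := h
      rwa [qf_KT] at h'
  rw [hset]
  exact Finset.measurableSet_biUnion s fun i _ => meas_set _ _

lemma ci_BdQ {I : Type*} (s : Finset I) {T : I → Matrix (Tor N) (Tor N) ℝ}
    (hC : ∀ i ∈ s, TC (T i)) (A : ℝ) : CI (ind (BdQ N b t s T A)) := by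
  intro F c
  have hck : ∀ i ∈ s, CK (KT (S0 N b t) (T i) t) := fun i hi => CK_KT (hC i hi) t
  have hiff : (fun x => F x + c) ∈ BdQ N b t s T A ↔ F ∈ BdQ N b t s T A := by
    constructor
    · rintro ⟨i, hi, h⟩
      refine ⟨i, hi, ?_⟩
      have h' : A ≤ qf (KT (S0 N b t) (T i) t) fun x => F x + c := by
        rw [qf_KT]
        exact h
      rw [hck i hi, qf_KT] at h'
      exact h'
    · rintro ⟨i, hi, h⟩
      refine ⟨i, hi, ?_⟩
      rw [← qf_KT] at h ⊢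
      rw [hck i hi]
      exact h
  unfold ind
  by_cases h : F ∈ BdQ N b t s T A
  · rw [Set.indicator_of_mem h, Set.indicator_of_mem (hiff.2 h)]
  · rw [Set.indicator_of_notMem h, Set.indicator_of_notMem fun hc => h (hiff.1 hc)]

/-- the error term -/
def erQ (N : ℕ) [NeZero N] (b t τ A : ℝ) : ℝ :=
  Real.exp (t * (N : ℝ) ^ 2 * (b * SN N (b * t)) / 2 - A / (16 * τ ^ 2))

/-- **(GQ)** on the torus, law of the dislocated model centred at `φ` -/
theorem gq_Q (hb : 0 < b) (ht : 0 < t) (η : H770.Ed N → ℤ) (x₀ : Tor N) (φ : Tor N → ℝ)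
    {I : Type*} (s : Finset I) {T : I → Matrix (Tor N) (Tor N) ℝ}
    {τ : ℝ} (hτ : 0 < τ) (hT : ∀ i ∈ s, TB (T i) τ) (hC : ∀ i ∈ s, TC (T i)) {B A : ℝ}
    (hA : 4 * (t * τ ^ 2 * ((N : ℝ) ^ 2 * B ^ 2)) < A) :
    EQ (H770.wTD N b η) (t • (1 : Matrix (Tor N) (Tor N) ℝ)) x₀ φ (ind (BdQ N b t s T A)) ≤
      Pp (H770.wTD N b η) x₀ (Sup φ B) + s.card * erQ N b t τ A := by
  have hcard : ((Fintype.card (Tor N) : ℕ) : ℝ) = (N : ℝ) ^ 2 := by
    rw [Fintype.card_prod, ZMod.card]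
    push_cast
    ring
  have h := EQ_gq (H883.bw_wTD hb η) ht x₀ φ ti_S0.transpose (S0_nonneg hb ht) (S0_le_inv hb ht) s
    hτ hT hC (S0_trace hb ht) (B := B) (A := A) (by rw [hcard]; exact hA)
  refine h.trans (le_of_eq ?_)
  unfold erQ
  rw [← mul_assoc]

/-- **(GQ)** on the torus, law `ν` -/
theorem gq_nu (hb : 0 < b) (ht : 0 < t) (x₀ : Tor N) {I : Type*} (s : Finset I)
    {T : I → Matrix (Tor N) (Tor N) ℝ} {τ : ℝ} (hτ : 0 < τ) (hT : ∀ i ∈ s, TB (T i) τ)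
    (hC : ∀ i ∈ s, TC (T i)) {B A : ℝ} (hA : 4 * (t * τ ^ 2 * ((N : ℝ) ^ 2 * B ^ 2)) < A) :
    ∫ F, ind (BdQ N b t s T A) F ∂(nuM (wT b N) (t • (1 : Matrix (Tor N) (Tor N) ℝ)) x₀) ≤
      Pp (wT b N) x₀ (Sup 0 B) + s.card * erQ N b t τ A := by
  have h := gq_Q hb ht (0 : H770.Ed N → ℤ) x₀ 0 s hτ hT hC hA
  rw [H770.wTD_zero] at h
  have hc : CI (ind (BdQ N b t s T A)) := ci_BdQ s hC A
  rw [(nuM_ci (H963.gw_wT hb.le) (bw_wT hb) (mf_scalar ht) x₀ hc (meas_ind (meas_BdQ s T A))).2]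
  unfold EQ at h
  simpa only [sub_zero] using h

end tor

end

end Vale.Agent.P159.H264.Gq
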