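import Vale.Agent.P159.H264.Gq2

/-!
P159 / module GQ (helper264), part 3: the maps `F ↦ a (F - ⟨β, F⟩)` (cuts and decorations), sums of
maps, the numbers, the form with the likelihood `Ψ`.
-/

set_option linter.unusedSectionVars false

namespace Vale.Agent.P159.H264.Gq

open Finset Matrix MeasureTheory
open Vale.Agent.P159.TM.H104 (EM nh Gr li)
open Vale.Agent.P159.H37 (wM ZM qf bf Zn Zs re gau Gm)
open Vale.Agent.P159.H963 (GrI pin MF ntr GW)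
open Vale.Agent.P159.H883

noncomputable section

section la

variable {V : Type} [Fintype V] [DecidableEq V]

/-- `F ↦ a (F - ⟨β, F⟩)` -/
def cutM (a β : V → ℝ) : Matrix V V ℝ := fun x y => a x * ((if x = y then 1 else 0) - β y)

lemma cutM_mulVec (a β F : V → ℝ) (x : V) :
    (cutM a β *ᵥ F) x = a x * (F x - ∑ y, β y * F y) := by
  unfold cutM Matrix.mulVec dotProduct
  have h : ∀ y, a x * ((if x = y then 1 else 0) - β y) * F y =
      a x * (if x = y then F y else 0) - a x * (β y * F y) := by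
    intro y
    split_ifs <;> ring
  rw [Finset.sum_congr rfl fun y _ => h y, Finset.sum_sub_distrib, ← Finset.mul_sum,
    ← Finset.mul_sum, Finset.sum_ite_eq]
  simp only [Finset.mem_univ, if_true]
  ring

lemma TC_cutM {a β : V → ℝ} (hβ : ∑ y, β y = 1) : TC (cutM a β) := by
  funext x
  rw [cutM_mulVec]
  simp only [mul_one, hβ, sub_self, mul_zero, Pi.zero_apply]

lemma TB_cutM {a β : V → ℝ} (ha : ∀ x, |a x| ≤ 1) {m s : ℝ} (hm : ∑ x, a x ^ 2 ≤ m)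
    (hs : ∑ y, β y ^ 2 ≤ s) : TB (cutM a β) (√(2 + 2 * (m * s))) := by
  intro u
  have hm0 : 0 ≤ m := (Finset.sum_nonneg fun x _ => sq_nonneg _).trans hm
  have hs0 : 0 ≤ s := (Finset.sum_nonneg fun x _ => sq_nonneg _).trans hs
  rw [Real.sq_sqrt (by positivity)]
  have hu : 0 ≤ ∑ x, u x ^ 2 := Finset.sum_nonneg fun x _ => sq_nonneg _
  have h1 : (∑ y, β y * u y) ^ 2 ≤ s * ∑ x, u x ^ 2 :=
    (Finset.sum_mul_sq_le_sq_mul_sq _ _ _).trans (mul_le_mul_of_nonneg_right hs hu)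
  calc ∑ x, (cutM a β *ᵥ u) x ^ 2
      ≤ ∑ x, (2 * u x ^ 2 + 2 * (a x ^ 2 * (∑ y, β y * u y) ^ 2)) := by
        refine Finset.sum_le_sum fun x _ => ?_
        rw [cutM_mulVec]
        have h2 : a x ^ 2 ≤ 1 := by
          rw [← sq_abs]
          exact pow_le_one₀ (abs_nonneg _) (ha x)
        have h3 := mul_le_mul_of_nonneg_right h2 (sq_nonneg (u x))
        nlinarith [sq_nonneg (a x * u x + a x * ∑ y, β y * u y)]
    _ = 2 * ∑ x, u x ^ 2 + 2 * ((∑ x, a x ^ 2) * (∑ y, β y * u y) ^ 2) := by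
        rw [Finset.sum_add_distrib, ← Finset.mul_sum, ← Finset.mul_sum, Finset.sum_mul]
    _ ≤ 2 * ∑ x, u x ^ 2 + 2 * (m * (s * ∑ x, u x ^ 2)) := by
        have h2 : (∑ x, a x ^ 2) * (∑ y, β y * u y) ^ 2 ≤ m * (s * ∑ x, u x ^ 2) :=
          mul_le_mul hm h1 (sq_nonneg _) hm0
        linarith
    _ = (2 + 2 * (m * s)) * ∑ x, u x ^ 2 := by ring

lemma TB.smul {T : Matrix V V ℝ} {τ : ℝ} (h : TB T τ) (c : ℝ) : TB (c • T) (c * τ) := by
  intro u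
  have h1 : ∀ x, ((c • T) *ᵥ u) x ^ 2 = c ^ 2 * (T *ᵥ u) x ^ 2 := fun x => by
    rw [Matrix.smul_mulVec, Pi.smul_apply, smul_eq_mul]
    ring
  rw [Finset.sum_congr rfl fun x _ => h1 x, ← Finset.mul_sum]
  have h2 := mul_le_mul_of_nonneg_left (h u) (sq_nonneg c)
  calc c ^ 2 * ∑ x, (T *ᵥ u) x ^ 2 ≤ c ^ 2 * (τ ^ 2 * ∑ x, u x ^ 2) := h2
    _ = (c * τ) ^ 2 * ∑ x, u x ^ 2 := by ring

lemma TB.mono {T : Matrix V V ℝ} {τ τ' : ℝ} (h : TB T τ) (h0 : 0 ≤ τ) (hτ : τ ≤ τ') : TB T τ' := by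
  intro u
  refine (h u).trans (mul_le_mul_of_nonneg_right ?_ (Finset.sum_nonneg fun x _ => sq_nonneg _))
  exact pow_le_pow_left₀ h0 hτ 2

lemma TB.add {T T' : Matrix V V ℝ} {τ τ' : ℝ} (h : TB T τ) (h' : TB T' τ') :
    TB (T + T') (√(2 * τ ^ 2 + 2 * τ' ^ 2)) := by
  intro u
  rw [Real.sq_sqrt (by positivity)]
  calc ∑ x, ((T + T') *ᵥ u) x ^ 2 ≤ ∑ x, (2 * (T *ᵥ u) x ^ 2 + 2 * (T' *ᵥ u) x ^ 2) := by
        refine Finset.sum_le_sum fun x _ => ?_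
        rw [Matrix.add_mulVec, Pi.add_apply]
        nlinarith [sq_nonneg ((T *ᵥ u) x - (T' *ᵥ u) x)]
    _ = 2 * ∑ x, (T *ᵥ u) x ^ 2 + 2 * ∑ x, (T' *ᵥ u) x ^ 2 := by
        rw [Finset.sum_add_distrib, ← Finset.mul_sum, ← Finset.mul_sum]
    _ ≤ 2 * (τ ^ 2 * ∑ x, u x ^ 2) + 2 * (τ' ^ 2 * ∑ x, u x ^ 2) := by
        have := h u
        have := h' u
        linarith
    _ = (2 * τ ^ 2 + 2 * τ' ^ 2) * ∑ x, u x ^ 2 := by ring

lemma TB.mul {T T' : Matrix V V ℝ} {τ τ' : ℝ} (h : TB T τ) (h' : TB T' τ') :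
    TB (T * T') (τ * τ') := by
  intro u
  rw [← Matrix.mulVec_mulVec]
  calc ∑ x, (T *ᵥ (T' *ᵥ u)) x ^ 2 ≤ τ ^ 2 * ∑ x, (T' *ᵥ u) x ^ 2 := h _
    _ ≤ τ ^ 2 * (τ' ^ 2 * ∑ x, u x ^ 2) := mul_le_mul_of_nonneg_left (h' u) (sq_nonneg τ)
    _ = (τ * τ') ^ 2 * ∑ x, u x ^ 2 := by ring

lemma TC.add {T T' : Matrix V V ℝ} (h : TC T) (h' : TC T') : TC (T + T') := by
  unfold TC at *
  rw [Matrix.add_mulVec, h, h', add_zero]

lemma TC.smul {T : Matrix V V ℝ} (h : TC T) (c : ℝ) : TC (c • T) := by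
  unfold TC at *
  rw [Matrix.smul_mulVec, h, smul_zero]

lemma TC.mul_left {T' : Matrix V V ℝ} (T : Matrix V V ℝ) (h : TC T') : TC (T * T') := by
  unfold TC at *
  rw [← Matrix.mulVec_mulVec, h, Matrix.mulVec_zero]

end la

/-! ### the torus -/

section tor

open Vale.Agent.P159.TM.SpecC (Tor wT)
open Vale.Agent.P159.H474 (SN)

variable {N : ℕ} [NeZero N] {b t : ℝ}

/-- the numbers: `A ≥ 16 τ² (E + 61 b t N² (1 + log (1/(b t))))` -/
theorem erQ_le (hb : 0 < b) (ht : 0 < t) (hbt : b * t ≤ 1) (hN : 1 ≤ (N : ℝ) * √(b * t)) {τ : ℝ}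
    (hτ : 0 < τ) {A E : ℝ}
    (hA : 16 * τ ^ 2 * (E + 61 * (b * t * (N : ℝ) ^ 2) * (1 + Real.log (1 / (b * t)))) ≤ A) :
    erQ N b t τ A ≤ Real.exp (-E) := by
  unfold erQ
  refine Real.exp_le_exp.2 ?_
  have h1 := SN_le (N := N) (mul_pos hb ht) hbt hN
  have hL : 0 ≤ Real.log (1 / (b * t)) := Real.log_nonneg (by
    rw [le_div_iff₀ (mul_pos hb ht)]
    linarith)
  have h2 : t * (N : ℝ) ^ 2 * (b * SN N (b * t)) / 2 ≤
      61 * (b * t * (N : ℝ) ^ 2) * (1 + Real.log (1 / (b * t))) := by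
    have h3 : t * (N : ℝ) ^ 2 * (b * SN N (b * t)) ≤
        t * (N : ℝ) ^ 2 * (b * (121 * (1 + Real.log (1 / (b * t))))) := by
      refine mul_le_mul_of_nonneg_left ?_ (by positivity)
      exact mul_le_mul_of_nonneg_left h1 hb.le
    have h4 : 0 ≤ b * t * (N : ℝ) ^ 2 * (1 + Real.log (1 / (b * t))) := by positivity
    nlinarith
  have h3 : E + 61 * (b * t * (N : ℝ) ^ 2) * (1 + Real.log (1 / (b * t))) ≤ A / (16 * τ ^ 2) := by
    rw [le_div_iff₀ (by positivity)]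
    linarith
  linarith

/-- **(GQ)** with the likelihood: `∫_{bad} Ψ dν ≤ C (...)`, `C = Zp wD / Zp w` -/
theorem gq_Psi (hb : 0 < b) (ht : 0 < t) (η : H770.Ed N → ℤ) (x₀ : Tor N) (φ : Tor N → ℝ)
    {I : Type*} (s : Finset I) {T : I → Matrix (Tor N) (Tor N) ℝ}
    {τ : ℝ} (hτ : 0 < τ) (hT : ∀ i ∈ s, TB (T i) τ) (hC : ∀ i ∈ s, TC (T i)) {B A : ℝ}
    (hA : 4 * (t * τ ^ 2 * ((N : ℝ) ^ 2 * B ^ 2)) < A) :
    ∫ F, Psi (wT b N) (H770.wTD N b η) (t • (1 : Matrix (Tor N) (Tor N) ℝ)) φ F *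
        ind (BdQ N b t s T A) F ∂(nuM (wT b N) (t • (1 : Matrix (Tor N) (Tor N) ℝ)) x₀) ≤
      Zp (H770.wTD N b η) x₀ / Zp (wT b N) x₀ *
        (Pp (H770.wTD N b η) x₀ (Sup φ B) + s.card * erQ N b t τ A) := by
  have hw := bw_wT (N := N) hb
  have hD := bw_wTD (N := N) hb η
  have hc : CI (ind (BdQ N b t s T A)) := ci_BdQ s hC A
  have hcP : CI fun F : Tor N → ℝ => Psi (wT b N) (H770.wTD N b η)
      (t • (1 : Matrix (Tor N) (Tor N) ℝ)) φ F * ind (BdQ N b t s T A) F := by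
    intro F c
    simp only
    rw [ci_Psi hw hD φ F c, hc F c]
  have hPm : Measurable (Psi (wT b N) (H770.wTD N b η) (t • (1 : Matrix (Tor N) (Tor N) ℝ)) φ) :=
    (continuous_Psi hw hD (mf_scalar ht) φ).measurable
  rw [(nuM_ci (H963.gw_wT hb.le) hw (mf_scalar ht) x₀ hcP
    (hPm.mul (meas_ind (meas_BdQ s T A)))).2, EQ_eq hw hD (mf_scalar ht) x₀ φ hc]
  refine mul_le_mul_of_nonneg_left (gq_Q hb ht η x₀ φ s hτ hT hC hA) ?_
  exact (div_pos (hD.Zp_pos x₀) (hw.Zp_pos x₀)).le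

end tor

end

end Vale.Agent.P159.H264.Gq
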