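import Vale.Agent.P159.H264.OdeEps
import Mathlib.Analysis.MeanInequalitiesPow

/-!
P159 (helper264): flow lemmas in integrated form, with arbitrary exponent `b` and weight `(m+1)^ε`.

* `low_gen`: `c ∑_{[n,M)} (m+1)^{-ε} e^{-b T_m} - F_n - F_M ≤ s_n - s_M` gives
  `α (N+1)^{1-ε/2} ≤ e^{(b/2) T_N}`;
* `up_gen`: `s_n - s_M ≤ C ∑_{[n,M)} (m+1)^ε e^{-b T_m} + F_n + F_M` gives
  `e^{b T_N / (2+ε)} ≤ β (N+1)`.
-/

open Filter Topology Finset

namespace Vale.Agent.P159.H264

section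
variable {s F : ℕ → ℝ}

theorem TT_sub (s : ℕ → ℝ) {n N : ℕ} (h : n ≤ N) : TT s N - TT s n = ∑ i ∈ Ico n N, s i := by
  rw [TT, TT, sum_Ico_eq_sub _ h]

/-- a time `M ∈ [N, 2N)` at which `F` is small -/
theorem exists_small (hF : ∀ n, 0 ≤ F n) (hFs : Summable F) {N : ℕ} (hN : 1 ≤ N) :
    ∃ M, N ≤ M ∧ (N : ℝ) * F M ≤ ∑' n, F n := by
  by_contra! h
  have hN' : (0 : ℝ) < N := by exact_mod_cast hN
  have h3 : ∑ M ∈ Ico N (2 * N), F M ≤ ∑' n, F n := hFs.sum_le_tsum _ fun k _ => hF k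
  have h4 : (N : ℝ) * ∑ M ∈ Ico N (2 * N), F M ≤ N * ∑' n, F n :=
    mul_le_mul_of_nonneg_left h3 hN'.le
  have h5 : ∑ _M ∈ Ico N (2 * N), (∑' n, F n) < ∑ M ∈ Ico N (2 * N), (N : ℝ) * F M := by
    apply sum_lt_sum_of_nonempty
    · exact nonempty_Ico.2 (by omega)
    · intro i hi
      exact h i (mem_Ico.1 hi).1
  rw [sum_const, Nat.card_Ico, nsmul_eq_mul, ← mul_sum] at h5
  have : ((2 * N - N : ℕ) : ℝ) = N := by
    congr 1; omega
  rw [this] at h5
  linarith

/-- `∑_{i ∈ [n,N)} (N - i) ≥ (N-n)²/2` -/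
theorem sum_lin (n N : ℕ) (h : n ≤ N) :
    ((N : ℝ) - n) ^ 2 / 2 ≤ ∑ i ∈ Ico n N, ((N : ℝ) - i) := by
  induction N, h using Nat.le_induction with
  | base => simp
  | succ N h ih =>
    rw [sum_Ico_succ_top h]
    have h1 : ∑ i ∈ Ico n N, (((N + 1 : ℕ) : ℝ) - i) =
        ∑ i ∈ Ico n N, ((N : ℝ) - i) + ((N : ℝ) - n) := by
      have : ∀ i ∈ Ico n N, (((N + 1 : ℕ) : ℝ) - i) = ((N : ℝ) - i) + 1 := by
        intro i _; push_cast; ring
      rw [sum_congr rfl this, sum_add_distrib, sum_const, Nat.card_Ico, nsmul_eq_mul, mul_one,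
        Nat.cast_sub h]
    rw [h1]
    push_cast
    nlinarith

theorem low_gen {b c ε : ℝ} (hb : 0 < b) (hc : 0 < c) (hε0 : 0 ≤ ε) (hε2 : ε ≤ 2)
    (hs : Antitone s) (hs0 : Tendsto s atTop (𝓝 0)) (hF : ∀ n, 0 ≤ F n) (hFs : Summable F)
    (hP : ∀ n M : ℕ, n ≤ M → c * ∑ m ∈ Ico n M, ((m : ℝ) + 1) ^ (-ε) * Real.exp (-(b * TT s m)) -
      F n - F M ≤ s n - s M) :
    ∃ α : ℝ, 0 < α ∧ ∀ N : ℕ, α * ((N : ℝ) + 1) ^ (1 - ε / 2) ≤ Real.exp (b / 2 * TT s N) := by
  have hsn := x_nonneg hs hs0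
  have hT := TT_mono hsn
  have hT0 := TT_nonneg hsn
  set Φ : ℝ := ∑' n, F n with hΦ
  have hΦ0 : 0 ≤ Φ := tsum_nonneg hF
  set A : ℝ := 18 * (2 / b * Real.log 2 + 2 * Φ) with hA
  have hlog : 0 < Real.log 2 := Real.log_pos (by norm_num)
  have hA0 : 0 < A := by positivity
  set α : ℝ := min (1 / 2) (Real.sqrt (c / A)) with hα
  have hα0 : 0 < α := lt_min (by norm_num) (Real.sqrt_pos.2 (by positivity))
  have hα1 : α ≤ 1 / 2 := min_le_left _ _
  have hα2 : α ^ 2 ≤ c / A := by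
    have h1 : α ≤ Real.sqrt (c / A) := min_le_right _ _
    calc α ^ 2 ≤ Real.sqrt (c / A) ^ 2 := pow_le_pow_left₀ hα0.le h1 2
      _ = c / A := Real.sq_sqrt (by positivity)
  have hp0 : 0 ≤ 1 - ε / 2 := by linarith
  have hp1 : 1 - ε / 2 ≤ 1 := by linarith
  refine ⟨α, hα0, fun N => ?_⟩
  induction N using Nat.strong_induction_on with
  | _ N ih =>
  have hw1 : 1 ≤ Real.exp (b / 2 * TT s N) := Real.one_le_exp (by have := hT0 N; positivity)
  rcases lt_or_ge N 2 with hN | hN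
  · have h1 : ((N : ℝ) + 1) ≤ 2 := by
      have : (N : ℝ) ≤ 1 := by exact_mod_cast Nat.lt_succ_iff.1 hN
      linarith
    have h2 : ((N : ℝ) + 1) ^ (1 - ε / 2) ≤ 2 := by
      calc ((N : ℝ) + 1) ^ (1 - ε / 2) ≤ ((N : ℝ) + 1) ^ (1 : ℝ) :=
            Real.rpow_le_rpow_of_exponent_le (by have : (0 : ℝ) ≤ N := Nat.cast_nonneg N
                                                 linarith) hp1
        _ ≤ 2 := by rwa [Real.rpow_one]
    have h3 : 0 ≤ ((N : ℝ) + 1) ^ (1 - ε / 2) := by positivity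
    nlinarith
  set n := N / 2 with hn
  have hnN : n < N := by omega
  have hNn : (N : ℝ) + 1 ≤ 2 * ((n : ℝ) + 1) := by
    have : N + 1 ≤ 2 * (n + 1) := by omega
    exact_mod_cast this
  set X : ℝ := (N : ℝ) + 1 with hX
  have hX0 : 0 < X := by positivity
  rcases lt_or_ge (2 * Real.exp (b / 2 * TT s n)) (Real.exp (b / 2 * TT s N)) with hc1 | hc1
  · have h1 := ih n hnN
    have h2 : X ^ (1 - ε / 2) ≤ 2 * ((n : ℝ) + 1) ^ (1 - ε / 2) := by
      calc X ^ (1 - ε / 2) ≤ (2 * ((n : ℝ) + 1)) ^ (1 - ε / 2) :=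
            Real.rpow_le_rpow hX0.le hNn hp0
        _ = 2 ^ (1 - ε / 2) * ((n : ℝ) + 1) ^ (1 - ε / 2) :=
            Real.mul_rpow (by norm_num) (by positivity)
        _ ≤ 2 * ((n : ℝ) + 1) ^ (1 - ε / 2) := by
            refine mul_le_mul_of_nonneg_right ?_ (by positivity)
            calc (2 : ℝ) ^ (1 - ε / 2) ≤ 2 ^ (1 : ℝ) :=
                  Real.rpow_le_rpow_of_exponent_le (by norm_num) hp1
              _ = 2 := Real.rpow_one 2
    calc α * X ^ (1 - ε / 2) ≤ α * (2 * ((n : ℝ) + 1) ^ (1 - ε / 2)) :=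
          mul_le_mul_of_nonneg_left h2 hα0.le
      _ = 2 * (α * ((n : ℝ) + 1) ^ (1 - ε / 2)) := by ring
      _ ≤ 2 * Real.exp (b / 2 * TT s n) := by linarith
      _ ≤ _ := hc1.le
  · -- the window `[n, N)` has `T_N - T_n ≤ (2/b) log 2`
    have hTd : TT s N - TT s n ≤ 2 / b * Real.log 2 := by
      have h1 : Real.exp (b / 2 * TT s N) ≤ Real.exp (Real.log 2 + b / 2 * TT s n) := by
        rw [Real.exp_add, Real.exp_log (by norm_num)]; exact hc1
      have h2 := Real.exp_le_exp.1 h1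
      have h3 : b / 2 * (TT s N - TT s n) ≤ Real.log 2 := by linarith
      have h4 : 2 / b * Real.log 2 = Real.log 2 / (b / 2) := by field_simp
      rw [h4, le_div_iff₀ (by positivity)]
      linarith
    obtain ⟨M, hNM, hFM⟩ := exists_small hF hFs (N := N) (by omega)
    have hsi : ∀ i ∈ Ico n N, c * (((N : ℝ) - i) * (X ^ (-ε) * Real.exp (-(b * TT s N)))) -
        F i - F M ≤ s i := by
      intro i hi
      have hi' := mem_Ico.1 hi
      have h1 := hP i M (by omega)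
      have h2 : ((N : ℝ) - i) * (X ^ (-ε) * Real.exp (-(b * TT s N))) ≤
          ∑ m ∈ Ico i M, ((m : ℝ) + 1) ^ (-ε) * Real.exp (-(b * TT s m)) := by
        have h3 : ∑ m ∈ Ico i N, X ^ (-ε) * Real.exp (-(b * TT s N)) ≤
            ∑ m ∈ Ico i N, ((m : ℝ) + 1) ^ (-ε) * Real.exp (-(b * TT s m)) := by
          refine sum_le_sum fun m hm => ?_
          have hm' := mem_Ico.1 hm
          have hmN : (m : ℝ) ≤ N := by exact_mod_cast hm'.2.le
          refine mul_le_mul ?_ ?_ (Real.exp_pos _).le (by positivity)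
          · rw [Real.rpow_neg hX0.le, Real.rpow_neg (by positivity)]
            refine inv_anti₀ (by positivity) ?_
            exact Real.rpow_le_rpow (by positivity) (by rw [hX]; linarith) hε0
          · apply Real.exp_le_exp.2
            have := hT hm'.2.le
            nlinarith
        have h4 : ∑ m ∈ Ico i N, ((m : ℝ) + 1) ^ (-ε) * Real.exp (-(b * TT s m)) ≤
            ∑ m ∈ Ico i M, ((m : ℝ) + 1) ^ (-ε) * Real.exp (-(b * TT s m)) :=
          sum_le_sum_of_subset_of_nonneg (Ico_subset_Ico_right hNM) fun m _ _ => by positivity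
        rw [sum_const, Nat.card_Ico, nsmul_eq_mul, Nat.cast_sub hi'.2.le] at h3
        linarith
      have h5 := mul_le_mul_of_nonneg_left h2 hc.le
      linarith [hsn M]
    have hsum := sum_le_sum hsi
    rw [← TT_sub s hnN.le] at hsum
    have h6 : ∑ i ∈ Ico n N, (c * (((N : ℝ) - i) * (X ^ (-ε) * Real.exp (-(b * TT s N)))) -
        F i - F M) = c * (X ^ (-ε) * Real.exp (-(b * TT s N))) * (∑ i ∈ Ico n N, ((N : ℝ) - i)) -
        ∑ i ∈ Ico n N, F i - ((N : ℝ) - n) * F M := by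
      rw [sum_sub_distrib, sum_sub_distrib, sum_const, Nat.card_Ico, nsmul_eq_mul,
        Nat.cast_sub hnN.le, mul_sum]
      congr 2
      refine sum_congr rfl fun i _ => by ring
    rw [h6] at hsum
    have h7 : ∑ i ∈ Ico n N, F i ≤ Φ := hFs.sum_le_tsum _ fun k _ => hF k
    have h8 : ((N : ℝ) - n) * F M ≤ Φ := by
      have : ((N : ℝ) - n) * F M ≤ N * F M :=
        mul_le_mul_of_nonneg_right (by have : (0 : ℝ) ≤ n := Nat.cast_nonneg n
                                       linarith) (hF M)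
      linarith
    have h9 := sum_lin n N hnN.le
    have h10 : X ^ 2 / 18 ≤ ∑ i ∈ Ico n N, ((N : ℝ) - i) := by
      have h11 : X / 3 ≤ (N : ℝ) - n := by
        have : N + 1 ≤ 3 * (N - n) := by omega
        have h12 : ((N + 1 : ℕ) : ℝ) ≤ ((3 * (N - n) : ℕ) : ℝ) := by exact_mod_cast this
        rw [Nat.cast_mul, Nat.cast_sub hnN.le] at h12
        push_cast at h12
        rw [hX]; linarith
      nlinarith
    set W : ℝ := Real.exp (b / 2 * TT s N) with hW
    have hW0 : 0 < W := Real.exp_pos _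
    have hWE : W ^ 2 * Real.exp (-(b * TT s N)) = 1 := by
      rw [hW, ← Real.exp_nat_mul, ← Real.exp_add]
      push_cast
      rw [show (2 : ℝ) * (b / 2 * TT s N) + -(b * TT s N) = 0 by ring, Real.exp_zero]
    set Y : ℝ := X ^ (1 - ε / 2) with hY
    have hY0 : 0 < Y := by positivity
    have hYX : X ^ (-ε) * X ^ 2 = Y ^ 2 := by
      rw [hY, ← Real.rpow_natCast X 2, ← Real.rpow_add hX0, ← Real.rpow_natCast _ 2,
        ← Real.rpow_mul hX0.le]
      congr 1
      push_cast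
      ring
    have h13 : c * (X ^ (-ε) * Real.exp (-(b * TT s N))) * (X ^ 2 / 18) ≤
        2 / b * Real.log 2 + 2 * Φ := by
      have h14 : c * (X ^ (-ε) * Real.exp (-(b * TT s N))) * (X ^ 2 / 18) ≤
          c * (X ^ (-ε) * Real.exp (-(b * TT s N))) * (∑ i ∈ Ico n N, ((N : ℝ) - i)) :=
        mul_le_mul_of_nonneg_left h10 (by positivity)
      linarith
    have h15 : c * Y ^ 2 ≤ A * W ^ 2 := by
      have h16 := mul_le_mul_of_nonneg_left h13 (show 0 ≤ 18 * W ^ 2 by positivity)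
      have h17 : 18 * W ^ 2 * (c * (X ^ (-ε) * Real.exp (-(b * TT s N))) * (X ^ 2 / 18)) =
          c * Y ^ 2 := by
        rw [← hYX]
        calc _ = c * (X ^ (-ε) * X ^ 2) * (W ^ 2 * Real.exp (-(b * TT s N))) := by ring
          _ = _ := by rw [hWE, mul_one]
      rw [h17] at h16
      rw [hA]
      linarith
    have h18 : (α * Y) ^ 2 ≤ W ^ 2 := by
      have h19 : α ^ 2 * A ≤ c := by
        rw [← le_div_iff₀ hA0]; exact hα2
      have h20 : A * (α * Y) ^ 2 ≤ A * W ^ 2 := by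
        calc A * (α * Y) ^ 2 = (α ^ 2 * A) * Y ^ 2 := by ring
          _ ≤ c * Y ^ 2 := mul_le_mul_of_nonneg_right h19 (sq_nonneg _)
          _ ≤ _ := h15
      exact le_of_mul_le_mul_left h20 hA0
    exact (sq_le_sq₀ (by positivity) hW0.le).1 h18

/-! ### the upper lemma -/

theorem rpow_le_one_add {x ε : ℝ} (hx : 0 ≤ x) (hε0 : 0 ≤ ε) (hε1 : ε ≤ 1) : x ^ ε ≤ 1 + x := by
  rcases le_or_gt x 1 with h | h
  · have := Real.rpow_le_one hx h hε0
    linarith
  · have : x ^ ε ≤ x ^ (1 : ℝ) := Real.rpow_le_rpow_of_exponent_le h.le hε1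
    rw [Real.rpow_one] at this
    linarith

/-- `j^ε ≤ a^{-ε} (1 + a j)` -/
theorem rpow_scale {a j ε : ℝ} (ha : 0 < a) (hj : 0 ≤ j) (hε0 : 0 ≤ ε) (hε1 : ε ≤ 1) :
    j ^ ε ≤ a ^ (-ε) * (1 + a * j) := by
  have h1 := rpow_le_one_add (mul_nonneg ha.le hj) hε0 hε1
  rw [Real.mul_rpow ha.le hj] at h1
  rw [Real.rpow_neg ha.le, inv_mul_eq_div, le_div_iff₀ (by positivity)]
  linarith

theorem geo_sum_le {q : ℝ} (hq0 : 0 ≤ q) (hq1 : q < 1) (J : ℕ) :
    ∑ j ∈ range J, q ^ j ≤ 1 / (1 - q) := by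
  have h1 : ∑ j ∈ range J, q ^ j ≤ ∑' j, q ^ j :=
    (summable_geometric_of_lt_one hq0 hq1).sum_le_tsum _ fun k _ => by positivity
  rw [tsum_geometric_of_lt_one hq0 hq1] at h1
  rwa [one_div]

theorem geo_sum_mul_le {q : ℝ} (hq0 : 0 ≤ q) (hq1 : q < 1) (J : ℕ) :
    ∑ j ∈ range J, (j : ℝ) * q ^ j ≤ 1 / (1 - q) ^ 2 := by
  have h0 := hasSum_coe_mul_geometric_of_norm_lt_one (𝕜 := ℝ) (r := q)
    (by rw [Real.norm_eq_abs, abs_of_nonneg hq0]; exact hq1)
  have h1 : ∑ j ∈ range J, (j : ℝ) * q ^ j ≤ q / (1 - q) ^ 2 :=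
    sum_le_hasSum _ (fun k _ => by positivity) h0
  have h2 : 0 < (1 - q) ^ 2 := by
    have : 0 < 1 - q := by linarith
    positivity
  exact h1.trans (div_le_div_of_nonneg_right hq1.le h2.le)

theorem one_sub_exp_ge {b a a0 : ℝ} (hb : 0 < b) (ha : 0 < a) (ha0 : a ≤ a0) :
    (b / 2) / (1 + b / 2 * a0) * a ≤ 1 - Real.exp (-(b * (a / 2))) := by
  have h1 := Real.add_one_le_exp (b * (a / 2))
  have h2 : Real.exp (-(b * (a / 2))) ≤ 1 / (1 + b / 2 * a) := by
    rw [Real.exp_neg, ← one_div]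
    exact one_div_le_one_div_of_le (by positivity) (by linarith)
  have h3 : 1 - 1 / (1 + b / 2 * a) = (b / 2) * a / (1 + b / 2 * a) := by
    field_simp
    ring
  have h4 : (b / 2) / (1 + b / 2 * a0) * a ≤ (b / 2) * a / (1 + b / 2 * a) := by
    rw [div_mul_eq_mul_div]
    refine div_le_div_of_nonneg_left (by positivity) (by positivity) ?_
    have : b / 2 * a ≤ b / 2 * a0 := mul_le_mul_of_nonneg_left ha0 (by positivity)
    linarith
  linarith

/-- first piece: `∑_{[n,M1)}` -/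
theorem piece_one {b ε a ρ : ℝ} {T : ℕ → ℝ} {n M1 : ℕ} (hb : 0 < b) (hε0 : 0 ≤ ε)
    (hε1 : ε ≤ 1) (ha0 : 0 < a) (hρ0 : 0 < ρ) (hqρ : ρ * a ≤ 1 - Real.exp (-(b * (a / 2))))
    (hTlin : ∀ m, n ≤ m → m ≤ M1 → T n + ((m : ℝ) - n) * (a / 2) ≤ T m) :
    ∑ m ∈ Ico n M1, ((m : ℝ) + 1) ^ ε * Real.exp (-(b * T m)) ≤
      Real.exp (-(b * T n)) * ((1 / ρ + 1 / ρ ^ 2) *
        (((n : ℝ) + 1) ^ ε / a + a ^ (-ε) / a)) := by
  set q : ℝ := Real.exp (-(b * (a / 2))) with hq
  have hq0 : 0 < q := Real.exp_pos _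
  have hq1 : q < 1 := by
    rw [hq, Real.exp_lt_one_iff]
    have : 0 < b * (a / 2) := by positivity
    linarith
  set En := Real.exp (-(b * T n)) with hEn
  have hEn0 : 0 < En := Real.exp_pos _
  set X : ℝ := ((n : ℝ) + 1) ^ ε with hX
  have hX0 : 0 < X := by positivity
  set Z : ℝ := a ^ (-ε) with hZ
  have hZ0 : 0 < Z := by positivity
  have hexp : ∀ m, n ≤ m → m ≤ M1 → Real.exp (-(b * T m)) ≤ En * q ^ (m - n) := by
    intro m hnm hm
    have h1 := hTlin m hnm hm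
    rw [hEn, hq, ← Real.exp_nat_mul, ← Real.exp_add]
    apply Real.exp_le_exp.2
    rw [Nat.cast_sub hnm]
    have h2 := mul_le_mul_of_nonneg_left h1 hb.le
    linarith
  have h1 : ∀ m ∈ Ico n M1, ((m : ℝ) + 1) ^ ε * Real.exp (-(b * T m)) ≤
      En * (X * q ^ (m - n) + Z * (q ^ (m - n) + a * (((m - n : ℕ) : ℝ) * q ^ (m - n)))) := by
    intro m hm
    have hm' := mem_Ico.1 hm
    have h2 : ((m : ℝ) + 1) ^ ε ≤ X + Z * (1 + a * ((m - n : ℕ) : ℝ)) := by
      have h3 : ((m : ℝ) + 1) = ((n : ℝ) + 1) + ((m - n : ℕ) : ℝ) := by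
        rw [Nat.cast_sub hm'.1]; ring
      rw [h3]
      refine (Real.rpow_add_le_add_rpow (by positivity) (by positivity) hε0 hε1).trans ?_
      have := rpow_scale ha0 (Nat.cast_nonneg (m - n)) hε0 hε1
      linarith
    have h4 := hexp m hm'.1 hm'.2.le
    calc ((m : ℝ) + 1) ^ ε * Real.exp (-(b * T m)) ≤
          (X + Z * (1 + a * ((m - n : ℕ) : ℝ))) * (En * q ^ (m - n)) :=
          mul_le_mul h2 h4 (Real.exp_pos _).le (by positivity)
      _ = _ := by ring
  refine (sum_le_sum h1).trans ?_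
  rw [← mul_sum]
  refine mul_le_mul_of_nonneg_left ?_ hEn0.le
  rw [sum_add_distrib, ← mul_sum, ← mul_sum, sum_add_distrib, ← mul_sum]
  have h5 : ∑ m ∈ Ico n M1, q ^ (m - n) ≤ 1 / (1 - q) := by
    rw [sum_Ico_eq_sum_range]
    have := geo_sum_le hq0.le hq1 (M1 - n)
    simpa using this
  have h6 : ∑ m ∈ Ico n M1, ((m - n : ℕ) : ℝ) * q ^ (m - n) ≤ 1 / (1 - q) ^ 2 := by
    rw [sum_Ico_eq_sum_range]
    have := geo_sum_mul_le hq0.le hq1 (M1 - n)
    simpa using this
  have h7 : 1 / (1 - q) ≤ 1 / ρ / a := by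
    rw [div_div]
    exact one_div_le_one_div_of_le (by positivity) hqρ
  have h8 : 1 / (1 - q) ^ 2 ≤ 1 / ρ ^ 2 / a ^ 2 := by
    rw [div_div, ← mul_pow]
    exact one_div_le_one_div_of_le (by positivity) (pow_le_pow_left₀ (by positivity) hqρ 2)
  have h9 : X * ∑ m ∈ Ico n M1, q ^ (m - n) ≤ X * (1 / ρ / a) :=
    mul_le_mul_of_nonneg_left (h5.trans h7) hX0.le
  have h10 : Z * (∑ m ∈ Ico n M1, q ^ (m - n) +
      a * ∑ m ∈ Ico n M1, ((m - n : ℕ) : ℝ) * q ^ (m - n)) ≤
      Z * (1 / ρ / a + a * (1 / ρ ^ 2 / a ^ 2)) :=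
    mul_le_mul_of_nonneg_left (add_le_add (h5.trans h7)
      (mul_le_mul_of_nonneg_left (h6.trans h8) ha0.le)) hZ0.le
  have h11 : X * (1 / ρ / a) ≤ (1 / ρ + 1 / ρ ^ 2) * (X / a) := by
    have h12 : (1 / ρ + 1 / ρ ^ 2) * (X / a) = X * (1 / ρ / a) + X / a * (1 / ρ ^ 2) := by ring
    rw [h12]
    have : 0 ≤ X / a * (1 / ρ ^ 2) := by positivity
    linarith
  have h12 : Z * (1 / ρ / a + a * (1 / ρ ^ 2 / a ^ 2)) = (1 / ρ + 1 / ρ ^ 2) * (Z / a) := by
    field_simp
  calc _ ≤ X * (1 / ρ / a) + Z * (1 / ρ / a + a * (1 / ρ ^ 2 / a ^ 2)) := add_le_add h9 h10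
    _ ≤ (1 / ρ + 1 / ρ ^ 2) * (X / a) + (1 / ρ + 1 / ρ ^ 2) * (Z / a) := by rw [h12]; linarith
    _ = _ := by ring

/-- second piece: `∑_{[M1,M2)}` -/
theorem piece_two {b ε a Φ : ℝ} {T : ℕ → ℝ} {n M1 M2 : ℕ} (hb : 0 < b) (hε0 : 0 ≤ ε)
    (hε1 : ε ≤ 1) (ha0 : 0 < a) (hΦ0 : 0 ≤ Φ) (hn : n ≤ M1) (hM : M1 ≤ M2) (hT : Monotone T)
    (hTlin : T n + ((M1 : ℝ) - n) * (a / 2) ≤ T M1)
    (hcard : ((M2 : ℝ) - M1) * (a / 8) ≤ Φ) :
    ∑ m ∈ Ico M1 M2, ((m : ℝ) + 1) ^ ε * Real.exp (-(b * T m)) ≤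
      Real.exp (-(b * T n)) * ((8 * Φ * (3 + 2 / b + 8 * Φ)) *
        (((n : ℝ) + 1) ^ ε / a + a ^ (-ε) / a)) := by
  set En := Real.exp (-(b * T n)) with hEn
  have hEn0 : 0 < En := Real.exp_pos _
  set X : ℝ := ((n : ℝ) + 1) ^ ε with hX
  have hX0 : 0 < X := by positivity
  set Z : ℝ := a ^ (-ε) with hZ
  have hZ0 : 0 < Z := by positivity
  set R : ℝ := 3 + 2 / b + 8 * Φ with hR
  have hR0 : 0 < R := by positivity
  have hR1 : 1 ≤ R := by
    have : 0 < 2 / b := by positivity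
    rw [hR]; linarith
  have hcard' : ((M2 : ℝ) - M1) ≤ 8 * Φ / a := by
    rw [le_div_iff₀ ha0]; linarith
  set J : ℝ := ((M1 - n : ℕ) : ℝ) with hJ
  have hJ0 : 0 ≤ J := Nat.cast_nonneg _
  set Q : ℝ := Real.exp (-(b / 2 * (a * J))) with hQ
  have hQ0 : 0 < Q := Real.exp_pos _
  have hQ1 : Q ≤ 1 := by
    rw [hQ, Real.exp_le_one_iff]
    have : 0 ≤ b / 2 * (a * J) := by positivity
    linarith
  have hQ2 : a * J * Q ≤ 2 / b := by
    have h13 := Real.add_one_le_exp (b / 2 * (a * J))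
    have h14 : b / 2 * (a * J) * Q ≤ 1 := by
      rw [hQ, Real.exp_neg, mul_inv_le_iff₀ (Real.exp_pos _)]
      linarith
    rw [le_div_iff₀ hb]
    linarith
  have h1 : ∀ m ∈ Ico M1 M2, ((m : ℝ) + 1) ^ ε * Real.exp (-(b * T m)) ≤ En * (X + Z * R) := by
    intro m hm
    have hm' := mem_Ico.1 hm
    have h2 : ((m : ℝ) + 1) ^ ε ≤ X + Z * (1 + a * J) + Z * (1 + 8 * Φ) := by
      have h3 : ((m : ℝ) + 1) = (((n : ℝ) + 1) + J) + ((m - M1 : ℕ) : ℝ) := by
        rw [hJ, Nat.cast_sub hn, Nat.cast_sub hm'.1]; ring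
      rw [h3]
      refine (Real.rpow_add_le_add_rpow (by positivity) (by positivity) hε0 hε1).trans ?_
      have h4 := Real.rpow_add_le_add_rpow (show 0 ≤ (n : ℝ) + 1 by positivity) hJ0 hε0 hε1
      have h5 := rpow_scale ha0 hJ0 hε0 hε1
      have h6 := rpow_scale ha0 (Nat.cast_nonneg (m - M1)) hε0 hε1
      have h7 : a * ((m - M1 : ℕ) : ℝ) ≤ 8 * Φ := by
        rw [Nat.cast_sub hm'.1]
        have h8 : (m : ℝ) ≤ M2 := by exact_mod_cast hm'.2.le
        have h9 : a * ((m : ℝ) - M1) ≤ a * ((M2 : ℝ) - M1) :=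
          mul_le_mul_of_nonneg_left (by linarith) ha0.le
        linarith
      have h8 : Z * (1 + a * ((m - M1 : ℕ) : ℝ)) ≤ Z * (1 + 8 * Φ) :=
        mul_le_mul_of_nonneg_left (by linarith) hZ0.le
      linarith
    have h9 : Real.exp (-(b * T m)) ≤ En * Q := by
      rw [hEn, hQ, ← Real.exp_add]
      apply Real.exp_le_exp.2
      have h10 := hT hm'.1
      have h11 : T n + J * (a / 2) ≤ T m := by
        rw [hJ, Nat.cast_sub hn]; linarith
      have h12 := mul_le_mul_of_nonneg_left h11 hb.le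
      linarith
    calc ((m : ℝ) + 1) ^ ε * Real.exp (-(b * T m)) ≤
          (X + Z * (1 + a * J) + Z * (1 + 8 * Φ)) * (En * Q) :=
          mul_le_mul h2 h9 (Real.exp_pos _).le (by positivity)
      _ = En * (X * Q + Z * (Q + a * J * Q) + Z * ((1 + 8 * Φ) * Q)) := by ring
      _ ≤ En * (X * 1 + Z * (1 + 2 / b) + Z * ((1 + 8 * Φ) * 1)) := by
          refine mul_le_mul_of_nonneg_left ?_ hEn0.le
          refine add_le_add (add_le_add (mul_le_mul_of_nonneg_left hQ1 hX0.le)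
            (mul_le_mul_of_nonneg_left (add_le_add hQ1 hQ2) hZ0.le))
            (mul_le_mul_of_nonneg_left (mul_le_mul_of_nonneg_left hQ1 (by positivity)) hZ0.le)
      _ ≤ _ := by
          refine mul_le_mul_of_nonneg_left ?_ hEn0.le
          rw [hR]
          linarith
  refine (sum_le_sum h1).trans ?_
  rw [sum_const, Nat.card_Ico, nsmul_eq_mul, Nat.cast_sub hM]
  have h2 : ((M2 : ℝ) - M1) * (En * (X + Z * R)) ≤ 8 * Φ / a * (En * (X + Z * R)) :=
    mul_le_mul_of_nonneg_right hcard' (by positivity)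
  refine h2.trans ?_
  have h3 : 8 * Φ / a * (En * (X + Z * R)) =
      En * (8 * Φ * (X / a) + (8 * Φ * R) * (Z / a)) := by ring
  rw [h3]
  refine mul_le_mul_of_nonneg_left ?_ hEn0.le
  have h4 : 8 * Φ * (X / a) ≤ (8 * Φ * R) * (X / a) := by
    refine mul_le_mul_of_nonneg_right ?_ (by positivity)
    exact le_mul_of_one_le_right (by positivity) hR1
  rw [mul_add]
  linarith

/-- the tail of the integrated upper relation -/
theorem tail_bd {b C ε : ℝ} (hb : 0 < b) (hC : 0 < C) (hε0 : 0 ≤ ε) (hε1 : ε ≤ 1)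
    (hs : Antitone s) (hs0 : Tendsto s atTop (𝓝 0)) (hF : ∀ n, 0 ≤ F n) (hFs : Summable F)
    (hP : ∀ n M : ℕ, n ≤ M → s n - s M ≤
      C * ∑ m ∈ Ico n M, ((m : ℝ) + 1) ^ ε * Real.exp (-(b * TT s m)) + F n + F M) :
    ∃ D : ℝ, 0 < D ∧ ∀ n, F n < s n / 8 →
      s n / 4 ≤ D * (((n : ℝ) + 1) ^ ε / s n + s n ^ (-ε) / s n) *
        Real.exp (-(b * TT s n)) := by
  have hsn := x_nonneg hs hs0
  have hT := TT_mono hsn
  set Φ : ℝ := ∑' n, F n with hΦ
  have hΦ0 : 0 ≤ Φ := tsum_nonneg hF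
  have hFlim : Tendsto F atTop (𝓝 0) := hFs.tendsto_atTop_zero
  set ρ : ℝ := (b / 2) / (1 + b / 2 * s 0) with hρ
  have hs00 : 0 ≤ s 0 := hsn 0
  have hρ0 : 0 < ρ := by positivity
  set D1 : ℝ := 1 / ρ + 1 / ρ ^ 2 with hD1
  set D2 : ℝ := 8 * Φ * (3 + 2 / b + 8 * Φ) with hD2
  have hD10 : 0 < D1 := by positivity
  have hD20 : 0 ≤ D2 := by positivity
  refine ⟨C * (D1 + D2), by positivity, fun n hn => ?_⟩
  have ha0 : 0 < s n := by linarith [hF n]
  have haa : s n ≤ s 0 := hs (Nat.zero_le n)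
  have hqρ : ρ * s n ≤ 1 - Real.exp (-(b * (s n / 2))) := one_sub_exp_ge hb ha0 haa
  -- `M1` = first time with `s < a/2`
  have hex1 : ∃ m, s m < s n / 2 :=
    ((hs0.eventually (gt_mem_nhds (show (0 : ℝ) < s n / 2 by linarith))).exists)
  classical
  set M1 := Nat.find hex1 with hM1
  have hM1s : s M1 < s n / 2 := Nat.find_spec hex1
  have hM1min : ∀ m < M1, s n / 2 ≤ s m := fun m hm => not_lt.1 (Nat.find_min hex1 hm)
  have hnM1 : n < M1 := by
    by_contra! h
    have := hs h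
    linarith
  -- `M2` = first time `≥ M1` with `F < a/8`
  have hex2 : ∃ m, M1 ≤ m ∧ F m < s n / 8 := by
    obtain ⟨m, h1, h2⟩ := ((eventually_ge_atTop M1).and
      (hFlim.eventually (gt_mem_nhds (show (0 : ℝ) < s n / 8 by linarith)))).exists
    exact ⟨m, h1, h2⟩
  set M2 := Nat.find hex2 with hM2
  have hM2s : M1 ≤ M2 ∧ F M2 < s n / 8 := Nat.find_spec hex2
  have hM2min : ∀ m ∈ Ico M1 M2, s n / 8 ≤ F m := by
    intro m hm
    have hm' := mem_Ico.1 hm
    have := Nat.find_min hex2 hm'.2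
    by_contra! h
    exact this ⟨hm'.1, h⟩
  -- `T` grows at least linearly up to `M1`
  have hTlin : ∀ m, n ≤ m → m ≤ M1 → TT s n + ((m : ℝ) - n) * (s n / 2) ≤ TT s m := by
    intro m hnm hm
    have h1 := TT_sub s hnm
    have h2 : ∑ i ∈ Ico n m, (s n / 2) ≤ ∑ i ∈ Ico n m, s i :=
      sum_le_sum fun i hi => hM1min i (by have := mem_Ico.1 hi; omega)
    rw [sum_const, Nat.card_Ico, nsmul_eq_mul, Nat.cast_sub hnm] at h2
    linarith
  have hcard : ((M2 : ℝ) - M1) * (s n / 8) ≤ Φ := by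
    have h1 : ∑ m ∈ Ico M1 M2, s n / 8 ≤ ∑ m ∈ Ico M1 M2, F m := sum_le_sum hM2min
    have h2 : ∑ m ∈ Ico M1 M2, F m ≤ Φ := hFs.sum_le_tsum _ fun k _ => hF k
    rw [sum_const, Nat.card_Ico, nsmul_eq_mul, Nat.cast_sub hM2s.1] at h1
    linarith
  have hfirst := piece_one hb hε0 hε1 ha0 hρ0 hqρ hTlin
  have hsecond := piece_two hb hε0 hε1 ha0 hΦ0 hnM1.le hM2s.1 hT (hTlin M1 hnM1.le le_rfl) hcard
  have hPn := hP n M2 (by omega)
  rw [← sum_Ico_consecutive _ hnM1.le hM2s.1] at hPn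
  have h1 : s M2 ≤ s M1 := hs hM2s.1
  have h2 := mul_le_mul_of_nonneg_left (add_le_add hfirst hsecond) hC.le
  have h3 : C * (D1 + D2) * (((n : ℝ) + 1) ^ ε / s n + s n ^ (-ε) / s n) *
      Real.exp (-(b * TT s n)) =
      C * (Real.exp (-(b * TT s n)) * (D1 * (((n : ℝ) + 1) ^ ε / s n + s n ^ (-ε) / s n)) +
        Real.exp (-(b * TT s n)) * (D2 * (((n : ℝ) + 1) ^ ε / s n + s n ^ (-ε) / s n))) := by
    ring
  rw [h3]
  linarith [hM2s.2]

/-- **upper lemma, integrated form** -/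
theorem up_gen {b C ε : ℝ} (hb : 0 < b) (hC : 0 < C) (hε0 : 0 ≤ ε) (hε1 : ε ≤ 1)
    (hs : Antitone s) (hs0 : Tendsto s atTop (𝓝 0)) (hF : ∀ n, 0 ≤ F n) (hFs : Summable F)
    (hP : ∀ n M : ℕ, n ≤ M → s n - s M ≤
      C * ∑ m ∈ Ico n M, ((m : ℝ) + 1) ^ ε * Real.exp (-(b * TT s m)) + F n + F M) :
    ∃ β : ℝ, 0 < β ∧ ∀ N : ℕ, Real.exp (b / (2 + ε) * TT s N) ≤ β * ((N : ℝ) + 1) := by
  have hsn := x_nonneg hs hs0
  have hT0 := TT_nonneg hsn
  obtain ⟨D, hD, hD'⟩ := tail_bd hb hC hε0 hε1 hs hs0 hF hFs hP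
  set θ : ℝ := b / (2 + ε) with hθ
  have hθ0 : 0 < θ := by positivity
  set v : ℕ → ℝ := fun n => Real.exp (θ * TT s n) with hv
  have hv0 : ∀ n, 0 < v n := fun n => Real.exp_pos _
  have hv1 : ∀ n, 1 ≤ v n := fun n => Real.one_le_exp (mul_nonneg hθ0.le (hT0 n))
  have hvs : ∀ n, v (n + 1) = v n * Real.exp (θ * s n) := by
    intro n
    simp only [hv]
    rw [← Real.exp_add, TT_succ]; ring_nf
  -- main bound when `v n ≥ n+1`
  set D' : ℝ := 1 + 8 * D + 8 with hD'def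
  have hkey : ∀ n : ℕ, (n : ℝ) + 1 ≤ v n → s n ≤ D' * (1 / v n + F n) := by
    intro n hn
    have hvn := hv0 n
    rcases le_or_gt (s n / 8) (F n) with hf | hf
    · have h1 : 0 ≤ 1 / v n := by positivity
      have h2 : s n ≤ 8 * F n := by linarith
      have h3 : 8 * F n ≤ D' * F n := mul_le_mul_of_nonneg_right (by rw [hD'def]; linarith) (hF n)
      have h4 : 0 ≤ D' * (1 / v n) := by positivity
      rw [mul_add]; linarith
    · have ha0 : 0 < s n := by linarith [hF n]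
      have h1 := hD' n hf
      set a := s n with ha
      set z := a * v n with hz
      have hz0 : 0 < z := by positivity
      -- claim `z ≤ 1 + 8 D`
      have hclaim : z ≤ 1 + 8 * D := by
        rcases le_or_gt z 1 with hz1 | hz1
        · linarith
        · have h2 : Real.exp (-(b * TT s n)) = v n ^ (-(2 + ε)) := by
            simp only [hv]
            rw [← Real.exp_mul]
            congr 1
            rw [hθ]; field_simp
          have h3 : ((n : ℝ) + 1) ^ ε ≤ v n ^ ε := Real.rpow_le_rpow (by positivity) hn hε0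
          have h4 : v n * (a / 4) ≤ v n * (D * (v n ^ ε / a + a ^ (-ε) / a) * v n ^ (-(2 + ε))) := by
            refine mul_le_mul_of_nonneg_left ?_ hvn.le
            refine h1.trans ?_
            rw [h2]
            refine mul_le_mul_of_nonneg_right ?_ (by positivity)
            refine mul_le_mul_of_nonneg_left ?_ hD.le
            gcongr
          have h5 : v n * (v n ^ ε / a * v n ^ (-(2 + ε))) = 1 / z := by
            have : v n ^ (-(2 + ε)) = (v n ^ 2)⁻¹ * (v n ^ ε)⁻¹ := by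
              rw [Real.rpow_neg hvn.le, Real.rpow_add hvn, mul_inv]
              norm_num
            rw [this, hz]
            field_simp
          have h6 : v n * (a ^ (-ε) / a * v n ^ (-(2 + ε))) = z ^ (-ε) / z := by
            have : v n ^ (-(2 + ε)) = (v n ^ 2)⁻¹ * v n ^ (-ε) := by
              rw [Real.rpow_neg hvn.le, Real.rpow_add hvn, mul_inv, Real.rpow_neg hvn.le]
              norm_num
            rw [this, hz, Real.mul_rpow ha0.le hvn.le]
            field_simp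
          have h7 : z ^ (-ε) ≤ 1 := Real.rpow_le_one_of_one_le_of_nonpos hz1.le (by linarith)
          have h8 : z / 4 ≤ D * (1 / z + 1 / z) := by
            calc z / 4 = v n * (a / 4) := by rw [hz]; ring
              _ ≤ _ := h4
              _ = D * (v n * (v n ^ ε / a * v n ^ (-(2 + ε))) +
                  v n * (a ^ (-ε) / a * v n ^ (-(2 + ε)))) := by ring
              _ = D * (1 / z + z ^ (-ε) / z) := by rw [h5, h6]
              _ ≤ D * (1 / z + 1 / z) := by gcongr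
          have h9 : z * z ≤ 8 * D := by
            have h10 := mul_le_mul_of_nonneg_left h8 (show 0 ≤ 4 * z by positivity)
            have h11 : 4 * z * (D * (1 / z + 1 / z)) = 8 * D := by field_simp; ring
            rw [h11] at h10
            linarith
          nlinarith
      have h2 : a ≤ (1 + 8 * D) * (1 / v n) := by
        rw [mul_one_div, le_div_iff₀ hvn]
        exact hclaim
      have h3 : (1 + 8 * D) * (1 / v n) ≤ D' * (1 / v n) :=
        mul_le_mul_of_nonneg_right (by rw [hD'def]; linarith) (by positivity)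
      have h4 : 0 ≤ D' * F n := mul_nonneg (by positivity) (hF n)
      rw [mul_add]; linarith
  set E0 : ℝ := Real.exp (θ * s 0) with hE0
  have hE01 : 1 ≤ E0 := Real.one_le_exp (mul_nonneg hθ0.le (hsn 0))
  have hD'0 : 0 < D' := by positivity
  set G : ℝ := θ * E0 * D' with hG
  have hG0 : 0 < G := by positivity
  set β : ℝ := max E0 G with hβ
  have hβ0 : 0 < β := lt_of_lt_of_le (by positivity) (le_max_left _ _)
  set Φ : ℝ := ∑' n, F n with hΦ
  have hmain : ∀ n : ℕ, v n ≤ β * Real.exp (G * ∑ i ∈ range n, F i) * ((n : ℝ) + 1) := by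
    intro n
    induction n with
    | zero =>
      simp only [hv, TT_zero, range_zero, sum_empty, mul_zero, Real.exp_zero, Nat.cast_zero,
        zero_add, mul_one]
      exact hE01.trans (le_max_left _ _)
    | succ n ih =>
      set P := Real.exp (G * ∑ i ∈ range n, F i) with hPdef
      have hP0 : 0 < P := Real.exp_pos _
      have hP1 : 1 ≤ P := Real.one_le_exp (mul_nonneg hG0.le (sum_nonneg fun i _ => hF i))
      have hPs : Real.exp (G * ∑ i ∈ range (n + 1), F i) = P * Real.exp (G * F n) := by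
        rw [sum_range_succ, mul_add, Real.exp_add]
      rw [hPs, hvs n]
      have hFe : 1 + G * F n ≤ Real.exp (G * F n) := by
        have := Real.add_one_le_exp (G * F n); linarith
      have hFe1 : 1 ≤ Real.exp (G * F n) := Real.one_le_exp (mul_nonneg hG0.le (hF n))
      have hQ1 : 1 ≤ P * Real.exp (G * F n) := by nlinarith
      rcases lt_or_ge (v n) ((n : ℝ) + 1) with hc | hc
      · have h1 : Real.exp (θ * s n) ≤ E0 := by
          apply Real.exp_le_exp.2
          exact mul_le_mul_of_nonneg_left (hs (Nat.zero_le n)) hθ0.le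
        have h2 : v n * Real.exp (θ * s n) ≤ ((n : ℝ) + 1) * E0 :=
          mul_le_mul hc.le h1 (Real.exp_pos _).le (by positivity)
        refine h2.trans ?_
        have h3 : E0 ≤ β := le_max_left _ _
        push_cast
        have h4 : ((n : ℝ) + 1) * E0 ≤ (n + 1 + 1) * (β * (P * Real.exp (G * F n))) := by
          refine mul_le_mul (by linarith) ?_ (by positivity) (by positivity)
          nlinarith
        linarith
      · have h1 := hkey n hc
        have h2 : Real.exp (θ * s n) ≤ 1 + θ * E0 * s n := by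
          -- `e^x ≤ 1 + x e^x`
          set x := θ * s n with hx
          have hx0 : 0 ≤ x := mul_nonneg hθ0.le (hsn n)
          have h3 : Real.exp x ≤ E0 := by
            apply Real.exp_le_exp.2
            exact mul_le_mul_of_nonneg_left (hs (Nat.zero_le n)) hθ0.le
          have h4 := Real.add_one_le_exp (-x)
          have h5 : Real.exp (-x) * Real.exp x = 1 := by rw [← Real.exp_add]; simp
          have h6 : Real.exp x ≤ 1 + x * Real.exp x := by
            nlinarith [Real.exp_pos x]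
          have h7 : x * Real.exp x ≤ x * E0 := mul_le_mul_of_nonneg_left h3 hx0
          calc Real.exp x ≤ 1 + x * E0 := by linarith
            _ = 1 + θ * E0 * s n := by rw [hx]; ring
        have h8 : v n * Real.exp (θ * s n) ≤ v n * (1 + G * F n) + G := by
          have h9 : θ * E0 * s n ≤ G * (1 / v n + F n) := by
            rw [hG, mul_assoc (θ * E0)]
            exact mul_le_mul_of_nonneg_left h1 (by positivity)
          have h10 : v n * Real.exp (θ * s n) ≤ v n * (1 + G * (1 / v n + F n)) :=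
            mul_le_mul_of_nonneg_left (by linarith) (hv0 n).le
          have h11 : v n * (1 + G * (1 / v n + F n)) = v n * (1 + G * F n) + G := by
            have := (hv0 n).ne'
            field_simp
            ring
          linarith
        refine h8.trans ?_
        have h12 : v n * (1 + G * F n) ≤ β * P * ((n : ℝ) + 1) * Real.exp (G * F n) :=
          mul_le_mul ih hFe (by have := mul_nonneg hG0.le (hF n); linarith) (by positivity)
        have h13 : G ≤ β * (P * Real.exp (G * F n)) := by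
          have h14 : G ≤ β := le_max_right _ _
          nlinarith
        push_cast
        nlinarith
  refine ⟨β * Real.exp (G * Φ), by positivity, fun N => ?_⟩
  refine (hmain N).trans ?_
  refine mul_le_mul_of_nonneg_right ?_ (by positivity)
  refine mul_le_mul_of_nonneg_left ?_ hβ0.le
  apply Real.exp_le_exp.2
  exact mul_le_mul_of_nonneg_left (hFs.sum_le_tsum _ fun k _ => hF k) hG0.le

end

end Vale.Agent.P159.H264
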